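import Crest.Agent.R285.Comp

/-! Row 285: randomized approximate computations `App`, noisy access `Acc`, sampling `Near`. -/

set_option autoImplicit false

namespace Crest.Agent.R285

open MeasureTheory ProbabilityTheory Crest.OracleSampling Set
open scoped ENNReal NNReal InnerProductSpace

variable {d : ℕ} {A A' : Type} [MeasurableSpace A] [MeasurableSpace A']

theorem lip_id' : Lip 1 fun x : E d => x := fun x y => by simp

theorem Lip.integrable_comp {Ω Y : Type} [MeasurableSpace Ω] {μ : Measure Ω} [IsFiniteMeasure μ]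
    [NormedAddCommGroup Y] {L : ℝ} {f : E d → Y} (hf : Lip L f) {Φ : Ω → E d}
    (hΦ : Integrable Φ μ) : Integrable (fun ω => f (Φ ω)) μ :=
  ((integrable_const ‖f 0‖).add (hΦ.norm.const_mul L)).mono'
    (hf.continuous.comp_aestronglyMeasurable hΦ.1) (Filter.Eventually.of_forall fun ω => by
      simpa using hf.norm_le (Φ ω) 0)

theorem Lip.abs_integral_sub_le {Ω : Type} [MeasurableSpace Ω] {μ : Measure Ω}
    [IsProbabilityMeasure μ] {L : ℝ} {f : E d → ℝ} (hf : Lip L f) {Φ : Ω → E d}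
    (hΦ : Integrable Φ μ) (x : E d) : |∫ ω, f (Φ ω) ∂μ - f x| ≤ L * ∫ ω, ‖Φ ω - x‖ ∂μ := by
  have h1 : ∫ ω, f (Φ ω) ∂μ - f x = ∫ ω, f (Φ ω) - f x ∂μ := by
    rw [integral_sub (hf.integrable_comp hΦ) (integrable_const _)]; simp
  rw [h1, ← integral_const_mul, ← Real.norm_eq_abs]
  exact norm_integral_le_of_norm_le ((hΦ.sub (integrable_const x)).norm.const_mul L)
    (Filter.Eventually.of_forall fun ω => hf _ _)

section App
variable {q q' : ℝ} {e e' : Pot d → A → ℝ} {T T' : Pot d → A → (E d → ℝ) → ℝ}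

theorem App.q_nonneg (h : App q e T) : 0 ≤ q := by
  obtain ⟨n, Ω, _, μ, _, Φ, hq, -⟩ := h
  exact (Nat.cast_nonneg n).trans hq

theorem App.e_nonneg (h : App q e T) (V : Pot d) (a : A) : 0 ≤ e V a := by
  obtain ⟨n, Ω, _, μ, _, Φ, -, -, -, he⟩ := h
  have := he V a 1 (fun _ => 0) zero_le_one fun x y => by simp
  simpa using (abs_nonneg _).trans this

theorem App.mono (h : App q e T) (hq : q ≤ q') (he : ∀ V a, e V a ≤ e' V a) : App q' e' T := by
  obtain ⟨n, Ω, _, μ, _, Φ, h1, h2, h3, h4⟩ := h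
  exact ⟨n, Ω, inferInstance, μ, inferInstance, Φ, h1.trans hq, h2, h3, fun V a L f hL hf =>
    (h4 V a L f hL hf).trans (mul_le_mul_of_nonneg_left (he V a) hL)⟩

theorem App.perturb (h : App q e T) (hT : ∀ V a (L : ℝ) (f : E d → ℝ), 0 ≤ L → Lip L f →
    |T V a f - T' V a f| ≤ L * e' V a) : App q (fun V a => e V a + e' V a) T' := by
  obtain ⟨n, Ω, _, μ, _, Φ, h1, h2, h3, h4⟩ := h
  refine ⟨n, Ω, inferInstance, μ, inferInstance, Φ, h1, h2, h3, fun V a L f hL hf => ?_⟩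
  rw [mul_add]
  exact (abs_sub_le _ _ _).trans (add_le_add (h4 V a L f hL hf) (hT V a L f hL hf))

theorem App.congr (h : App q e T) (hT : ∀ V a (L : ℝ) (f : E d → ℝ), 0 ≤ L → Lip L f →
    T V a f = T' V a f) : App q e T' := by
  obtain ⟨n, Ω, _, μ, _, Φ, h1, h2, h3, h4⟩ := h
  exact ⟨n, Ω, inferInstance, μ, inferInstance, Φ, h1, h2, h3, fun V a L f hL hf =>
    hT V a L f hL hf ▸ h4 V a L f hL hf⟩

theorem App.pre (h : App q e T) {g : A' → A} (hg : Measurable g) :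
    App q (fun V a => e V (g a)) fun V a => T V (g a) := by
  obtain ⟨n, Ω, _, μ, _, Φ, h1, h2, h3, h4⟩ := h
  exact ⟨n, Ω, inferInstance, μ, inferInstance, fun V p => Φ V (g p.1, p.2), h1,
    h2.pre (g := fun p : A' × Ω => (g p.1, p.2)) (by fun_prop), fun V a => h3 V (g a),
    fun V a => h4 V (g a)⟩

/-- Post-compose with a measurable map that is Lipschitz in the output. -/
theorem App.map (h : App q e T) {g : A × E d → E d} (hg : Measurable g) {c : ℝ} (hc : 0 ≤ c)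
    (hl : ∀ a, Lip c fun r => g (a, r)) :
    App q (fun V a => c * e V a) fun V a f => T V a fun r => f (g (a, r)) := by
  obtain ⟨n, Ω, _, μ, _, Φ, h1, h2, h3, h4⟩ := h
  refine ⟨n, Ω, inferInstance, μ, inferInstance, _, h1,
    h2.post (g := fun p : (A × Ω) × E d => g (p.1.1, p.2)) (by fun_prop),
    fun V a => (hl a).integrable_comp (h3 V a), fun V a L f hL hf => ?_⟩
  rw [← mul_assoc]
  exact h4 V a (L * c) _ (mul_nonneg hL hc) (hf.comp (hl a) hL)

/-- Run the first computation, feed its output to the second (product of the seed spaces,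
`Comp.seq`).  Integrability: `∫ ‖Φ₂((a,r),·)‖ ≤ T₂ (a,r) ‖·‖ + e₂ (a,r) ≤ T₂ (a,0) ‖·‖ + Λ ‖r‖ +
α + β ‖r‖` (`integrable_prod_iff`).  Error: `|∫∫ f Φ₂ - ∫ T₂ (a, Φ₁) f| ≤ L ∫ (α + β ‖Φ₁‖)` and
`∫ ‖Φ₁‖ ≤ T₁ ‖·‖ + e₁`. -/
theorem App.bind {q₁ q₂ Λ β : ℝ} {e₁ α : Pot d → A → ℝ} {T₁ : Pot d → A → (E d → ℝ) → ℝ}
    {e₂ : Pot d → A × E d → ℝ} {T₂ : Pot d → A × E d → (E d → ℝ) → ℝ} (h₁ : App q₁ e₁ T₁)
    (h₂ : App q₂ e₂ T₂) (hΛ0 : 0 ≤ Λ) (hβ : 0 ≤ β)
    (hΛ : ∀ V a (L : ℝ) (f : E d → ℝ), 0 ≤ L → Lip L f → Lip (L * Λ) fun r => T₂ V (a, r) f)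
    (he : ∀ V a r, e₂ V (a, r) ≤ α V a + β * ‖r‖) :
    App (q₁ + q₂) (fun V a => Λ * e₁ V a + α V a + β * (T₁ V a (fun r => ‖r‖) + e₁ V a))
      fun V a f => T₁ V a fun r => T₂ V (a, r) f := by
  obtain ⟨n₁, Ω₁, _, μ₁, _, Φ₁, hq₁, hc₁, hi₁, he₁⟩ := h₁
  obtain ⟨n₂, Ω₂, _, μ₂, _, Φ₂, hq₂, hc₂, hi₂, he₂⟩ := h₂
  have hc := (hc₁.pre (g := fun p : A × Ω₁ × Ω₂ => (p.1, p.2.1)) (by fun_prop)).seq
    (hc₂.pre (g := fun p : (A × Ω₁ × Ω₂) × E d => ((p.1.1, p.2), p.1.2.2)) (by fun_prop))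
  have hi : ∀ V a, Integrable (fun ω : Ω₁ × Ω₂ => Φ₂ V ((a, Φ₁ V (a, ω.1)), ω.2)) (μ₁.prod μ₂) := by
    intro V a
    have hm : AEStronglyMeasurable (fun ω : Ω₁ × Ω₂ => Φ₂ V ((a, Φ₁ V (a, ω.1)), ω.2))
        (μ₁.prod μ₂) := ((hc.measurable V).comp measurable_prodMk_left).aestronglyMeasurable
    refine (integrable_prod_iff hm).2 ⟨Filter.Eventually.of_forall fun ω => hi₂ V (a, Φ₁ V (a, ω)), ?_⟩
    refine ((integrable_const (T₂ V (a, 0) (fun r => ‖r‖) + α V a)).add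
      ((hi₁ V a).norm.const_mul (Λ + β))).mono' hm.norm.integral_prod_right'
      (Filter.Eventually.of_forall fun ω => ?_)
    have h1 := he₂ V (a, Φ₁ V (a, ω)) 1 _ zero_le_one lip_norm
    have h2 := hΛ V a 1 _ zero_le_one lip_norm (Φ₁ V (a, ω)) 0
    have h3 := he V a (Φ₁ V (a, ω))
    rw [Real.norm_eq_abs, sub_zero] at h2
    rw [Real.norm_of_nonneg (integral_nonneg fun _ => norm_nonneg _)]
    have h4 := (abs_le.1 h1).2
    have h5 := (abs_le.1 h2).2
    simp only [Pi.add_apply]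
    linarith
  refine ⟨n₁ + n₂, Ω₁ × Ω₂, inferInstance, μ₁.prod μ₂, inferInstance, _, ?_, hc, hi,
    fun V a L f hL hf => ?_⟩
  · push_cast; linarith
  have hfi := hf.integrable_comp (hi V a)
  have hg := hΛ V a L f hL hf
  have h1 := he₁ V a (L * Λ) _ (mul_nonneg hL hΛ0) hg
  have h2 := (abs_le.1 (he₁ V a 1 _ zero_le_one lip_norm)).2
  have h3 : |∫ ω₁, ∫ ω₂, f (Φ₂ V ((a, Φ₁ V (a, ω₁)), ω₂)) ∂μ₂ ∂μ₁ -
      ∫ ω₁, T₂ V (a, Φ₁ V (a, ω₁)) f ∂μ₁| ≤ L * (α V a + β * ∫ ω, ‖Φ₁ V (a, ω)‖ ∂μ₁) := by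
    rw [← integral_sub hfi.integral_prod_left (hg.integrable_comp (hi₁ V a)), ← Real.norm_eq_abs]
    have hb : Integrable (fun ω => L * (α V a + β * ‖Φ₁ V (a, ω)‖)) μ₁ :=
      ((integrable_const _).add ((hi₁ V a).norm.const_mul β)).const_mul L
    refine (norm_integral_le_of_norm_le hb (Filter.Eventually.of_forall fun ω => ?_)).trans_eq ?_
    · exact (he₂ V (a, Φ₁ V (a, ω)) L f hL hf).trans (mul_le_mul_of_nonneg_left (he V a _) hL)
    · rw [integral_const_mul, integral_add (integrable_const _) ((hi₁ V a).norm.const_mul β),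
        integral_const_mul]
      simp
  have h4 : L * (β * ∫ ω, ‖Φ₁ V (a, ω)‖ ∂μ₁) ≤ L * (β * (T₁ V a (fun r => ‖r‖) + e₁ V a)) := by
    gcongr; linarith
  rw [integral_prod _ hfi]
  refine (abs_sub_le _ _ _).trans ((add_le_add h3 h1).trans ?_)
  linarith

end App

section Acc
variable {q q' σ σ' : ℝ} {e e' : Pot d → A → ℝ} {u u' : Pot d → A → E d}

theorem lip_gam_smooth {f : E d → ℝ} {L : ℝ} (hf : Lip L f) (σ : ℝ) :
    Lip L fun x => ∫ ξ, f (x + σ • ξ) ∂gam d := by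
  intro x y
  rw [← integral_sub (hf.integrable_gam x σ) (hf.integrable_gam y σ)]
  refine (norm_integral_le_of_norm_le_const (C := L * ‖x - y‖)
    (Filter.Eventually.of_forall fun ξ => ?_)).trans_eq (by simp)
  simpa using hf (x + σ • ξ) (y + σ • ξ)

theorem integral_norm_add_gam_le (x : E d) (σ : ℝ) :
    ∫ ξ, ‖x + σ • ξ‖ ∂gam d ≤ ‖x‖ + |σ| * √d := by
  have hi : Integrable (fun ξ : E d => ‖ξ‖) (gam d) := by simpa using lip_norm.integrable_gam 0 1
  calc ∫ ξ, ‖x + σ • ξ‖ ∂gam d ≤ ∫ ξ, ‖x‖ + |σ| * ‖ξ‖ ∂gam d :=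
        integral_mono (lip_norm.integrable_gam x σ) ((integrable_const _).add (hi.const_mul _))
          fun ξ => (norm_add_le _ _).trans_eq (by rw [norm_smul, Real.norm_eq_abs])
    _ = ‖x‖ + |σ| * ∫ ξ, ‖ξ‖ ∂gam d := by
        rw [integral_add (integrable_const _) (hi.const_mul _), integral_const_mul]; simp
    _ ≤ _ := by gcongr; exact integral_norm_gam_le

theorem acc_known {x : A → E d} (hx : Measurable x) (σ : ℝ) :
    Acc (d := d) 0 σ (fun _ _ => 0) fun _ a => x a := by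
  exact ⟨0, E d, inferInstance, gam d, inferInstance, fun _ p => x p.1 + σ • p.2, by simp,
    comp_of_measurable (by fun_prop), fun _ a => lip_id'.integrable_gam (x a) σ,
    fun V a L f _ _ => by simp⟩

theorem Acc.mono (h : Acc q σ e u) (hq : q ≤ q') (he : ∀ V a, e V a ≤ e' V a) : Acc q' σ e' u :=
  App.mono h hq he

theorem Acc.congr (h : Acc q σ e u) (hu : ∀ V a, u' V a = u V a) : Acc q σ e u' := by
  have : u' = u := by funext V a; exact hu V a
  rwa [this]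

theorem Acc.pre (h : Acc q σ e u) {g : A' → A} (hg : Measurable g) :
    Acc q σ (fun V a => e V (g a)) fun V a => u V (g a) := App.pre h hg

theorem Acc.perturb (h : Acc q σ e u) (hu : ∀ V a, ‖u V a - u' V a‖ ≤ e' V a) :
    Acc q σ (fun V a => e V a + e' V a) u' := by
  refine App.perturb h fun V a L f hL hf => ?_
  exact (lip_gam_smooth hf σ _ _).trans (mul_le_mul_of_nonneg_left (hu V a) hL)

theorem Acc.smul (h : Acc q σ e u) (c : ℝ) :
    Acc q (c * σ) (fun V a => |c| * e V a) fun V a => c • u V a := by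
  refine (App.map h (g := fun p => c • p.2) (by fun_prop) (abs_nonneg c) fun a => ?_).congr
    fun V a L f _ _ => ?_
  · simpa using lip_id'.smul c
  · simp only [smul_add, smul_smul]

theorem Acc.add_known' (h : Acc q σ e u) {x : A → E d} (hx : Measurable x) :
    Acc q σ e fun V a => u V a + x a := by
  refine ((App.map h (g := fun p => p.2 + x p.1) (by fun_prop) zero_le_one fun a => ?_).mono le_rfl
    fun V a => by simp).congr fun V a L f _ _ => ?_
  · intro y z; simp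
  · simp only [add_right_comm]

/-- Independent runs; `integral_gam_add`. -/
theorem Acc.add_sq {q₁ q₂ σ₁ σ₂ : ℝ} {e₁ e₂ : Pot d → A → ℝ} {u₁ u₂ : Pot d → A → E d}
    (h₁ : Acc q₁ σ₁ e₁ u₁) (h₂ : Acc q₂ σ₂ e₂ u₂) (hσ : σ ^ 2 = σ₁ ^ 2 + σ₂ ^ 2) :
    Acc (q₁ + q₂) σ (fun V a => e₁ V a + e₂ V a) fun V a => u₁ V a + u₂ V a := by
  have h₃ : Acc q₂ σ₂ (fun V (p : A × E d) => e₂ V p.1) fun V p => u₂ V p.1 + p.2 :=
    (h₂.pre measurable_fst).add_known' measurable_snd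
  refine ((App.bind h₁ h₃ (Λ := 1) (β := 0) (α := e₂) zero_le_one le_rfl
    (fun V a L f hL hf => ?_) fun V a r => by simp).mono le_rfl fun V a => by simp).congr
    fun V a L f _ hf => ?_
  · intro x y
    simpa using lip_gam_smooth hf σ₂ (u₂ V a + x) (u₂ V a + y)
  · rw [← integral_gam_add hσ hf.continuous.measurable _ (hf.integrable_gam _ _)]
    simp only [add_comm (u₁ V a), add_assoc]

/-- Add `acc_known 0` with noise `√(σ'² - σ²)`. -/
theorem Acc.noise (h : Acc q σ e u) (hσ : σ ^ 2 ≤ σ' ^ 2) : Acc q σ' e u := by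
  have := h.add_sq (acc_known (x := fun _ => 0) measurable_const √(σ' ^ 2 - σ ^ 2))
    (σ := σ') (by rw [Real.sq_sqrt (by linarith)]; ring)
  simpa using this

theorem Acc.noise' (h : Acc q σ e u) (hσ : |σ| ≤ σ') : Acc q σ' e u :=
  h.noise (by rw [← sq_abs σ]; exact pow_le_pow_left₀ (abs_nonneg _) hσ 2)

theorem Acc.add {q₁ q₂ σ₁ σ₂ : ℝ} {e₁ e₂ : Pot d → A → ℝ} {u₁ u₂ : Pot d → A → E d}
    (h₁ : Acc q₁ σ₁ e₁ u₁) (h₂ : Acc q₂ σ₂ e₂ u₂) (hσ : |σ₁| + |σ₂| ≤ σ) :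
    Acc (q₁ + q₂) σ (fun V a => e₁ V a + e₂ V a) fun V a => u₁ V a + u₂ V a := by
  refine (h₁.add_sq h₂ (σ := √(σ₁ ^ 2 + σ₂ ^ 2)) (Real.sq_sqrt (by positivity))).noise ?_
  rw [Real.sq_sqrt (by positivity), ← sq_abs σ₁, ← sq_abs σ₂]
  have h1 := abs_nonneg σ₁
  have h2 := abs_nonneg σ₂
  nlinarith [mul_nonneg h1 h2]

theorem Acc.add_known (h : Acc q σ e u) {x : A → E d} (hx : Measurable x) :
    Acc q σ e fun V a => u V a + x a := by
  exact h.add_known' hx

theorem Acc.sum {ι : Type*} (s : Finset ι) (c : ι → ℝ) {u : ι → Pot d → A → E d}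
    (h : ∀ i ∈ s, Acc q σ e (u i)) (hσ : 0 ≤ σ) :
    Acc (s.card * q) ((∑ i ∈ s, |c i|) * σ) (fun V a => (∑ i ∈ s, |c i|) * e V a)
      fun V a => ∑ i ∈ s, c i • u i V a := by
  classical
  induction s using Finset.induction_on with
  | empty => simpa using acc_known (d := d) (x := fun _ : A => 0) measurable_const 0
  | insert i s hi ih =>
    have h1 := (h i (Finset.mem_insert_self _ _)).smul (c i)
    have h2 := ih fun j hj => h j (Finset.mem_insert_of_mem hj)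
    have h3 : 0 ≤ ∑ j ∈ s, |c j| := Finset.sum_nonneg fun _ _ => abs_nonneg _
    simp only [Finset.sum_insert hi, Finset.card_insert_of_notMem hi]
    refine (h1.add h2 ?_).mono (le_of_eq ?_) fun V a => le_of_eq ?_
    · rw [abs_mul, abs_of_nonneg hσ, abs_of_nonneg (mul_nonneg h3 hσ), add_mul]
    · push_cast; ring
    · ring

/-- Query the gradient at the computed point: `|∫ f (∇V Φ) - f (∇V u)| ≤ 2 L ∫ ‖Φ - u‖`, and
`‖· - u‖` is a test function. -/
theorem Acc.grad (h : Acc q σ e u) :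
    Acc (q + 1) 0 (fun V a => 2 * (e V a + |σ| * √d)) fun V a => gradient V.1 (u V a) := by
  obtain ⟨n, Ω, _, μ, _, Φ, h1, h2, h3, h4⟩ := h
  refine ⟨n + 1, Ω, inferInstance, μ, inferInstance, _, by push_cast; linarith,
    h2.seq (comp_grad measurable_snd), fun V a => (adm_nice V.2).lip.integrable_comp (h3 V a),
    fun V a L f hL hf => ?_⟩
  have hg := hf.comp (adm_nice V.2).lip hL
  have hn : Lip 1 fun x => ‖x - u V a‖ := fun x y => by simpa using lip_norm (x - u V a) (y - u V a)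
  have h5 := (abs_le.1 (h4 V a 1 _ zero_le_one hn)).2
  have h6 := integral_norm_add_gam_le (d := d) 0 σ
  simp only [add_sub_cancel_left, one_mul] at h5
  simp only [zero_add, norm_zero] at h6
  have h7 := hg.abs_integral_sub_le (h3 V a) (u V a)
  simp only [zero_smul, add_zero, integral_const, probReal_univ, one_smul]
  refine h7.trans ?_
  have h8 : L * (2 * 1) * ∫ ω, ‖Φ V (a, ω) - u V a‖ ∂μ ≤ L * (2 * 1) * (e V a + |σ| * √d) := by
    gcongr; linarith
  linarith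

end Acc

theorem Eng.mono {N v σ σ' ρ ρ' M M' ζ ζ' : ℝ} (h : Eng d N v σ ρ M ζ) (hσ : |σ| ≤ σ')
    (hρ : |ρ'| ≤ ρ) (hM0 : 0 ≤ M) (hM : M ≤ M') (hζ0 : 0 ≤ ζ) (hζ : M * ζ ≤ M' * ζ') :
    Eng d N v σ' ρ' M' ζ' := by
  intro A _ q e u hu
  have hq := App.q_nonneg hu
  refine ((h A q e u (hu.noise' hρ)).noise' hσ).mono (by gcongr) fun V a => ?_
  have he := App.e_nonneg hu V a
  have h1 : M * e V a ≤ M' * e V a := by gcongr
  have h2 : M * ζ * (√N + ‖u V a‖) ≤ M' * ζ' * (√N + ‖u V a‖) := by gcongr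
  linarith

theorem near_zero {μ : Pot d → Measure (E d)} (hμ : ∀ V, IsProbabilityMeasure (μ V))
    (hi : ∀ V, Integrable (fun x => x) (μ V)) {e : ℝ} (he : ∀ V, ∫ x, ‖x‖ ∂μ V ≤ e) :
    Near 0 e μ := by
  refine ⟨0, Unit, inferInstance, Measure.dirac (), inferInstance, fun _ _ => 0, by simp,
    comp_of_measurable measurable_const, fun _ _ => integrable_const _, fun V a L f hL hf => ?_⟩
  have := hμ V
  have h1 := hf.abs_integral_sub_le (hi V) 0
  simp only [sub_zero] at h1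
  simp only [integral_const, probReal_univ, one_smul]
  rw [abs_sub_comm]
  exact h1.trans (mul_le_mul_of_nonneg_left (he V) hL)

/-- `App.bind` with `acc_known`. -/
theorem Near.noise {q e : ℝ} {μ μ' : Pot d → Measure (E d)} (h : Near q e μ) (r : ℝ)
    (hμ : ∀ V (L : ℝ) (f : E d → ℝ), 0 ≤ L → Lip L f →
      ∫ x, ∫ ξ, f (x + r • ξ) ∂gam d ∂μ V = ∫ x, f x ∂μ' V) : Near q e μ' := by
  refine ((App.bind h (acc_known (A := Unit × E d) measurable_snd r) (Λ := 1) (β := 0)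
    (α := fun _ _ => 0) zero_le_one le_rfl (fun V a L f hL hf => ?_) fun V a r => by simp).mono
    (by simp) fun V a => by simp).congr fun V a L f hL hf => hμ V L f hL hf
  simpa using lip_gam_smooth hf r

/-- Output `Φ ω + r ξ` (`Comp.post`, `Comp.toAlg` on the seed space `(Unit × Ω) × E d` or
`Ω × E d`); the probability of `B` is `∫ g (Φ ω)` with `g` as in `lip_smooth_ind`. -/
theorem Near.toAlg {q e : ℝ} {μ : Pot d → Measure (E d)} (h : Near q e μ) {r : ℝ} (hr : 0 < r) :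
    ∃ (n : ℕ) (A : QueryAlg d n), (n : ℝ) ≤ q ∧ ∀ (V : Pot d) (B : Set (E d)), MeasurableSet B →
      |(outputLaw A V.1 B).toReal - ∫ x, (gam d).real {ξ | x + r • ξ ∈ B} ∂μ V| ≤ r⁻¹ * e := by
  obtain ⟨n, Ω, _, ν, _, Φ, h1, h2, h3, h4⟩ := h
  have hc := (h2.pre (g := fun p : Ω × E d => ((), p.1)) (by fun_prop)).post
    (g := fun p : (Ω × E d) × E d => p.2 + r • p.1.2) (by fun_prop)
  obtain ⟨A, hA⟩ := hc.toAlg (ν.prod (gam d))
  refine ⟨n, A, h1, fun V B hB => ?_⟩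
  have hm := (hc.measurable V) hB
  rw [hA, Measure.map_apply (hc.measurable V) hB, Measure.prod_apply hm,
    ← integral_toReal (measurable_measure_prodMk_left hm).aemeasurable
      (Filter.Eventually.of_forall fun _ => measure_lt_top _ _)]
  exact h4 V () r⁻¹ _ (by positivity) (lip_smooth_ind hB hr)

end Crest.Agent.R285
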