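import Crest.Agent.R285.Heat1

/-! Row 285: the Poincaré inequality for strongly log-concave laws, from Prékopa–Leindler. -/

set_option autoImplicit false

namespace Crest.Agent.R285

open MeasureTheory ProbabilityTheory Crest.OracleSampling Set
open scoped ENNReal NNReal InnerProductSpace

variable {d : ℕ}

theorem poinc_mid {c : ℝ} (hc : 0 < c) {W : E d → ℝ} (hW : SC c W) (x y : E d) :
    2 * W ((1 - 1 / 2 : ℝ) • x + (1 / 2 : ℝ) • y) + ‖x - y‖ ^ 2 / (4 * c) ≤ W x + W y := by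
  have h := And.right hW (mem_univ x) (mem_univ y) (show (0 : ℝ) ≤ 1 - 1 / 2 by norm_num)
    (show (0 : ℝ) ≤ 1 / 2 by norm_num) (by norm_num)
  have h1 : (1 - 1 / 2 : ℝ) • x + (1 / 2 : ℝ) • y = (1 / 2 : ℝ) • (x + y) := by
    rw [smul_add]; norm_num
  have h2 := parallelogram_law_with_norm ℝ x y
  have h3 : ‖(1 / 2 : ℝ) • (x + y)‖ ^ 2 = (‖x‖ ^ 2 + ‖y‖ ^ 2) / 2 - ‖x - y‖ ^ 2 / 4 := by
    rw [norm_smul, mul_pow, Real.norm_eq_abs, sq_abs]
    nlinarith
  rw [h1] at h ⊢
  simp only [smul_eq_mul] at h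
  rw [h3] at h
  have h4 : ((‖x‖ ^ 2 + ‖y‖ ^ 2) / 2 - ‖x - y‖ ^ 2 / 4) / (2 * c) =
      (‖x‖ ^ 2 / (2 * c) + ‖y‖ ^ 2 / (2 * c)) / 2 - ‖x - y‖ ^ 2 / (4 * c) / 2 := by
    field_simp
  rw [h4] at h
  linarith

/-- Property (τ): if `g x - f y ≤ ‖x - y‖²/(4c)` for all `x, y` then
`∫ e^g dμ · ∫ e^{-f} dμ ≤ 1`.  Prékopa–Leindler at `t = 1/2` with `e^{g - W}`, `e^{-f - W}`,
`e^{-W}` and `W((x+y)/2) ≤ (W x + W y)/2 - ‖x - y‖²/(8c)`. -/
theorem tau_property {c : ℝ} (hc : 0 < c) {W : E d → ℝ} (hW : SC c W) {f g : E d → ℝ}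
    (hf : Measurable f) (hg : Measurable g) (h : ∀ x y, g x - f y ≤ ‖x - y‖ ^ 2 / (4 * c)) :
    (∫⁻ x, ENNReal.ofReal (Real.exp (g x)) ∂gib W) *
      ∫⁻ x, ENNReal.ofReal (Real.exp (-f x)) ∂gib W ≤ 1 := by
  have hp := hW.prob hc
  have hWm : Measurable W := (cvx_continuous (hW.cvx hc)).measurable
  have h1 : ∫⁻ _, (1 : ℝ≥0∞) ∂gib W = 1 := by simp
  simp only [gib, lintegral_tilted] at h1 ⊢
  set Zc : ℝ := ∫ x, Real.exp (-W x) with hZ
  have hZ0 : 0 ≤ Zc := integral_nonneg fun _ => (Real.exp_pos _).le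
  have key := Lib.PL.prekopa_leindler (d := d) (t := 1 / 2) (by norm_num) (by norm_num)
    (fun x => ENNReal.ofReal (Real.exp (-W x) / Zc) * ENNReal.ofReal (Real.exp (g x)))
    (fun x => ENNReal.ofReal (Real.exp (-W x) / Zc) * ENNReal.ofReal (Real.exp (-f x)))
    (fun x => ENNReal.ofReal (Real.exp (-W x) / Zc) * 1) (by fun_prop) (by fun_prop) (by fun_prop)
    (fun x y => by
      have e : (1 - 1 / 2 : ℝ) = 1 / 2 := by norm_num
      have hm := poinc_mid hc hW x y
      set z := (1 - 1 / 2 : ℝ) • x + (1 / 2 : ℝ) • y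
      rw [e, ← ENNReal.mul_rpow_of_nonneg _ _ (by norm_num), mul_one,
        ← ENNReal.ofReal_mul (by positivity), ← ENNReal.ofReal_mul (by positivity),
        ← ENNReal.ofReal_mul (by positivity),
        ENNReal.ofReal_rpow_of_nonneg (by positivity) (by norm_num)]
      refine ENNReal.ofReal_le_ofReal ?_
      rw [← Real.sqrt_eq_rpow]
      refine Real.sqrt_le_iff.2 ⟨by positivity, ?_⟩
      have e2 : Real.exp (-W x) / Zc * Real.exp (g x) * (Real.exp (-W y) / Zc * Real.exp (-f y)) =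
          Real.exp (-W x + g x + -W y + -f y) / Zc ^ 2 := by
        simp only [Real.exp_add]; ring
      have e3 : (Real.exp (-W z) / Zc) ^ 2 = Real.exp (-W z + -W z) / Zc ^ 2 := by
        simp only [Real.exp_add]; ring
      rw [e2, e3]
      have := h x y
      exact div_le_div_of_nonneg_right (Real.exp_le_exp.2 (by linarith)) (sq_nonneg _))
  rw [h1, show (1 - 1 / 2 : ℝ) = 1 / 2 by norm_num,
    ← ENNReal.mul_rpow_of_nonneg _ _ (by norm_num)] at key
  by_contra hlt
  exact absurd key (not_le.2 (ENNReal.one_lt_rpow (not_le.1 hlt) (by norm_num)))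

theorem poinc_exp_lower {t : ℝ} (ht : |t| ≤ 1) : 1 + t + t ^ 2 / 2 - |t| ^ 3 ≤ Real.exp t := by
  have h := Real.exp_bound ht (n := 3) (by norm_num)
  have h1 := (abs_le.1 h).1
  have h2 : 0 ≤ |t| ^ 3 := by positivity
  simp only [Finset.sum_range_succ, Finset.range_zero, Finset.sum_empty, Nat.factorial] at h1
  norm_num at h1
  linarith

theorem poinc_lim {u v K ε₀ : ℝ} (hε₀ : 0 < ε₀)
    (h : ∀ ε, 0 < ε → ε ≤ ε₀ → ∃ P Q : ℝ, P * Q ≤ 1 ∧ 1 + ε ^ 2 * (u - K * ε) ≤ P ∧
      1 + ε ^ 2 * (v - K * ε) ≤ Q) : u + v ≤ 0 := by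
  have t1 : Filter.Tendsto (fun ε : ℝ => (u - K * ε) + (v - K * ε) +
      ε ^ 2 * ((u - K * ε) * (v - K * ε))) (nhdsWithin 0 (Ioi 0)) (nhds (u + v)) := by
    refine Filter.Tendsto.mono_left (Continuous.tendsto' (by fun_prop) _ _ (by simp))
      nhdsWithin_le_nhds
  have t2 : ∀ w : ℝ, ∀ᶠ ε in nhdsWithin (0 : ℝ) (Ioi 0), 0 ≤ 1 + ε ^ 2 * (w - K * ε) := fun w => by
    have : Filter.Tendsto (fun ε : ℝ => 1 + ε ^ 2 * (w - K * ε)) (nhdsWithin 0 (Ioi 0))
        (nhds 1) :=
      Filter.Tendsto.mono_left (Continuous.tendsto' (by fun_prop) _ _ (by simp)) nhdsWithin_le_nhds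
    exact this.eventually (eventually_ge_nhds one_pos)
  refine le_of_tendsto t1 ?_
  filter_upwards [t2 u, t2 v, Ioo_mem_nhdsGT hε₀] with ε h1 h2 h3
  obtain ⟨P, Q, hPQ, hP, hQ⟩ := h ε h3.1 h3.2.le
  have h4 := (mul_le_mul hP hQ h2 (h1.trans hP)).trans hPQ
  have h5 : 0 < ε ^ 2 := pow_pos h3.1 2
  refine le_of_mul_le_mul_left ?_ h5
  nlinarith

theorem poinc_int_sq_sub {X : Type*} [MeasurableSpace X] {μ : Measure X} [IsProbabilityMeasure μ]
    {f : X → ℝ} (h1 : Integrable f μ) (h2 : Integrable (fun y => f y ^ 2) μ) :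
    ∫ y, (f y - ∫ z, f z ∂μ) ^ 2 ∂μ = ∫ y, f y ^ 2 ∂μ - (∫ y, f y ∂μ) ^ 2 := by
  set m := ∫ z, f z ∂μ with hm
  have : ∀ y, (f y - m) ^ 2 = f y ^ 2 - (2 * m) * f y + m ^ 2 := fun y => by ring
  simp only [this]
  have h3 : Integrable (fun y => f y ^ 2 - (2 * m) * f y) μ := h2.sub (h1.const_mul _)
  rw [integral_add h3 (integrable_const _), integral_sub h2 (h1.const_mul _),
    integral_const_mul, integral_const, ← hm]
  simp only [probReal_univ, smul_eq_mul]
  ring

theorem poinc_int_bdd {X : Type*} [MeasurableSpace X] [TopologicalSpace X] [OpensMeasurableSpace X]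
    {μ : Measure X} [IsFiniteMeasure μ] {f : X → ℝ} (hf : Continuous f) (C : ℝ)
    (h : ∀ x, |f x| ≤ C) : Integrable f μ :=
  Integrable.of_bound hf.measurable.aestronglyMeasurable C (Filter.Eventually.of_forall h)

/-- The second-order expansion of property (τ). -/
theorem poinc_expand {c : ℝ} (hc : 0 < c) {W : E d → ℝ} (hW : SC c W) {f a : E d → ℝ}
    (hf : Continuous f) (ha : Continuous a) {M B r : ℝ} (hM : ∀ x, |f x| ≤ M)
    (hB : ∀ x, a x ^ 2 ≤ B) (hr : 0 < r)
    (hfa : ∀ x y, ‖x - y‖ < r → f x - f y ≤ a x * ‖x - y‖) (h0 : ∫ y, f y ∂gib W = 0) :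
    ∫ y, f y ^ 2 ∂gib W ≤ c * ∫ y, a y ^ 2 ∂gib W := by
  have hp := hW.prob hc
  have hM0 : 0 ≤ M := (abs_nonneg _).trans (hM 0)
  have hB0 : 0 ≤ B := (sq_nonneg _).trans (hB 0)
  have i1 : Integrable f (gib W) := poinc_int_bdd hf M hM
  have i2 : Integrable (fun y => f y ^ 2) (gib W) := poinc_int_bdd (by fun_prop) (M ^ 2) fun x => by
    rw [abs_pow]; gcongr; exact hM x
  have i3 : Integrable (fun y => a y ^ 2) (gib W) := poinc_int_bdd (by fun_prop) B fun x => by
    rw [abs_of_nonneg (sq_nonneg _)]; exact hB x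
  set s := ∫ y, f y ^ 2 ∂gib W with hs
  set A := ∫ y, a y ^ 2 ∂gib W with hA
  set T := M + c * B + 1 with hT
  have hT1 : 1 ≤ T := by have := mul_nonneg hc.le hB0; linarith
  have hT0 : 0 < T := by linarith
  have key := poinc_lim (u := s / 2 - c * A) (v := s / 2) (K := c * M * B + T ^ 3)
    (ε₀ := min T⁻¹ (r ^ 2 / (8 * c * T))) (by positivity) fun ε hε hε' => by
    have e1 : ε * T ≤ 1 := by
      have := hε'.trans (min_le_left _ _)
      rwa [← mul_le_mul_iff_left₀ hT0, inv_mul_cancel₀ hT0.ne'] at this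
    have e2 : ε * (8 * c * T) ≤ r ^ 2 := by
      have := hε'.trans (min_le_right _ _)
      rwa [le_div_iff₀ (by positivity)] at this
    have e3 : ε ≤ 1 := by nlinarith
    set g : E d → ℝ := fun x => ε * f x - c * ε ^ 2 * a x ^ 2 with hg
    have cg : Continuous g := by fun_prop
    have bg : ∀ x, |g x| ≤ ε * T := fun x => by
      have h1 : |ε * f x| ≤ ε * M := by
        rw [abs_mul, abs_of_pos hε]; gcongr; exact hM x
      have h2 : |c * ε ^ 2 * a x ^ 2| ≤ ε * (c * B) := by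
        rw [abs_of_nonneg (by positivity)]
        calc c * ε ^ 2 * a x ^ 2 = ε * (c * (ε * a x ^ 2)) := by ring
          _ ≤ ε * (c * (1 * B)) := by gcongr; exact hB x
          _ = _ := by ring
      have h3 := abs_sub (ε * f x) (c * ε ^ 2 * a x ^ 2)
      have : ε * T = ε * M + ε * (c * B) + ε := by rw [hT]; ring
      simp only [hg]
      linarith
    have bf : ∀ x, |-(ε * f x)| ≤ ε * T := fun x => by
      rw [abs_neg, abs_mul, abs_of_pos hε]
      gcongr
      have := hM x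
      have := mul_nonneg hc.le hB0
      linarith
    have tau := tau_property hc hW (f := fun x => ε * f x) (g := g) (by fun_prop) cg.measurable
      fun x y => by
        simp only [hg]
        rw [le_div_iff₀ (by positivity)]
        rcases lt_or_ge ‖x - y‖ r with h | h
        · have h1 := mul_le_mul_of_nonneg_left (hfa x y h) (by positivity : 0 ≤ 4 * c * ε)
          nlinarith [sq_nonneg (‖x - y‖ - 2 * c * ε * a x)]
        · have h1 : r ^ 2 ≤ ‖x - y‖ ^ 2 := by gcongr
          have h2 := (abs_le.1 (hM x)).2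
          have h3 := (abs_le.1 (hM y)).1
          have h4 : f x - f y ≤ 2 * T := by have := mul_nonneg hc.le hB0; linarith
          have h5 := mul_le_mul_of_nonneg_left h4 (by positivity : 0 ≤ 4 * c * ε)
          have h6 : 0 ≤ c * ε ^ 2 * a x ^ 2 * (4 * c) := by positivity
          nlinarith
    have ie : ∀ {k : E d → ℝ}, Continuous k → (∀ x, |k x| ≤ ε * T) →
        Integrable (fun x => Real.exp (k x)) (gib W) := fun {k} hk hb =>
      poinc_int_bdd (by fun_prop) (Real.exp 1) fun x => by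
        rw [abs_of_pos (Real.exp_pos _)]
        exact Real.exp_le_exp.2 ((le_abs_self _).trans ((hb x).trans e1))
    have j1 := ie cg bg
    have j2 := ie (k := fun x => -(ε * f x)) (by fun_prop) bf
    rw [← ofReal_integral_eq_lintegral_ofReal j1 (ae_of_all _ fun _ => (Real.exp_pos _).le),
      ← ofReal_integral_eq_lintegral_ofReal j2 (ae_of_all _ fun _ => (Real.exp_pos _).le),
      ← ENNReal.ofReal_mul (integral_nonneg fun _ => (Real.exp_pos _).le),
      ENNReal.ofReal_le_one] at tau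
    have low : ∀ (α β : ℝ) (k : E d → ℝ), Integrable k (gib W) →
        (∀ x, (1 - ε ^ 3 * (c * M * B + T ^ 3)) + α * f x + ε ^ 2 / 2 * f x ^ 2 -
          β * a x ^ 2 ≤ k x) →
        (1 - ε ^ 3 * (c * M * B + T ^ 3)) + ε ^ 2 / 2 * s - β * A ≤ ∫ x, k x ∂gib W := by
      intro α β k hk hle
      have k1 : Integrable (fun x => (1 - ε ^ 3 * (c * M * B + T ^ 3)) + α * f x) (gib W) :=
        (integrable_const _).add (i1.const_mul _)
      have k2 : Integrable (fun x => (1 - ε ^ 3 * (c * M * B + T ^ 3)) + α * f x +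
          ε ^ 2 / 2 * f x ^ 2) (gib W) := k1.add (i2.const_mul _)
      have := integral_mono (k2.sub (i3.const_mul β)) hk hle
      simp only [Pi.sub_apply] at this
      rw [integral_sub k2 (i3.const_mul _), integral_add k1 (i2.const_mul _),
        integral_add (integrable_const _) (i1.const_mul _), integral_const_mul, integral_const_mul,
        integral_const_mul, integral_const, h0] at this
      simpa using this
    have cube : ∀ t : ℝ, |t| ≤ ε * T → |t| ^ 3 ≤ ε ^ 3 * T ^ 3 := fun t ht => by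
      rw [← mul_pow]; gcongr
    refine ⟨_, _, tau, ?_, ?_⟩
    · have := low ε (c * ε ^ 2) _ j1 fun x => by
        have h1 := poinc_exp_lower ((bg x).trans e1)
        have h2 := cube _ (bg x)
        have h3 : f x * a x ^ 2 ≤ M * B :=
          (mul_le_mul_of_nonneg_right (le_abs_self _) (sq_nonneg _)).trans
            (mul_le_mul (hM x) (hB x) (sq_nonneg _) hM0)
        have h4 := mul_le_mul_of_nonneg_left h3 (by positivity : 0 ≤ c * ε ^ 3)
        have h5 : g x ^ 2 = ε ^ 2 * f x ^ 2 - 2 * (c * ε ^ 3 * (f x * a x ^ 2)) +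
            (c * ε ^ 2 * a x ^ 2) ^ 2 := by simp only [hg]; ring
        have h6 := sq_nonneg (c * ε ^ 2 * a x ^ 2)
        have h7 : g x = ε * f x - c * ε ^ 2 * a x ^ 2 := rfl
        nlinarith
      linarith
    · have := low (-ε) 0 _ j2 fun x => by
        have h1 := poinc_exp_lower ((bf x).trans e1)
        have h2 := cube _ (bf x)
        have h4 : 0 ≤ ε ^ 3 * (c * M * B) := by positivity
        nlinarith
      linarith
  linarith

theorem poinc_bdd {c : ℝ} (hc : 0 < c) {W : E d → ℝ} (hW : SC c W) {f : E d → ℝ}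
    (hf : ContDiff ℝ 1 f) {M L : ℝ} (hM : ∀ x, |f x| ≤ M) (hL : ∀ x, ‖fderiv ℝ f x‖ ≤ L)
    (hu : UniformContinuous (fderiv ℝ f)) (h0 : ∫ y, f y ∂gib W = 0) :
    ∫ y, f y ^ 2 ∂gib W ≤ c * ∫ y, ‖fderiv ℝ f y‖ ^ 2 ∂gib W := by
  have hp := hW.prob hc
  have cD : Continuous (fderiv ℝ f) := hu.continuous
  have i1 : Integrable (fun y => ‖fderiv ℝ f y‖ ^ 2) (gib W) :=
    poinc_int_bdd (by fun_prop) (L ^ 2) fun x => by
      rw [abs_of_nonneg (sq_nonneg _)]; gcongr; exact hL x
  set A := ∫ y, ‖fderiv ℝ f y‖ ^ 2 ∂gib W with hA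
  have t1 : Filter.Tendsto (fun δ : ℝ => c * (A + (2 * δ * L + δ ^ 2))) (nhdsWithin 0 (Ioi 0))
      (nhds (c * A)) :=
    Filter.Tendsto.mono_left (Continuous.tendsto' (by fun_prop) _ _ (by simp)) nhdsWithin_le_nhds
  refine ge_of_tendsto t1 ?_
  filter_upwards [self_mem_nhdsWithin] with δ hδ
  have hδ : 0 < δ := hδ
  obtain ⟨r, hr, hr'⟩ := Metric.uniformContinuous_iff.1 hu δ hδ
  have hb : ∀ x, (‖fderiv ℝ f x‖ + δ) ^ 2 ≤ (L + δ) ^ 2 := fun x => by gcongr; exact hL x
  refine (poinc_expand hc hW hf.continuous (a := fun x => ‖fderiv ℝ f x‖ + δ) (by fun_prop) hM hb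
    hr (fun x y hxy => ?_) h0).trans ?_
  · have := (convex_ball x r).norm_image_sub_le_of_norm_fderiv_le (𝕜 := ℝ) (f := f)
      (C := ‖fderiv ℝ f x‖ + δ) (fun z _ => hf.differentiable one_ne_zero z) (fun z hz => by
        have h1 := hr' hz
        rw [dist_eq_norm] at h1
        have h2 := norm_sub_norm_le (fderiv ℝ f z) (fderiv ℝ f x)
        linarith) (x := y) (y := x) (by rwa [mem_ball_iff_norm']) (Metric.mem_ball_self hr)
    exact (le_abs_self _).trans this
  · refine mul_le_mul_of_nonneg_left ?_ hc.le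
    have i2 : Integrable (fun x => (‖fderiv ℝ f x‖ + δ) ^ 2) (gib W) :=
      poinc_int_bdd (by fun_prop) ((L + δ) ^ 2) fun x => by
        rw [abs_of_nonneg (sq_nonneg _)]; exact hb x
    have i3 : Integrable (fun x => ‖fderiv ℝ f x‖ ^ 2 + (2 * δ * L + δ ^ 2)) (gib W) :=
      i1.add (integrable_const _)
    have hle : ∀ x, (‖fderiv ℝ f x‖ + δ) ^ 2 ≤ ‖fderiv ℝ f x‖ ^ 2 + (2 * δ * L + δ ^ 2) :=
      fun x => by
        have := mul_le_mul_of_nonneg_left (hL x) hδ.le
        nlinarith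
    have := integral_mono i2 i3 hle
    rw [integral_add i1 (integrable_const _), integral_const] at this
    simpa using this

/-- Poincaré for compactly supported `C¹` functions.  For `ε > 0` small take `ε f` and
`g = ε f - c ε² (‖Df‖ + ω_ε)²`, where `ω_ε → 0` is a modulus of continuity of `Df` at the scale
`4 c ε Lip(f)` (for `‖x - y‖` larger than that the inequality is trivial); expand both exponentials
to second order (`e^t ≥ 1 + t + t²/2 - |t|³` for `|t| ≤ 1`) and let `ε → 0`. -/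
theorem poinc_compact {c : ℝ} (hc : 0 < c) {W : E d → ℝ} (hW : SC c W) {f : E d → ℝ}
    (hf : ContDiff ℝ 1 f) (hs : HasCompactSupport f) :
    ∫ y, f y ^ 2 ∂gib W - (∫ y, f y ∂gib W) ^ 2 ≤ c * ∫ y, ‖fderiv ℝ f y‖ ^ 2 ∂gib W := by
  have hp := hW.prob hc
  have cD : Continuous (fderiv ℝ f) := hf.continuous_fderiv one_ne_zero
  obtain ⟨M, hM⟩ := hs.exists_bound_of_continuous hf.continuous
  obtain ⟨L, hL⟩ := (hs.fderiv ℝ).exists_bound_of_continuous cD
  have cf := hf.continuous
  have i1 : Integrable f (gib W) := poinc_int_bdd cf M hM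
  have i2 : Integrable (fun y => f y ^ 2) (gib W) := poinc_int_bdd (by fun_prop) (M ^ 2) fun x => by
    rw [abs_pow]; gcongr; exact hM x
  rw [← poinc_int_sq_sub i1 i2]
  set m := ∫ y, f y ∂gib W with hm
  have hD : fderiv ℝ (fun y => f y - m) = fderiv ℝ f := funext fun y => fderiv_sub_const m
  have := poinc_bdd hc hW (f := fun y => f y - m) (hf.sub contDiff_const) (M := M + |m|) (L := L)
    (fun x => (abs_sub _ _).trans (add_le_add (hM x) le_rfl)) (by rw [hD]; exact hL)
    (by rw [hD]; exact (hs.fderiv ℝ).uniformContinuous_of_continuous cD)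
    (by rw [integral_sub i1 (integrable_const _), integral_const]; simp [hm])
  rwa [hD] at this

theorem poinc_int_growth {μ : Measure (E d)}
    (hμ : ∀ a : ℝ, Integrable (fun y => Real.exp (a * ‖y‖)) μ) {Y : Type*}
    [NormedAddCommGroup Y] {f : E d → Y} (hf : AEStronglyMeasurable f μ) {C : ℝ} {N : ℕ}
    (h : ∀ y, ‖f y‖ ≤ C * (1 + ‖y‖) ^ N) : Integrable f μ := by
  refine ((hμ N).const_mul |C|).mono' hf (Filter.Eventually.of_forall fun y => (h y).trans ?_)
  rw [Real.exp_nat_mul]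
  have h1 : 1 + ‖y‖ ≤ Real.exp ‖y‖ := by linarith [Real.add_one_le_exp ‖y‖]
  exact mul_le_mul (le_abs_self C) (by gcongr) (by positivity) (abs_nonneg C)

/-- Truncate with `χ(y / R)`, `χ` a bump, and use dominated convergence (`SC.expm`). -/
theorem pm_gib {c : ℝ} (hc : 0 < c) {W : E d → ℝ} (hW : SC c W) : PM c (gib W) := by
  refine ⟨hW.prob hc, hW.expm hc, fun f hf h0 => ?_⟩
  obtain ⟨hf1, C, N, hC⟩ := hf
  let χ : ContDiffBump (0 : E d) := ⟨1, 2, one_pos, one_lt_two⟩
  have sχ : ContDiff ℝ 1 χ := χ.contDiff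
  have cχ : Continuous (fderiv ℝ χ) := sχ.continuous_fderiv one_ne_zero
  obtain ⟨K, hK⟩ := (χ.hasCompactSupport.fderiv ℝ).exists_bound_of_continuous cχ
  have hK0 : 0 ≤ K := (norm_nonneg _).trans (hK 0)
  have cf := hf1.continuous
  have cD : Continuous (fderiv ℝ f) := hf1.continuous_fderiv one_ne_zero
  set ρ : ℕ → ℝ := fun n => 1 / ((n : ℝ) + 1) with hρ
  have ρ0 : ∀ n, 0 < ρ n := fun n => by positivity
  have ρ1 : ∀ n, ρ n ≤ 1 := fun n => by
    simp only [hρ]
    rw [div_le_one (by positivity)]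
    linarith [Nat.cast_nonneg (α := ℝ) n]
  have ρt : Filter.Tendsto ρ Filter.atTop (nhds 0) := tendsto_one_div_add_atTop_nhds_zero_nat
  set g : ℕ → E d → ℝ := fun n y => χ (ρ n • y) * f y with hg
  have sg : ∀ n, ContDiff ℝ 1 (g n) := fun n => (sχ.comp (contDiff_id.const_smul _)).mul hf1
  have hsup : ∀ n, HasCompactSupport (g n) := fun n =>
    (χ.hasCompactSupport.comp_smul (ρ0 n).ne').mul_right
  have dg : ∀ n y, fderiv ℝ (g n) y =
      χ (ρ n • y) • fderiv ℝ f y + f y • (ρ n • fderiv ℝ χ (ρ n • y)) := fun n y => by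
    have h1 : HasFDerivAt (fun y => χ (ρ n • y)) (ρ n • fderiv ℝ χ (ρ n • y)) y := by
      have := (sχ.differentiable one_ne_zero (ρ n • y)).hasFDerivAt.comp y
        ((hasFDerivAt_id y).const_smul (ρ n))
      exact this.congr_fderiv (by ext v; simp)
    exact (h1.mul (hf1.differentiable one_ne_zero y).hasFDerivAt).fderiv
  have tχ : ∀ y, Filter.Tendsto (fun n => χ (ρ n • y)) Filter.atTop (nhds 1) := fun y => by
    have h1 : Filter.Tendsto (fun n => ρ n • y) Filter.atTop (nhds 0) := by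
      simpa using ρt.smul_const y
    have h2 := (χ.continuous.tendsto 0).comp h1
    rwa [χ.one_of_mem_closedBall (Metric.mem_closedBall_self zero_le_one)] at h2
  have tg : ∀ y, Filter.Tendsto (fun n => g n y) Filter.atTop (nhds (f y)) := fun y => by
    simpa using (tχ y).mul_const (f y)
  have tD : ∀ y, Filter.Tendsto (fun n => fderiv ℝ (g n) y) Filter.atTop
      (nhds (fderiv ℝ f y)) := fun y => by
    have h1 : Filter.Tendsto (fun n => ρ n • y) Filter.atTop (nhds 0) := by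
      simpa using ρt.smul_const y
    have h2 := ((tχ y).smul_const (fderiv ℝ f y)).add
      ((ρt.smul ((cχ.tendsto 0).comp h1)).const_smul (f y))
    simpa [dg] using h2
  have bg : ∀ n y, |g n y| ≤ |f y| := fun n y => by
    simp only [hg]
    rw [abs_mul, abs_of_nonneg χ.nonneg]
    exact mul_le_of_le_one_left (abs_nonneg _) χ.le_one
  have bD : ∀ n y, ‖fderiv ℝ (g n) y‖ ≤ ‖fderiv ℝ f y‖ + ‖f y‖ * K := fun n y => by
    rw [dg]
    refine (norm_add_le _ _).trans (add_le_add ?_ ?_)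
    · rw [norm_smul, Real.norm_of_nonneg χ.nonneg]
      exact mul_le_of_le_one_left (norm_nonneg _) χ.le_one
    · rw [norm_smul, norm_smul, Real.norm_of_nonneg (ρ0 n).le]
      exact mul_le_mul_of_nonneg_left
        ((mul_le_of_le_one_left (norm_nonneg _) (ρ1 n)).trans (hK _)) (norm_nonneg _)
  have i1 : Integrable (fun y => |f y|) (gib W) :=
    (poinc_int_growth (hW.expm hc) cf.aestronglyMeasurable fun y => (hC y).1).abs
  have i2 : Integrable (fun y => f y ^ 2) (gib W) :=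
    poinc_int_growth (hW.expm hc) (by fun_prop) (C := C ^ 2) (N := N * 2) fun y => by
      rw [norm_pow, pow_mul, ← mul_pow]
      gcongr
      exact (hC y).1
  have i3 : Integrable (fun y => (‖fderiv ℝ f y‖ + ‖f y‖ * K) ^ 2) (gib W) :=
    poinc_int_growth (hW.expm hc) (by fun_prop) (C := (C * (1 + K)) ^ 2) (N := N * 2) fun y => by
      rw [norm_pow, pow_mul, ← mul_pow, Real.norm_of_nonneg (by positivity)]
      gcongr
      have h1 := mul_le_mul_of_nonneg_right (hC y).1 hK0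
      have h2 := (hC y).2
      linarith
  have t1 := tendsto_integral_of_dominated_convergence (F := g) (f := f) _
    (fun n => (sg n).continuous.aestronglyMeasurable) i1 (fun n => ae_of_all _ (bg n))
    (ae_of_all _ tg)
  have t2 := tendsto_integral_of_dominated_convergence (F := fun n y => g n y ^ 2)
    (f := fun y => f y ^ 2) _
    (fun n => ((sg n).continuous.pow 2).aestronglyMeasurable) i2
    (fun n => ae_of_all _ fun y => by
      rw [Real.norm_of_nonneg (sq_nonneg _)]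
      exact sq_le_sq.2 (bg n y))
    (ae_of_all _ fun y => (tg y).pow 2)
  have t3 := tendsto_integral_of_dominated_convergence (F := fun n y => ‖fderiv ℝ (g n) y‖ ^ 2)
    (f := fun y => ‖fderiv ℝ f y‖ ^ 2) _
    (fun n => (((sg n).continuous_fderiv one_ne_zero).norm.pow 2).aestronglyMeasurable) i3
    (fun n => ae_of_all _ fun y => by
      rw [Real.norm_of_nonneg (sq_nonneg _)]
      gcongr
      exact bD n y)
    (ae_of_all _ fun y => (tD y).norm.pow 2)
  have := le_of_tendsto_of_tendsto' (t2.sub (t1.pow 2)) (t3.const_mul c) fun n =>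
    poinc_compact hc hW (sg n) (hsup n)
  rwa [h0, zero_pow two_ne_zero, sub_zero] at this

theorem PM.integrable_of_growth {c : ℝ} {μ : Measure (E d)} (hμ : PM c μ) {Y : Type*}
    [NormedAddCommGroup Y] {f : E d → Y} (hf : AEStronglyMeasurable f μ) {C : ℝ} {N : ℕ}
    (h : ∀ y, ‖f y‖ ≤ C * (1 + ‖y‖) ^ N) : Integrable f μ :=
  poinc_int_growth hμ.expm hf h

theorem poinc_lip_growth {Y : Type*} [NormedAddCommGroup Y] {f : E d → Y} {L : ℝ} (hL : 0 ≤ L)
    (hf : Lip L f) (y : E d) : ‖f y‖ ≤ (‖f 0‖ + L) * (1 + ‖y‖) ^ 1 := by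
  have := hf.norm_le y 0
  rw [sub_zero] at this
  nlinarith [norm_nonneg (f 0), norm_nonneg y]

theorem PM.integrable_lip {c : ℝ} {μ : Measure (E d)} (hμ : PM c μ) {Y : Type*}
    [NormedAddCommGroup Y] {f : E d → Y} {L : ℝ} (hL : 0 ≤ L) (hf : Lip L f) : Integrable f μ :=
  hμ.integrable_of_growth hf.continuous.aestronglyMeasurable (poinc_lip_growth hL hf)

theorem PM.integrable_lip_sq {c : ℝ} {μ : Measure (E d)} (hμ : PM c μ) {f : E d → ℝ} {L : ℝ}
    (hL : 0 ≤ L) (hf : Lip L f) : Integrable (fun y => f y ^ 2) μ :=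
  hμ.integrable_of_growth (hf.continuous.pow 2).aestronglyMeasurable (C := (‖f 0‖ + L) ^ 2)
    (N := 1 * 2) fun y => by
      rw [norm_pow, pow_mul, ← mul_pow]
      gcongr
      exact poinc_lip_growth hL hf y

theorem poinc_lip_sub_const {f : E d → ℝ} {L : ℝ} (hf : Lip L f) (m : ℝ) :
    Lip L fun y => f y - m := fun x y => by
  rw [sub_sub_sub_cancel_right]
  exact hf x y

/-- Variance of Lipschitz functions (`exists_smooth_approx`). -/
theorem PM.var_lip {c : ℝ} (hc : 0 ≤ c) {μ : Measure (E d)} (hμ : PM c μ) {f : E d → ℝ} {L : ℝ}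
    (hL : 0 ≤ L) (hf : Lip L f) : ∫ y, (f y - ∫ z, f z ∂μ) ^ 2 ∂μ ≤ c * L ^ 2 := by
  have hp := hμ.prob
  have t1 : Filter.Tendsto (fun ε : ℝ => (1 + 2 * ε) * (c * L ^ 2) + (2 * ε + 4 * ε ^ 2))
      (nhdsWithin 0 (Ioi 0)) (nhds (c * L ^ 2)) :=
    Filter.Tendsto.mono_left (Continuous.tendsto' (by fun_prop) _ _ (by simp)) nhdsWithin_le_nhds
  refine ge_of_tendsto t1 ?_
  filter_upwards [self_mem_nhdsWithin] with ε hε
  have hε : 0 < ε := hε
  obtain ⟨g, hg1, hg2, hg3⟩ := exists_smooth_approx hL hf hε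
  have hg : Lip L g := fun x y => convex_univ.norm_image_sub_le_of_norm_fderiv_le (𝕜 := ℝ)
    (fun z _ => hg1.differentiable one_ne_zero z) (fun z _ => hg2 z) (mem_univ y) (mem_univ x)
  have i1 := hμ.integrable_lip hL hf
  have i2 := hμ.integrable_lip hL hg
  set m := ∫ z, f z ∂μ with hm
  set m' := ∫ z, g z ∂μ with hm'
  have hmm : |m' - m| ≤ ε := by
    rw [hm, hm', ← integral_sub i2 i1]
    have := norm_integral_le_of_norm_le_const (μ := μ) (f := fun y => g y - f y) (C := ε)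
      (ae_of_all _ hg3)
    simpa using this
  have hD : fderiv ℝ (fun y => g y - m') = fderiv ℝ g := funext fun y => fderiv_sub_const m'
  have h1 := hμ.poinc (fun y => g y - m')
    (pg1_of_fderiv_le (hg1.sub contDiff_const) (L := L) (by rw [hD]; exact hg2))
    (by rw [integral_sub i2 (integrable_const _), integral_const]; simp [hm'])
  rw [hD] at h1
  have h2 : ∫ y, ‖fderiv ℝ g y‖ ^ 2 ∂μ ≤ L ^ 2 := by
    have := norm_integral_le_of_norm_le_const (μ := μ) (f := fun y => ‖fderiv ℝ g y‖ ^ 2)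
      (C := L ^ 2) (ae_of_all _ fun y => by
        rw [Real.norm_of_nonneg (sq_nonneg _)]; gcongr; exact hg2 y)
    rw [probReal_univ, mul_one] at this
    exact (le_abs_self _).trans this
  have h3 := h1.trans (mul_le_mul_of_nonneg_left h2 hc)
  have i3 := hμ.integrable_lip_sq hL (poinc_lip_sub_const hf m)
  have i4 := hμ.integrable_lip_sq hL (poinc_lip_sub_const hg m')
  have h4 := integral_mono (μ := μ) (f := fun y => (f y - m) ^ 2)
    (g := fun y => (1 + 2 * ε) * (g y - m') ^ 2 + (2 * ε + 4 * ε ^ 2)) i3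
    ((i4.const_mul _).add (integrable_const _)) fun y => by
      have e1 : |f y - m| ≤ |g y - m'| + 2 * ε := by
        have a1 := abs_le.1 (hg3 y)
        have a2 := abs_le.1 hmm
        have a3 := le_abs_self (g y - m')
        have a4 := neg_abs_le (g y - m')
        rw [abs_le]
        constructor <;> linarith
      have e2 : (f y - m) ^ 2 ≤ (|g y - m'| + 2 * ε) ^ 2 := by
        rw [← sq_abs]; gcongr
      have e3 := sq_abs (g y - m')
      have e4 := mul_nonneg hε.le (sq_nonneg (|g y - m'| - 1))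
      simp only
      nlinarith
  rw [integral_add (i4.const_mul _) (integrable_const _), integral_const_mul, integral_const,
    probReal_univ, one_smul] at h4
  exact h4.trans (by gcongr)

/-- Sum the variances of the coordinates; Cauchy–Schwarz. -/
theorem PM.integral_norm_sub_mean {c : ℝ} (hc : 0 ≤ c) {μ : Measure (E d)} (hμ : PM c μ) :
    ∫ y, ‖y - ∫ z, z ∂μ‖ ∂μ ≤ √(c * d) := by
  have hp := hμ.prob
  set m := ∫ z, z ∂μ with hm
  have l1 : Lip 1 fun y : E d => ‖y - m‖ := fun x y => by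
    have := abs_norm_sub_norm_le (x - m) (y - m)
    rwa [sub_sub_sub_cancel_right, ← one_mul ‖x - y‖] at this
  have l2 : ∀ i, Lip 1 fun y : E d => y i := fun i x y => by
    rw [one_mul]
    exact PiLp.norm_apply_le (x - y) i
  have i0 : Integrable (fun z : E d => z) μ := hμ.integrable_lip zero_le_one lip_id
  have hmi : ∀ i, m i = ∫ z, z i ∂μ := fun i =>
    ((EuclideanSpace.proj (𝕜 := ℝ) i).integral_comp_comm i0).symm
  have h1 : ∫ y, ‖y - m‖ ^ 2 ∂μ ≤ c * d := by
    have e : ∀ y : E d, ‖y - m‖ ^ 2 = ∑ i, (y i - ∫ z, z i ∂μ) ^ 2 := fun y => by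
      rw [EuclideanSpace.real_norm_sq_eq]
      simp only [PiLp.sub_apply, hmi]
    simp only [e]
    rw [integral_finsetSum _ fun i _ =>
      hμ.integrable_lip_sq zero_le_one (poinc_lip_sub_const (l2 i) _)]
    refine (Finset.sum_le_sum fun i _ => hμ.var_lip hc zero_le_one (l2 i)).trans ?_
    simp [mul_comm]
  have h2 := poinc_int_sq_sub (hμ.integrable_lip zero_le_one l1)
    (hμ.integrable_lip_sq zero_le_one l1)
  have h3 : 0 ≤ ∫ y, (‖y - m‖ - ∫ z, ‖z - m‖ ∂μ) ^ 2 ∂μ := integral_nonneg fun _ => sq_nonneg _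
  exact Real.le_sqrt_of_sq_le (by linarith)

end Crest.Agent.R285
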