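import Crest.Agent.R285.Heat2
import Crest.Agent.R285.Poinc

/-! Row 285: consequences of admissibility, crude bounds on the score, moments and total variation
of the smoothed targets. -/

set_option autoImplicit false

namespace Crest.Agent.R285

open MeasureTheory ProbabilityTheory Crest.OracleSampling Set
open scoped ENNReal NNReal InnerProductSpace

variable {d : ℕ} {V : E d → ℝ}

theorem adm_convex_of_lines {f : E d → ℝ}
    (h : ∀ x v : E d, ConvexOn ℝ univ fun t : ℝ => f (x + t • v)) : ConvexOn ℝ univ f := by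
  refine ⟨convex_univ, fun x _ y _ a b ha hb hab => ?_⟩
  have := (h x (y - x)).2 (mem_univ 0) (mem_univ 1) ha hb hab
  obtain rfl : a = 1 - b := by linarith
  have e : x + ((1 - b) • (0 : ℝ) + b • (1 : ℝ)) • (y - x) = (1 - b) • x + b • y := by
    simp only [smul_eq_mul, mul_zero, mul_one, zero_add, smul_sub, sub_smul, one_smul]
    abel
  simp only [e] at this
  simpa using this

theorem adm_line_deriv (hV : ContDiff ℝ 2 V) (α β : ℝ) (x v : E d) (t : ℝ) :
    HasDerivAt (fun t : ℝ => α * V (x + t • v) + β * (‖x + t • v‖ ^ 2 / 2))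
      (α * fderiv ℝ V (x + t • v) v + β * ⟪x + t • v, v⟫_ℝ) t := by
  have h0 : HasDerivAt (fun t : ℝ => x + t • v) v t := by
    simpa using ((hasDerivAt_id t).smul_const v).const_add x
  have h1 := (hV.differentiable two_ne_zero (x + t • v)).hasFDerivAt.comp_hasDerivAt t h0
  exact ((h1.const_mul α).add ((h0.norm_sq.div_const 2).const_mul β)).congr_deriv (by ring)

theorem adm_line_deriv2 (hV : ContDiff ℝ 2 V) (α β : ℝ) (x v : E d) (t : ℝ) :
    HasDerivAt (fun t : ℝ => α * fderiv ℝ V (x + t • v) v + β * ⟪x + t • v, v⟫_ℝ)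
      (α * fderiv ℝ (fderiv ℝ V) (x + t • v) v v + β * ‖v‖ ^ 2) t := by
  have h0 : HasDerivAt (fun t : ℝ => x + t • v) v t := by
    simpa using ((hasDerivAt_id t).smul_const v).const_add x
  have hD : ContDiff ℝ 1 (fderiv ℝ V) := hV.fderiv_right (by norm_num)
  have h1 := (hD.differentiable one_ne_zero (x + t • v)).hasFDerivAt.comp_hasDerivAt t h0
  have h2 := h1.clm_apply (hasDerivAt_const t v)
  have h3 := h0.inner ℝ (hasDerivAt_const t v)
  exact ((h2.const_mul α).add (h3.const_mul β)).congr_deriv (by simp)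

theorem adm_line (hV : ContDiff ℝ 2 V) {α β : ℝ}
    (H : ∀ x v : E d, 0 ≤ α * fderiv ℝ (fderiv ℝ V) x v v + β * ‖v‖ ^ 2) (x v : E d) :
    ConvexOn ℝ univ fun t : ℝ => α * V (x + t • v) + β * (‖x + t • v‖ ^ 2 / 2) := by
  have e : deriv (fun t : ℝ => α * V (x + t • v) + β * (‖x + t • v‖ ^ 2 / 2)) =
      fun t : ℝ => α * fderiv ℝ V (x + t • v) v + β * ⟪x + t • v, v⟫_ℝ :=
    funext fun t => (adm_line_deriv hV α β x v t).deriv
  refine convexOn_univ_of_deriv2_nonneg (fun t => (adm_line_deriv hV α β x v t).differentiableAt)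
    (fun t => ?_) fun t => ?_
  · rw [e]
    exact (adm_line_deriv2 hV α β x v t).differentiableAt
  · rw [Function.iterate_succ_apply, Function.iterate_one, e, (adm_line_deriv2 hV α β x v t).deriv]
    exact H _ _

theorem adm_hess (hV : Admissible d V) (x v : E d) :
    ‖v‖ ^ 2 ≤ fderiv ℝ (fderiv ℝ V) x v v ∧ fderiv ℝ (fderiv ℝ V) x v v ≤ 2 * ‖v‖ ^ 2 := by
  have := hV.2.2.2 x v
  rwa [iteratedFDeriv_two_apply] at this

/-- Restrict to lines: `t ↦ V (x + t h) - ‖x + t h‖²/2` has nonnegative second derivative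
(`convexOn_of_deriv2_nonneg'`, `iteratedFDeriv_two_apply`). -/
theorem adm_sc (hV : Admissible d V) : SC 1 V := by
  refine adm_convex_of_lines fun x v => ?_
  have := adm_line hV.1 (α := 1) (β := -1) (fun x v => by linarith [(adm_hess hV x v).1]) x v
  refine this.congr fun t _ => ?_
  simp only
  ring

theorem adm_norm_hess (hV : Admissible d V) (x : E d) : ‖fderiv ℝ (fderiv ℝ V) x‖ ≤ 2 := by
  have hs : ∀ a b, fderiv ℝ (fderiv ℝ V) x a b = fderiv ℝ (fderiv ℝ V) x b a :=
    (hV.1.contDiffAt (x := x)).isSymmSndFDerivAt (by simp)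
  have hh := adm_hess hV x
  set B := fderiv ℝ (fderiv ℝ V) x
  refine ContinuousLinearMap.opNorm_le_bound₂ _ zero_le_two fun a b => ?_
  have h1 := discrim_le_zero (a := B b b) (b := 2 * B a b) (c := B a a) fun t => by
    have := (sq_nonneg _).trans (hh (a + t • b)).1
    simp only [map_add, map_smul, _root_.add_apply, _root_.smul_apply,
      smul_eq_mul, hs b a] at this
    linarith
  have h2 : B b b * B a a ≤ (2 * ‖b‖ ^ 2) * (2 * ‖a‖ ^ 2) :=
    mul_le_mul (hh b).2 (hh a).2 ((sq_nonneg _).trans (hh a).1) (by positivity)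
  rw [discrim] at h1
  rw [Real.norm_eq_abs]
  exact abs_le_of_sq_le_sq (by nlinarith) (by positivity)

/-- The Hessian is a symmetric bilinear form `B` with `0 ≤ B(h,h) ≤ 2‖h‖²`, hence
`|B(a,b)| ≤ 2‖a‖‖b‖` (Cauchy–Schwarz for a nonnegative form); mean value inequality. -/
theorem adm_nice (hV : Admissible d V) : Nice 1 V := by
  refine ⟨hV.1, (adm_sc hV).cvx one_pos, fun x y => ?_⟩
  have hD : ContDiff ℝ 1 (fderiv ℝ V) := hV.1.fderiv_right (by norm_num)
  have := convex_univ.norm_image_sub_le_of_norm_fderiv_le (𝕜 := ℝ) (f := fderiv ℝ V)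
    (fun z _ => hD.differentiable one_ne_zero z) (fun z _ => adm_norm_hess hV z) (mem_univ y)
    (mem_univ x)
  rw [gradient, gradient, ← map_sub, LinearIsometryEquiv.norm_map, mul_one]
  exact this

theorem adm_cvx (hV : Admissible d V) : ConvexOn ℝ univ V := (adm_nice hV).cvx

theorem adm_grad_le (hV : Admissible d V) (x : E d) : ‖gradient V x‖ ≤ 2 * ‖x‖ := by
  have := (adm_nice hV).lip x 0
  simpa [hV.2.2.1] using this

theorem adm_bounds (hV : Admissible d V) (x : E d) : ‖x‖ ^ 2 / 2 ≤ V x ∧ V x ≤ ‖x‖ ^ 2 := by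
  have h0 : fderiv ℝ V 0 x = 0 := by
    rw [← inner_gradient_left, hV.2.2.1, inner_zero_left]
  have key : ∀ α β : ℝ, (∀ x v : E d, 0 ≤ α * fderiv ℝ (fderiv ℝ V) x v v + β * ‖v‖ ^ 2) →
      0 ≤ α * V x + β * (‖x‖ ^ 2 / 2) := fun α β H => by
    have := (adm_line hV.1 H 0 x).le_slope_of_hasDerivAt (mem_univ 0) (mem_univ 1) one_pos
      (adm_line_deriv hV.1 α β 0 x 0)
    simpa [slope_def_field, h0, hV.2.1] using this
  have h1 := key 1 (-1) fun x v => by linarith [(adm_hess hV x v).1]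
  have h2 := key (-1) 2 fun x v => by linarith [(adm_hess hV x v).2]
  constructor <;> linarith

theorem adm_integrable (hV : Admissible d V) : Integrable fun x => Real.exp (-V x) := by
  simpa using (adm_sc hV).integrable_exp one_pos 0

theorem target_eq_gib (hV : Admissible d V) : target d V = gib V := by
  have hi := adm_integrable hV
  have hZ := integral_exp_pos hi
  have h1 : (ENNReal.ofReal (∫ x, Real.exp (-V x)))⁻¹ ≠ ∞ :=
    ENNReal.inv_ne_top.2 (ENNReal.ofReal_pos.2 hZ).ne'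
  simp only [target, gib, Measure.tilted]
  rw [withDensity_apply _ MeasurableSet.univ, Measure.restrict_univ,
    ← ofReal_integral_eq_lintegral_ofReal hi (ae_of_all _ fun _ => (Real.exp_pos _).le),
    ← withDensity_smul' _ _ h1]
  congr 1
  funext x
  rw [ENNReal.ofReal_div_of_pos hZ, Pi.smul_apply, smul_eq_mul, ENNReal.div_eq_inv_mul]

theorem measurable_oracle (hV : Admissible d V) : Measurable (oracle V) :=
  hV.1.continuous.measurable.prodMk (adm_nice hV).lip.continuous.measurable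

theorem nice_resc (hV : Nice 1 V) (u : E d) {v : ℝ} (hv : 0 ≤ v) : Nice v (resc V u v) := by
  refine ⟨hV.smooth.comp (contDiff_const.add (contDiff_id.const_smul _)),
    ⟨convex_univ, fun x _ y _ a b ha hb hab => ?_⟩, fun x y => ?_⟩
  · have e : u + √v • (a • x + b • y) = a • (u + √v • x) + b • (u + √v • y) := by
      obtain rfl : a = 1 - b := by linarith
      module
    simp only [resc, e]
    exact hV.cvx.2 (mem_univ _) (mem_univ _) ha hb hab
  · have hg : ∀ x, gradient (resc V u v) x = √v • gradient V (u + √v • x) := fun x => by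
      have h1 := (hV.smooth.differentiable two_ne_zero (u + √v • x)).hasFDerivAt.comp x
        (((hasFDerivAt_id x).const_smul √v).const_add u)
      have h2 : fderiv ℝ (resc V u v) x = _ := h1.fderiv
      refine ext_inner_right ℝ fun w => ?_
      rw [inner_smul_left, inner_gradient_left, inner_gradient_left, h2]
      simp
    have h1 := hV.lip (u + √v • x) (u + √v • y)
    rw [add_sub_add_left_eq_sub, ← smul_sub, norm_smul, Real.norm_of_nonneg (Real.sqrt_nonneg _)]
      at h1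
    rw [hg, hg, ← smul_sub, norm_smul, Real.norm_of_nonneg (Real.sqrt_nonneg _)]
    calc _ ≤ √v * (2 * 1 * (√v * ‖x - y‖)) := by gcongr
      _ = 2 * (√v * √v) * ‖x - y‖ := by ring
      _ = _ := by rw [Real.mul_self_sqrt hv]

theorem adm_lip_norm_sub (x : E d) : Lip 1 fun y : E d => ‖y - x‖ := fun y z => by
  have := abs_norm_sub_norm_le (y - x) (z - x)
  rwa [sub_sub_sub_cancel_right, ← one_mul ‖y - z‖] at this

/-- `F_eq_mean` and `PM.integral_norm_sub_mean` (with `pm_gib`, `sc_nu`). -/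
theorem integral_norm_sub_nu {W : E d → ℝ} (hW : ConvexOn ℝ univ W) {s : ℝ} (hs : 0 < s)
    (x : E d) : ∫ y, ‖y - x‖ ∂nu W s x ≤ s * ‖F W s x‖ + √(s * d) := by
  have hμ : PM s (nu W s x) := pm_gib hs (sc_nu hW hs x)
  have hp := hμ.prob
  have h1 := hμ.integral_norm_sub_mean hs.le
  have h2 := F_eq_mean hW hs x
  set m := ∫ y, y ∂nu W s x
  have h3 : s * ‖F W s x‖ = ‖m - x‖ := by
    rw [h2, norm_smul, Real.norm_of_nonneg (by positivity), norm_sub_rev]
    field_simp
  have i1 := hμ.integrable_lip zero_le_one (adm_lip_norm_sub m)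
  have i2 : Integrable (fun y => ‖y - m‖ + ‖m - x‖) (nu W s x) := i1.add (integrable_const _)
  have h4 := integral_mono (hμ.integrable_lip zero_le_one (adm_lip_norm_sub x)) i2
    fun y => norm_sub_le_norm_sub_add_norm_sub y m x
  rw [integral_add i1 (integrable_const _), integral_const, probReal_univ, one_smul] at h4
  linarith

theorem adm_F_sub (hV : Admissible d V) {v : ℝ} (hv : 0 < v) (x : E d) :
    ‖F V v x - gradient V x‖ ≤ 2 * (v * ‖F V v x‖ + √v * √d) := by
  have hμ : PM v (nu V v x) := pm_gib hv (sc_nu (adm_cvx hV) hv x)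
  have hp := hμ.prob
  have hl := (adm_nice hV).lip
  have i1 := hμ.integrable_lip (by norm_num) hl
  have h1 : F V v x - gradient V x = ∫ y, (gradient V y - gradient V x) ∂nu V v x := by
    rw [integral_sub i1 (integrable_const _), integral_const, probReal_univ, one_smul,
      F_eq_grad (adm_nice hV) hv]
  have h2 := norm_integral_le_of_norm_le (μ := nu V v x)
    (f := fun y => gradient V y - gradient V x)
    ((hμ.integrable_lip zero_le_one (adm_lip_norm_sub x)).const_mul (2 * 1))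
    (ae_of_all _ fun y => hl y x)
  rw [← h1, integral_const_mul] at h2
  have h3 := integral_norm_sub_nu (adm_cvx hV) hv x
  rw [Real.sqrt_mul hv.le] at h3
  linarith

theorem adm_sqrt_le {v : ℝ} (hv' : v ≤ 1 / 4) : √v ≤ 1 / 2 :=
  Real.sqrt_le_iff.2 ⟨by norm_num, by linarith⟩

theorem adm_le_sqrt {v : ℝ} (hv : 0 < v) (hv' : v ≤ 1 / 4) : v ≤ √v / 2 := by
  have := Real.mul_self_sqrt hv.le
  nlinarith [adm_sqrt_le hv', Real.sqrt_nonneg v]

/-- `F_eq_grad`: `‖F - ∇V x‖ ≤ 2 ∫ ‖y - x‖ ≤ 2 v ‖F‖ + 2 √(v d)`, and `‖∇V x‖ ≤ 2‖x‖`. -/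
theorem norm_F_le (hV : Admissible d V) {v : ℝ} (hv : 0 < v) (hv' : v ≤ 1 / 4) (x : E d) :
    ‖F V v x‖ ≤ 4 * (√d + ‖x‖) := by
  have h1 := adm_F_sub hV hv x
  have h2 := adm_grad_le hV x
  have h3 := norm_sub_norm_le (F V v x) (gradient V x)
  have h4 := mul_le_mul_of_nonneg_right hv' (norm_nonneg (F V v x))
  have h5 := mul_le_mul_of_nonneg_right (adm_sqrt_le hv') (Real.sqrt_nonneg (d : ℝ))
  have h6 := Real.sqrt_nonneg (d : ℝ)
  linarith

theorem norm_F_sub_grad_le (hV : Admissible d V) {v : ℝ} (hv : 0 < v) (hv' : v ≤ 1 / 4)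
    (x : E d) : ‖F V v x - gradient V x‖ ≤ 6 * √v * (√d + ‖x‖) := by
  have h1 := adm_F_sub hV hv x
  have h2 := mul_le_mul (adm_le_sqrt hv hv') (norm_F_le hV hv hv' x) (norm_nonneg _)
    (by positivity)
  have h3 : 0 ≤ √v * ‖x‖ := by positivity
  linarith

theorem Kd_prob (hV : Admissible d V) {v t : ℝ} (hv : 0 < v) (ht : 0 < t) (u : E d) :
    IsProbabilityMeasure (Kd V v t u) :=
  nu_prob (Phi_cvx (adm_cvx hV) _) (by positivity) u

theorem Kd_integrable (hV : Admissible d V) {v t : ℝ} (hv : 0 < v) (ht : 0 < t) (u : E d) :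
    Integrable (fun b => b) (Kd V v t u) :=
  Heat2.integrable_nu (Phi_cvx (adm_cvx hV) _) (by positivity) u lip_id

/-- `integral_norm_sub_nu` with `Phi_Phi` (so that `F (Phi V a) b = F V (a + b)`). -/
theorem Kd_norm_le (hV : Admissible d V) {v t : ℝ} (hv : 0 < v) (hv' : v ≤ 1 / 4) (ht : 0 < t)
    (ht' : t ≤ 1) (u : E d) : ∫ b, ‖b‖ ∂Kd V v t u ≤ ‖u‖ + 3 * √v * (√d + ‖u‖) := by
  have hp := Kd_prob hV hv ht u
  have ht2 : t ^ 2 ≤ 1 := by nlinarith
  have hb : 0 < v * t ^ 2 := by positivity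
  have hb' : v * t ^ 2 ≤ v := mul_le_of_le_one_right hv.le ht2
  have h1 : ∫ b, ‖b - u‖ ∂Kd V v t u ≤ _ :=
    integral_norm_sub_nu (Phi_cvx (adm_cvx hV) (v * (1 - t ^ 2))) hb u
  have h2 : F (Phi V (v * (1 - t ^ 2))) (v * t ^ 2) u = F V v u := by
    rw [F, F, Phi_Phi (adm_cvx hV) (mul_nonneg hv.le (by linarith)) hb.le]
    congr 2
    ring
  rw [h2] at h1
  have i0 := Kd_integrable hV hv ht u
  have i1 : Integrable (fun b => ‖b - u‖) (Kd V v t u) := (i0.sub (integrable_const u)).norm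
  have i2 : Integrable (fun b => ‖b - u‖ + ‖u‖) (Kd V v t u) := i1.add (integrable_const _)
  have h3 := integral_mono i0.norm i2 fun b => norm_le_norm_sub_add b u
  rw [integral_add i1 (integrable_const _), integral_const, probReal_univ, one_smul] at h3
  have h4 := mul_le_mul (hb'.trans (adm_le_sqrt hv hv')) (norm_F_le hV hv hv' u) (norm_nonneg _)
    (by positivity)
  have h5 : √(v * t ^ 2 * d) ≤ √v * √d := by
    rw [← Real.sqrt_mul hv.le]
    gcongr
  have h6 : 0 ≤ √v * ‖u‖ := by positivity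
  linarith

/-- Jensen: `exp (∫ ‖x‖²/4) ≤ ∫ exp (‖x‖²/4) dπ ≤ ∫ e^{-‖x‖²/4} / ∫ e^{-‖x‖²} = 2^d`
(`adm_bounds`, `GaussianFourier.integral_rexp_neg_mul_sq_norm`), so `∫ ‖x‖² ≤ 4 d log 2 ≤ 4 d`. -/
theorem integral_norm_gib_le (hV : Admissible d V) : ∫ x, ‖x‖ ∂gib V ≤ 2 * √d := by
  have hμ : PM 1 (gib V) := pm_gib one_pos (adm_sc hV)
  have hp := hμ.prob
  have hpi := Real.pi_pos
  have hi := adm_integrable hV
  have hZ := integral_exp_pos hi
  have g1 : ∫ x : E d, Real.exp (-1 * ‖x‖ ^ 2) = Real.pi ^ (d / 2 : ℝ) := by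
    simpa using GaussianFourier.integral_rexp_neg_mul_sq_norm (V := E d) one_pos
  have g2 : ∫ x : E d, Real.exp (-(1 / 4) * ‖x‖ ^ 2) = 2 ^ d * Real.pi ^ (d / 2 : ℝ) := by
    rw [GaussianFourier.integral_rexp_neg_mul_sq_norm (V := E d) (by norm_num),
      finrank_euclideanSpace_fin, show Real.pi / (1 / 4) = 2 ^ (2 : ℝ) * Real.pi by
        rw [Real.rpow_two]; ring, Real.mul_rpow (by positivity) hpi.le, ← Real.rpow_mul zero_le_two,
      show (2 : ℝ) * (d / 2) = d by ring, Real.rpow_natCast]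
  have j1 : Integrable fun x : E d => Real.exp (-1 * ‖x‖ ^ 2) :=
    Integrable.of_integral_ne_zero (by rw [g1]; positivity)
  have j2 : Integrable fun x : E d => Real.exp (-(1 / 4) * ‖x‖ ^ 2) :=
    Integrable.of_integral_ne_zero (by rw [g2]; positivity)
  have h1 : Real.pi ^ (d / 2 : ℝ) ≤ ∫ x, Real.exp (-V x) := by
    rw [← g1]
    exact integral_mono j1 hi fun x => Real.exp_le_exp.2 (by linarith [(adm_bounds hV x).2])
  have cV := hV.1.continuous
  have hle : ∀ x : E d, Real.exp (-V x) * Real.exp (‖x‖ ^ 2 / 4) ≤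
      Real.exp (-(1 / 4) * ‖x‖ ^ 2) := fun x => by
    rw [← Real.exp_add]
    exact Real.exp_le_exp.2 (by linarith [(adm_bounds hV x).1])
  have j3 : Integrable fun x : E d => Real.exp (-V x) * Real.exp (‖x‖ ^ 2 / 4) :=
    j2.mono' (by fun_prop) (ae_of_all _ fun x => by
      rw [Real.norm_of_nonneg (by positivity)]; exact hle x)
  have j4 : Integrable (fun x : E d => Real.exp (‖x‖ ^ 2 / 4)) (gib V) :=
    (integrable_tilted_iff hi _).2 j3
  have h2 : ∫ x, Real.exp (‖x‖ ^ 2 / 4) ∂gib V ≤ Real.exp d := by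
    have e : ∀ x : E d, (Real.exp (-V x) / ∫ x, Real.exp (-V x)) • Real.exp (‖x‖ ^ 2 / 4) =
        Real.exp (-V x) * Real.exp (‖x‖ ^ 2 / 4) / ∫ x, Real.exp (-V x) := fun x => by
      rw [smul_eq_mul]; ring
    rw [gib, integral_tilted]
    simp only [e]
    rw [integral_div, div_le_iff₀ hZ]
    refine (integral_mono j3 j2 hle).trans ?_
    rw [g2, ← Real.exp_one_pow]
    gcongr
    linarith [Real.add_one_le_exp 1]
  have i1 := hμ.integrable_lip zero_le_one (lip_norm (X := E d))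
  have i2 := hμ.integrable_lip_sq zero_le_one (lip_norm (X := E d))
  have i3 : Integrable (fun x : E d => ‖x‖ ^ 2 / 4 + (1 - d : ℝ)) (gib V) :=
    (i2.div_const 4).add (integrable_const _)
  have h3 := integral_mono i3 (j4.div_const (Real.exp d)) fun x => by
    have := Real.add_one_le_exp (‖x‖ ^ 2 / 4 - d)
    rw [Real.exp_sub] at this
    simp only
    linarith
  rw [integral_add (i2.div_const 4) (integrable_const _), integral_const, probReal_univ, one_smul,
    integral_div, integral_div] at h3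
  have h4 : (∫ x, Real.exp (‖x‖ ^ 2 / 4) ∂gib V) / Real.exp d ≤ 1 :=
    (div_le_one (Real.exp_pos _)).2 h2
  have h5 := poinc_int_sq_sub i1 i2
  have h6 : 0 ≤ ∫ y, (‖y‖ - ∫ z, ‖z‖ ∂gib V) ^ 2 ∂gib V := integral_nonneg fun _ => sq_nonneg _
  refine le_of_sq_le_sq ?_ (by positivity)
  rw [mul_pow, Real.sq_sqrt (Nat.cast_nonneg _)]
  linarith

end Crest.Agent.R285
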