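import Crest.Agent.R285.Iface
import Crest.Agent.R285.SchLip

/-! Row 285: `L¹` errors of Picard collocation and of finite differences. -/

set_option autoImplicit false

namespace Crest.Agent.R285

open MeasureTheory ProbabilityTheory Crest.OracleSampling Set
open scoped ENNReal NNReal InnerProductSpace

/-- The Lipschitz constant of the normalized score. -/
noncomputable def Lg : ℝ := F_lip.choose

theorem one_le_Lg : 1 ≤ Lg := F_lip.choose_spec.1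

theorem F_lip' {d : ℕ} {U : E d → ℝ} {h : ℝ} (hU : Nice h U) (hh : 0 < h) {s : ℝ}
    (h1 : 1 / 4 ≤ s) (h2 : s ≤ 7 / 4) : Lip (Lg * h) (F U s) :=
  F_lip.choose_spec.2 d U h hU hh s h1 h2

theorem Gf_lip {d : ℕ} {U : E d → ℝ} {h : ℝ} (hU : Nice h U) (hh : 0 < h) {θ : Th}
    (hθ : ‖θ‖ ≤ 1 / 2) : Lip Lg (Gf U h θ) := by
  have hl := lev_mem hθ
  have hF := F_lip' hU hh (s := lev θ) (by linarith [hl.1]) (by linarith [hl.2])
  have hpos : Lip 1 (pos (d := d) θ) := by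
    intro x y
    have h0 : |θ 0| ≤ 1 / 2 := (norm_le_pi_norm θ 0).trans hθ
    have h1 : |θ 1| ≤ 1 / 2 := (norm_le_pi_norm θ 1).trans hθ
    have e0 : ‖x 0 - y 0‖ ≤ ‖x - y‖ := norm_le_pi_norm (x - y) 0
    have e1 : ‖x 1 - y 1‖ ≤ ‖x - y‖ := norm_le_pi_norm (x - y) 1
    have : pos θ x - pos θ y = θ 0 • (x 0 - y 0) + θ 1 • (x 1 - y 1) := by
      simp only [pos, Fin.sum_univ_two, smul_sub]
      abel
    rw [this]
    refine (norm_add_le _ _).trans ?_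
    rw [norm_smul, norm_smul, Real.norm_eq_abs, Real.norm_eq_abs]
    have a0 := mul_le_mul h0 e0 (norm_nonneg _) (by norm_num)
    have a1 := mul_le_mul h1 e1 (norm_nonneg _) (by norm_num)
    linarith
  have hL : 0 ≤ Lg * h := mul_nonneg (zero_le_one.trans one_le_Lg) hh.le
  have := (hF.comp hpos hL).smul h⁻¹
  rw [abs_of_pos (inv_pos.2 hh), show h⁻¹ * (Lg * h * 1) = Lg by field_simp] at this
  exact this

section aux
variable {Y : Type*} [NormedAddCommGroup Y] [NormedSpace ℝ Y]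

theorem integral_norm_sum_le {Ω : Type*} [MeasurableSpace Ω] {μ : Measure Ω} (s : Finset ℕ)
    (a : ℕ → ℝ) {f : ℕ → Ω → Y} {b A : ℝ} (hf : ∀ i ∈ s, Integrable (f i) μ)
    (hb : ∀ i ∈ s, ∫ ω, ‖f i ω‖ ∂μ ≤ b) (hb0 : 0 ≤ b) (hA : ∑ i ∈ s, |a i| ≤ A) :
    ∫ ω, ‖∑ i ∈ s, a i • f i ω‖ ∂μ ≤ A * b := by
  have hi : ∀ i ∈ s, Integrable (fun ω => |a i| * ‖f i ω‖) μ := fun i hi =>
    (hf i hi).norm.const_mul _
  calc ∫ ω, ‖∑ i ∈ s, a i • f i ω‖ ∂μ ≤ ∫ ω, ∑ i ∈ s, |a i| * ‖f i ω‖ ∂μ := by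
        refine integral_mono_of_nonneg (ae_of_all _ fun ω => norm_nonneg _)
          (integrable_finsetSum s hi) (ae_of_all _ fun ω => ?_)
        refine (norm_sum_le _ _).trans (Finset.sum_le_sum fun i _ => ?_)
        rw [norm_smul, Real.norm_eq_abs]
    _ = ∑ i ∈ s, |a i| * ∫ ω, ‖f i ω‖ ∂μ := by
        rw [integral_finsetSum s hi]
        exact Finset.sum_congr rfl fun i _ => integral_const_mul _ _
    _ ≤ ∑ i ∈ s, |a i| * b :=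
        Finset.sum_le_sum fun i hi => mul_le_mul_of_nonneg_left (hb i hi) (abs_nonneg _)
    _ ≤ A * b := by
        rw [← Finset.sum_mul]
        exact mul_le_mul_of_nonneg_right hA hb0

omit [NormedSpace ℝ Y] in
theorem integrable_lip_tg {d : ℕ} {U : E d → ℝ} (hU : ConvexOn ℝ univ U) {θ : Th}
    (hθ : ‖θ‖ ≤ 1 / 2) {φ : Pt d → Om d} (hφ : TG φ) {f : Om d → Y} {L : ℝ} (hf : Lip L f) :
    Integrable (fun ω => f (φ (θ, ω))) (pm U θ) := by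
  have := pm_prob hU hθ
  have c : Continuous fun ω : Om d => φ (θ, ω) :=
    hφ.sm.continuous.comp (continuous_const.prodMk continuous_id)
  refine ((integrable_const ‖f 0‖).add ((TG.integrable_pm hU hθ hφ).norm.const_mul L)).mono'
    (hf.continuous.comp c).aestronglyMeasurable (ae_of_all _ fun ω => ?_)
  simpa using hf.norm_le (φ (θ, ω)) 0

theorem tg_snd (d : ℕ) : TG fun p : Pt d => p.2 :=
  (ContinuousLinearMap.snd ℝ Th (Om d)).hasTemperateGrowth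

theorem node_pow_le {K j : ℕ} {τ : ℝ} (hτ : 0 ≤ τ) (hj : j ≤ K) :
    ((j : ℝ) * τ) ^ (K + 1) ≤ (K : ℝ) ^ (K + 1) * τ ^ (K + 1) := by
  rw [← mul_pow]
  have : (j : ℝ) ≤ K := by exact_mod_cast hj
  gcongr

/-- Evaluation at collocation points, for a general target space. -/
theorem eval_gen [FiniteDimensional ℝ Y] (D : Dat) {K j : ℕ} {τ LH η ε B B' : ℝ} {θ : Th}
    {ψ : Pt D.d → Y} {H : Om D.d → Y} {P : Om D.d → Om D.d} (hτ : 0 < τ)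
    (hθ : ‖θ‖ + K * τ < 1 / 2) (hj : j ≤ K) (hψ : TG ψ) (hL : 0 ≤ LH) (hH : Lip LH H)
    (hP : Lip 2 P)
    (hB : ∀ θ' : Th, ‖θ'‖ < 1 / 2 → ∫ ω, ‖(XD D)^[K + 1] ψ (θ', ω)‖ ∂pm D.U θ' ≤ B)
    (hB' : ∀ θ' : Th, ‖θ'‖ < 1 / 2 → ∫ ω, ‖(XD D)^[K] (XV D) (θ', ω)‖ ∂pm D.U θ' ≤ B')
    (hη : ∫ ω, ‖H ω - ψ (θ + ((j : ℝ) * τ) • D.e, ω)‖ ∂pm D.U (θ + ((j : ℝ) * τ) • D.e) ≤ η)
    (hε : ∫ ω, ‖P ω - Tay D K (fun p => p.2) (j * τ) (θ, ω)‖ ∂pm D.U θ ≤ ε) :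
    ∫ ω, ‖H (P ω) - Tay D K ψ (j * τ) (θ, ω)‖ ∂pm D.U θ ≤
      LH * ε + η + (LH + 1) * ((K : ℝ) ^ (K + 1) * τ ^ (K + 1)) * (B + B') := by
  have hKτ : 0 ≤ (K : ℝ) * τ := by positivity
  have hθ0 : ‖θ‖ < 1 / 2 := by linarith
  have hjK : (j : ℝ) ≤ K := by exact_mod_cast hj
  have ht : 0 ≤ (j : ℝ) * τ := by positivity
  have hB0 : 0 ≤ B := (integral_nonneg fun _ => norm_nonneg _).trans (hB θ hθ0)
  have hB0' : 0 ≤ B' := (integral_nonneg fun _ => norm_nonneg _).trans (hB' θ hθ0)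
  have hreg : ∀ s ∈ Icc 0 ((j : ℝ) * τ), ‖θ + s • D.e‖ < 1 / 2 := by
    intro s hs
    have h1 : ‖s • D.e‖ ≤ s := by
      rw [norm_smul, Real.norm_eq_abs, abs_of_nonneg hs.1]
      exact mul_le_of_le_one_right hs.1 D.he
    have h2 : (j : ℝ) * τ ≤ K * τ := by gcongr
    linarith [norm_add_le θ (s • D.e), hs.2]
  have ht1 := transport_eval D hψ K θ ht hreg hL hH hB hB'
  have hT := TG.Tay D (tg_snd D.d) K ((j : ℝ) * τ)
  have i1 : Integrable (fun ω => ‖P ω - Tay D K (fun p => p.2) (j * τ) (θ, ω)‖) (pm D.U θ) :=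
    ((Lip.integrable_pm D.nice.cvx hθ0.le hP).sub (TG.integrable_pm D.nice.cvx hθ0.le hT)).norm
  have i2 : Integrable (fun ω => ‖H (Tay D K (fun p => p.2) (j * τ) (θ, ω)) -
      Tay D K ψ (j * τ) (θ, ω)‖) (pm D.U θ) :=
    ((integrable_lip_tg D.nice.cvx hθ0.le hT hH).sub
      (TG.integrable_pm D.nice.cvx hθ0.le (TG.Tay D hψ K _))).norm
  have hm : ∫ ω, ‖H (P ω) - Tay D K ψ (j * τ) (θ, ω)‖ ∂pm D.U θ ≤
      ∫ ω, (LH * ‖P ω - Tay D K (fun p => p.2) (j * τ) (θ, ω)‖ +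
        ‖H (Tay D K (fun p => p.2) (j * τ) (θ, ω)) - Tay D K ψ (j * τ) (θ, ω)‖) ∂pm D.U θ := by
    refine integral_mono_of_nonneg (ae_of_all _ fun ω => norm_nonneg _)
      ((i1.const_mul LH).add i2) (ae_of_all _ fun ω => ?_)
    exact (norm_sub_le_norm_sub_add_norm_sub _ (H (Tay D K (fun p => p.2) (j * τ) (θ, ω))) _).trans
      (add_le_add_left (hH _ _) _)
  rw [integral_add (i1.const_mul LH) i2, integral_const_mul] at hm
  have a1 := mul_le_mul_of_nonneg_left hε hL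
  have a2 : (LH + 1) * ((j : ℝ) * τ) ^ (K + 1) * (B + B') ≤
      (LH + 1) * ((K : ℝ) ^ (K + 1) * τ ^ (K + 1)) * (B + B') := by
    have := node_pow_le hτ.le hj
    gcongr
  linarith

end aux

theorem XD_iter_snd (D : Dat) (k : ℕ) :
    (XD D)^[k + 1] (fun p : Pt D.d => p.2) = (XD D)^[k] (XV D) := by
  rw [Function.iterate_succ_apply, XD_snd]

theorem iface_all (k : ℕ) : ∃ C : ℝ, 0 ≤ C ∧ ∀ (D : Dat) (θ : Th), ‖θ‖ < 1 / 2 →
    ∫ ω, ‖(XD D)^[k] (XV D) (θ, ω)‖ ∂pm D.U θ ≤ C * (√D.d + ‖F D.U 1 0‖) := by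
  cases k with
  | zero =>
    obtain ⟨C, h1, hC⟩ := iface_XV
    exact ⟨C, by linarith, hC⟩
  | succ k =>
    obtain ⟨C, h1, hC⟩ := iface k
    refine ⟨C, by linarith, fun D θ hθ => (hC D θ hθ).2.1.trans ?_⟩
    have : 0 ≤ C := by linarith
    gcongr
    exact le_add_of_nonneg_right (norm_nonneg _)

theorem pic_err_zero (K : ℕ) : ∃ C : ℝ, 0 ≤ C ∧ ∀ (D : Dat) (θ : Th) (t : ℝ), ‖θ‖ < 1 / 2 →
    0 ≤ t → t ≤ 1 →
    ∫ ω, ‖ω - Tay D K (fun p => p.2) t (θ, ω)‖ ∂pm D.U θ ≤ C * (√D.d + ‖F D.U 1 0‖) := by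
  choose c hc0 hc using iface_all
  refine ⟨K * ∑ k ∈ Finset.range K, c k, by
    have := Finset.sum_nonneg fun k (_ : k ∈ Finset.range K) => hc0 k
    positivity, fun D θ t hθ ht0 ht1 => ?_⟩
  have e : ∀ ω : Om D.d, ‖ω - Tay D K (fun p => p.2) t (θ, ω)‖ =
      ‖∑ k ∈ Finset.range K, (t ^ (k + 1) / (k + 1).factorial) • (XD D)^[k] (XV D) (θ, ω)‖ := by
    intro ω
    rw [norm_sub_rev, Tay, Finset.sum_range_succ']
    simp only [XD_iter_snd]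
    simp
  simp only [e]
  have hX : 0 ≤ √(D.d : ℝ) + ‖F D.U 1 0‖ := by positivity
  rw [mul_assoc]
  refine integral_norm_sum_le _ _
    (fun k _ => TG.integrable_pm D.nice.cvx hθ.le (TG.XD_iter D (tg_XV D) k))
    (fun k hk => (hc k D θ hθ).trans ?_) ?_ ?_
  · exact mul_le_mul_of_nonneg_right
      (Finset.single_le_sum (f := c) (fun k _ => hc0 k) hk) hX
  · exact mul_nonneg (Finset.sum_nonneg fun k _ => hc0 k) hX
  · have : ∀ k ∈ Finset.range K, |t ^ (k + 1) / ((k + 1).factorial : ℝ)| ≤ 1 := by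
      intro k _
      have h1 : (1 : ℝ) ≤ (k + 1).factorial := by exact_mod_cast Nat.factorial_pos (k + 1)
      rw [abs_of_nonneg (by positivity), div_le_one (by positivity)]
      exact (pow_le_one₀ ht0 ht1).trans h1
    simpa using Finset.sum_le_sum this

/-- Let `ε n` bound the left side for all `j ≤ K`, `Ψ j = Tay K snd (j τ)`.  By `sum_qw_Tay`
(`XD_snd`), `Pic (n+1) j - Ψ j = τ ∑ w j i (W θ_i (Pic n i) - Tay K XV (i τ)) +
((jτ)^{K+1}/(K+1)!) XD^[K] XV`, and `‖W θ_i (Pic n i) - Tay K XV‖ ≤ LW ‖Pic n i - Ψ i‖ +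
‖W θ_i (Ψ i) - Tay K XV (i τ)‖`, the last term by `transport_eval` and `iface`.  Hence
`ε (n+1) ≤ κ₁ ε n + Cq τ η + C τ^{K+1} √d` with `κ₁ = τ LW Cq ≤ 1/2`, while
`ε 0 ≤ C (√d + ‖F U 1 0‖)` by `iface_XV`, `iface`.  Integrability: `pic_lip`,
`Lip.integrable_pm`, `TG.integrable_pm`. -/
theorem pic_err (K : ℕ) (hK : 1 ≤ K) : ∃ C : ℝ, 1 ≤ C ∧ ∀ (D : Dat) (τ R LW η : ℝ) (θ : Th)
    (W : Th → Om D.d → Om D.d), 0 < τ → τ ≤ 1 → ‖θ‖ + K * τ ≤ R → R < 1 / 2 → 0 ≤ LW →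
    (∀ θ', ‖θ'‖ ≤ R → Lip LW (W θ')) → τ * LW * Cq K ≤ 1 / 2 →
    (∀ θ', ‖θ'‖ ≤ R → ∫ ω, ‖W θ' ω - XV D (θ', ω)‖ ∂pm D.U θ' ≤ η) → ∀ n j, j ≤ K →
    ∫ ω, ‖Pic K τ W D.e n j θ ω - Tay D K (fun p => p.2) (j * τ) (θ, ω)‖ ∂pm D.U θ ≤
      C * ((τ * LW * Cq K) ^ n * (√D.d + ‖F D.U 1 0‖) + τ * η + τ ^ (K + 1) * √D.d) := by
  obtain ⟨K', rfl⟩ : ∃ K', K = K' + 1 := ⟨K - 1, by omega⟩
  obtain ⟨c₀, hc₀, h₀⟩ := pic_err_zero (K' + 1)
  obtain ⟨c₁, hc₁, h₁⟩ := iface K'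
  obtain ⟨c₂, hc₂, h₂⟩ := iface (K' + 1)
  have h₁' : ∀ (D : Dat) (θ : Th), ‖θ‖ < 1 / 2 →
      ∫ ω, ‖(XD D)^[K' + 1] (XV D) (θ, ω)‖ ∂pm D.U θ ≤ c₁ * √D.d := fun D θ hθ => (h₁ D θ hθ).2.1
  clear h₁
  generalize K' + 1 = K at *
  set M : ℝ := (K : ℝ) ^ (K + 1) with hM
  have hM0 : 0 ≤ M := by positivity
  have hq := one_le_Cq K
  set A : ℝ := (1 / 2 + Cq K) * M * (c₂ + c₁) + M * c₁ with hA
  have hA0 : 0 ≤ A := by positivity
  refine ⟨c₀ + 2 * Cq K + 2 * A, by linarith, ?_⟩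
  intro D τ R LW η θ W hτ hτ1 hR hR' hLW hW hs hη
  set C : ℝ := c₀ + 2 * Cq K + 2 * A with hC
  have hKτ : 0 ≤ (K : ℝ) * τ := by positivity
  have hθR : ‖θ‖ ≤ R := by linarith
  have hθ0 : ‖θ‖ < 1 / 2 := by linarith
  have hη0 : 0 ≤ η := (integral_nonneg fun _ => norm_nonneg _).trans (hη θ hθR)
  have hX : 0 ≤ √(D.d : ℝ) + ‖F D.U 1 0‖ := by positivity
  have hκ0 : 0 ≤ τ * LW * Cq K := by positivity
  have hd : 0 ≤ τ ^ (K + 1) * √(D.d : ℝ) := by positivity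
  have hτη : 0 ≤ τ * η := by positivity
  intro n
  induction n with
  | zero =>
    intro j hj
    have hjK : (j : ℝ) ≤ K := by exact_mod_cast hj
    have hjτ : (j : ℝ) * τ ≤ K * τ := by gcongr
    refine (h₀ D θ (j * τ) hθ0 (by positivity) (by linarith [norm_nonneg θ])).trans ?_
    rw [pow_zero, one_mul]
    exact mul_le_mul (by linarith) (by linarith) hX (by linarith)
  | succ n ih =>
    intro j hj
    set ε : ℝ := C * ((τ * LW * Cq K) ^ n * (√D.d + ‖F D.U 1 0‖) + τ * η +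
      τ ^ (K + 1) * √D.d) with hε
    have hε0 : 0 ≤ ε := by positivity
    set f : ℕ → Om D.d → Om D.d := fun i ω =>
      W (θ + ((i : ℝ) * τ) • D.e) (Pic K τ W D.e n i θ ω) - Tay D K (XV D) (i * τ) (θ, ω) with hf
    have hnode : ∀ i ≤ K, ‖θ + ((i : ℝ) * τ) • D.e‖ ≤ R := fun i hi =>
      (norm_node_le D.he hτ.le hi).trans hR
    have hlip : ∀ i ≤ K, Lip 2 (Pic K τ W D.e n i θ) := fun i hi =>
      (pic_lip hτ.le D.he hR hLW hW hs n hi).1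
    have hfi : ∀ i ∈ Finset.range (K + 1), Integrable (f i) (pm D.U θ) := by
      intro i hi
      have hi' := Nat.lt_succ_iff.1 (Finset.mem_range.1 hi)
      exact (Lip.integrable_pm D.nice.cvx hθ0.le (((hW _ (hnode i hi')).comp (hlip i hi') hLW))).sub
        (TG.integrable_pm D.nice.cvx hθ0.le (TG.Tay D (tg_XV D) K _))
    set b : ℝ := LW * ε + η + (LW + 1) * (M * τ ^ (K + 1)) * (c₂ * √D.d + c₁ * √D.d) with hb
    have hb0 : 0 ≤ b := by positivity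
    have hfb : ∀ i ∈ Finset.range (K + 1), ∫ ω, ‖f i ω‖ ∂pm D.U θ ≤ b := by
      intro i hi
      have hi' := Nat.lt_succ_iff.1 (Finset.mem_range.1 hi)
      exact eval_gen D hτ (by linarith) hi' (tg_XV D) hLW (hW _ (hnode i hi')) (hlip i hi')
        (fun θ' hθ' => (h₂ D θ' hθ').2.1) (h₁' D) (hη _ (hnode i hi')) (ih i hi')
    have hsum := integral_norm_sum_le (Finset.range (K + 1)) (qw K j) hfi hfb hb0 (sum_qw_le K hj)
    have e : ∀ ω : Om D.d, Pic K τ W D.e (n + 1) j θ ω - Tay D K (fun p => p.2) (j * τ) (θ, ω) =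
        τ • ∑ i ∈ Finset.range (K + 1), qw K j i • f i ω +
          ((j * τ) ^ (K + 1) / (K + 1).factorial) • (XD D)^[K] (XV D) (θ, ω) := by
      intro ω
      have h1 := sum_qw_Tay D (fun p => p.2) K j τ (θ, ω)
      rw [XD_snd] at h1
      have h2 : Tay D (K + 1) (fun p => p.2) (j * τ) (θ, ω) =
          Tay D K (fun p => p.2) (j * τ) (θ, ω) +
            ((j * τ) ^ (K + 1) / (K + 1).factorial) • (XD D)^[K] (XV D) (θ, ω) := by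
        rw [Tay, Finset.sum_range_succ, XD_iter_snd]
        rfl
      simp only [hf, smul_sub, Finset.sum_sub_distrib, Pic]
      rw [h1, h2]
      abel
    have i1 : Integrable (fun ω => ‖∑ i ∈ Finset.range (K + 1), qw K j i • f i ω‖) (pm D.U θ) :=
      (integrable_finsetSum _ fun i hi => (hfi i hi).smul (qw K j i)).norm
    have i2 : Integrable (fun ω => ‖(XD D)^[K] (XV D) (θ, ω)‖) (pm D.U θ) :=
      (TG.integrable_pm D.nice.cvx hθ0.le (TG.XD_iter D (tg_XV D) K)).norm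
    have hm : ∫ ω, ‖Pic K τ W D.e (n + 1) j θ ω - Tay D K (fun p => p.2) (j * τ) (θ, ω)‖
        ∂pm D.U θ ≤ ∫ ω, (τ * ‖∑ i ∈ Finset.range (K + 1), qw K j i • f i ω‖ +
          M * τ ^ (K + 1) * ‖(XD D)^[K] (XV D) (θ, ω)‖) ∂pm D.U θ := by
      refine integral_mono_of_nonneg (ae_of_all _ fun ω => norm_nonneg _)
        ((i1.const_mul _).add (i2.const_mul _)) (ae_of_all _ fun ω => ?_)
      simp only [e]
      refine (norm_add_le _ _).trans (add_le_add ?_ ?_)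
      · rw [norm_smul, Real.norm_eq_abs, abs_of_pos hτ]
      · rw [norm_smul, Real.norm_eq_abs, abs_of_nonneg (by positivity)]
        refine mul_le_mul_of_nonneg_right ?_ (norm_nonneg _)
        have h1 : (1 : ℝ) ≤ (K + 1).factorial := by exact_mod_cast Nat.factorial_pos (K + 1)
        exact (div_le_self (by positivity) h1).trans (node_pow_le hτ.le hj)
    rw [integral_add (i1.const_mul _) (i2.const_mul _), integral_const_mul,
      integral_const_mul] at hm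
    have a1 := mul_le_mul_of_nonneg_left hsum hτ.le
    have a2 := mul_le_mul_of_nonneg_left (h₁' D θ hθ0) (show 0 ≤ M * τ ^ (K + 1) by positivity)
    have a3 : τ * Cq K * (LW + 1) ≤ 1 / 2 + Cq K := by nlinarith
    have a4 : τ * Cq K * (LW + 1) * (M * (c₂ + c₁) * (τ ^ (K + 1) * √D.d)) ≤
        (1 / 2 + Cq K) * (M * (c₂ + c₁) * (τ ^ (K + 1) * √D.d)) :=
      mul_le_mul_of_nonneg_right a3 (by positivity)
    have hC0 : 0 ≤ C := by positivity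
    have a5 : τ * LW * Cq K * (C * (τ * η)) ≤ 1 / 2 * (C * (τ * η)) :=
      mul_le_mul_of_nonneg_right hs (by positivity)
    have a6 : τ * LW * Cq K * (C * (τ ^ (K + 1) * √D.d)) ≤ 1 / 2 * (C * (τ ^ (K + 1) * √D.d)) :=
      mul_le_mul_of_nonneg_right hs (by positivity)
    have a7 : Cq K * (τ * η) ≤ 1 / 2 * C * (τ * η) :=
      mul_le_mul_of_nonneg_right (by linarith) hτη
    have a8 : A * (τ ^ (K + 1) * √D.d) ≤ 1 / 2 * C * (τ ^ (K + 1) * √D.d) :=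
      mul_le_mul_of_nonneg_right (by linarith) hd
    have e1 : τ * (Cq K * b) = C * ((τ * LW * Cq K) ^ (n + 1) * (√D.d + ‖F D.U 1 0‖)) +
        τ * LW * Cq K * (C * (τ * η)) + τ * LW * Cq K * (C * (τ ^ (K + 1) * √D.d)) +
        Cq K * (τ * η) + τ * Cq K * (LW + 1) * (M * (c₂ + c₁) * (τ ^ (K + 1) * √D.d)) := by
      rw [hb, hε]
      ring
    have e2 : A * (τ ^ (K + 1) * √D.d) =
        (1 / 2 + Cq K) * (M * (c₂ + c₁) * (τ ^ (K + 1) * √D.d)) +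
          M * τ ^ (K + 1) * (c₁ * √D.d) := by
      rw [hA]
      ring
    refine hm.trans ?_
    linarith

/-- Evaluation at collocation points: triangle inequality through `H (Tay K snd (j τ))`,
`transport_eval`, `iface`. -/
theorem eval_err (K : ℕ) (hK : 1 ≤ K) : ∃ C : ℝ, 1 ≤ C ∧ ∀ (D : Dat) (τ LH η ε B : ℝ) (θ : Th)
    (ψ : Pt D.d → E D.d) (H : Om D.d → E D.d) (P : Om D.d → Om D.d) (j : ℕ), 0 < τ → τ ≤ 1 →
    ‖θ‖ + K * τ < 1 / 2 → j ≤ K → TG ψ → 0 ≤ LH → Lip LH H → Lip 2 P →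
    (∀ θ' : Th, ‖θ'‖ < 1 / 2 → ∫ ω, ‖(XD D)^[K + 1] ψ (θ', ω)‖ ∂pm D.U θ' ≤ B) →
    ∫ ω, ‖H ω - ψ (θ + ((j : ℝ) * τ) • D.e, ω)‖ ∂pm D.U (θ + ((j : ℝ) * τ) • D.e) ≤ η →
    ∫ ω, ‖P ω - Tay D K (fun p => p.2) (j * τ) (θ, ω)‖ ∂pm D.U θ ≤ ε →
    ∫ ω, ‖H (P ω) - Tay D K ψ (j * τ) (θ, ω)‖ ∂pm D.U θ ≤
      LH * ε + η + C * (LH + 1) * τ ^ (K + 1) * (B + √D.d) := by
  obtain ⟨K', rfl⟩ : ∃ K', K = K' + 1 := ⟨K - 1, by omega⟩
  obtain ⟨c₁, hc₁, h₁⟩ := iface K'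
  have h₁' : ∀ (D : Dat) (θ : Th), ‖θ‖ < 1 / 2 →
      ∫ ω, ‖(XD D)^[K' + 1] (XV D) (θ, ω)‖ ∂pm D.U θ ≤ c₁ * √D.d := fun D θ hθ => (h₁ D θ hθ).2.1
  clear h₁
  generalize K' + 1 = K at *
  have hM : (1 : ℝ) ≤ (K : ℝ) ^ (K + 1) := one_le_pow₀ (by exact_mod_cast hK)
  refine ⟨(K : ℝ) ^ (K + 1) * c₁, one_le_mul_of_one_le_of_one_le hM hc₁, ?_⟩
  intro D τ LH η ε B θ ψ H P j hτ _ hθ hj hψ hL hH hP hB hη hε
  refine (eval_gen D hτ hθ hj hψ hL hH hP hB (h₁' D) hη hε).trans ?_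
  have hKτ : 0 ≤ (K : ℝ) * τ := by positivity
  have hB0 : 0 ≤ B := (integral_nonneg fun _ => norm_nonneg _).trans (hB θ (by linarith))
  have h2 : B + c₁ * √D.d ≤ c₁ * (B + √D.d) := by nlinarith
  have h3 := mul_le_mul_of_nonneg_left h2
    (show 0 ≤ (LH + 1) * ((K : ℝ) ^ (K + 1) * τ ^ (K + 1)) by positivity)
  have e : (K : ℝ) ^ (K + 1) * c₁ * (LH + 1) * τ ^ (K + 1) * (B + √D.d) =
      (LH + 1) * ((K : ℝ) ^ (K + 1) * τ ^ (K + 1)) * (c₁ * (B + √D.d)) := by ring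
  linarith

/-- `sum_qc_Tay`, `eval_err` with `ψ = gv`, `H = Gf θ_l`, `η = 0` (`gv_eq`), `pic_err`. -/
theorem dif_err (K : ℕ) (hK : 1 ≤ K) : ∃ C : ℝ, 1 ≤ C ∧ ∀ (D : Dat) (τ R LW η : ℝ) (θ : Th)
    (W : Th → Om D.d → Om D.d), 0 < τ → τ ≤ 1 → ‖θ‖ + K * τ ≤ R → R < 1 / 2 → 0 ≤ LW →
    (∀ θ', ‖θ'‖ ≤ R → Lip LW (W θ')) → τ * LW * Cq K ≤ 1 / 2 →
    (∀ θ', ‖θ'‖ ≤ R → ∫ ω, ‖W θ' ω - XV D (θ', ω)‖ ∂pm D.U θ' ≤ η) → ∀ n,
    ∫ ω, ‖Dif K τ n (Gf D.U D.h) W D.e θ ω - XD D (gv D) (θ, ω)‖ ∂pm D.U θ ≤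
      C / τ * ((τ * LW * Cq K) ^ n * (√D.d + ‖F D.U 1 0‖) + τ * η + τ ^ (K + 1) * √D.d) := by
  obtain ⟨C₁, hC₁, h₁⟩ := eval_err K hK
  obtain ⟨C₂, hC₂, h₂⟩ := pic_err K hK
  obtain ⟨c, hc, h₃⟩ := iface K
  have hq := one_le_Cq K
  have hLg := one_le_Lg
  have hA1 : 1 ≤ Lg * C₂ := one_le_mul_of_one_le_of_one_le hLg hC₂
  have hA2 : 0 ≤ C₁ * (Lg + 1) * (c + 1) := by positivity
  refine ⟨Cq K * (Lg * C₂ + C₁ * (Lg + 1) * (c + 1)),
    one_le_mul_of_one_le_of_one_le hq (by linarith), ?_⟩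
  intro D τ R LW η θ W hτ hτ1 hR hR' hLW hW hs hη n
  have hKτ : 0 ≤ (K : ℝ) * τ := by positivity
  have hθR : ‖θ‖ ≤ R := by linarith
  have hθ0 : ‖θ‖ < 1 / 2 := by linarith
  have hη0 : 0 ≤ η := (integral_nonneg fun _ => norm_nonneg _).trans (hη θ hθR)
  set Q : ℝ := (τ * LW * Cq K) ^ n * (√D.d + ‖F D.U 1 0‖) + τ * η + τ ^ (K + 1) * √D.d with hQ
  have hQ1 : τ ^ (K + 1) * √D.d ≤ Q := by
    have : 0 ≤ (τ * LW * Cq K) ^ n * (√D.d + ‖F D.U 1 0‖) + τ * η := by positivity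
    linarith
  have hQ0 : 0 ≤ Q := by positivity
  set f : ℕ → Om D.d → E D.d := fun i ω =>
    Gf D.U D.h (θ + ((i : ℝ) * τ) • D.e) (Pic K τ W D.e n i θ ω) - Tay D K (gv D) (i * τ) (θ, ω)
    with hf
  have hnode : ∀ i ≤ K, ‖θ + ((i : ℝ) * τ) • D.e‖ ≤ 1 / 2 := fun i hi =>
    ((norm_node_le D.he hτ.le hi).trans hR).trans hR'.le
  have hlip : ∀ i ≤ K, Lip 2 (Pic K τ W D.e n i θ) := fun i hi =>
    (pic_lip hτ.le D.he hR hLW hW hs n hi).1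
  have hG : ∀ i ≤ K, Lip Lg (Gf D.U D.h (θ + ((i : ℝ) * τ) • D.e)) := fun i hi =>
    Gf_lip D.nice D.hpos (hnode i hi)
  have hfi : ∀ i ∈ Finset.range (K + 1), Integrable (f i) (pm D.U θ) := by
    intro i hi
    have hi' := Nat.lt_succ_iff.1 (Finset.mem_range.1 hi)
    exact (Lip.integrable_pm D.nice.cvx hθ0.le
      ((hG i hi').comp (hlip i hi') (by linarith))).sub
      (TG.integrable_pm D.nice.cvx hθ0.le (TG.Tay D (tg_gv D) K _))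
  have hfb : ∀ i ∈ Finset.range (K + 1), ∫ ω, ‖f i ω‖ ∂pm D.U θ ≤
      (Lg * C₂ + C₁ * (Lg + 1) * (c + 1)) * Q := by
    intro i hi
    have hi' := Nat.lt_succ_iff.1 (Finset.mem_range.1 hi)
    have := h₁ D τ Lg 0 (C₂ * Q) (c * √D.d) θ (gv D) _ _ i hτ hτ1 (by linarith) hi' (tg_gv D)
      (by linarith) (hG i hi') (hlip i hi') (fun θ' hθ' => (h₃ D θ' hθ').1)
      (by simp [gv_eq D (θ + ((i : ℝ) * τ) • D.e, _) (hnode i hi')])
      (h₂ D τ R LW η θ W hτ hτ1 hR hR' hLW hW hs hη n i hi')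
    refine this.trans ?_
    have a1 := mul_le_mul_of_nonneg_left hQ1 hA2
    have e : C₁ * (Lg + 1) * τ ^ (K + 1) * (c * √D.d + √D.d) =
      C₁ * (Lg + 1) * (c + 1) * (τ ^ (K + 1) * √D.d) := by ring
    rw [e, add_mul, mul_assoc Lg]
    linarith
  have hsum := integral_norm_sum_le (Finset.range (K + 1)) (qc K) hfi hfb (by positivity)
    (sum_qc_le K)
  have e : ∀ ω : Om D.d, ‖Dif K τ n (Gf D.U D.h) W D.e θ ω - XD D (gv D) (θ, ω)‖ =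
      τ⁻¹ * ‖∑ i ∈ Finset.range (K + 1), qc K i • f i ω‖ := by
    intro ω
    rw [← sum_qc_Tay D (gv D) hK hτ.ne' (θ, ω), Dif, ← smul_sub, norm_smul, Real.norm_eq_abs,
      abs_of_pos (inv_pos.2 hτ), ← Finset.sum_sub_distrib]
    simp only [hf, smul_sub]
  simp only [e]
  rw [integral_const_mul]
  refine (mul_le_mul_of_nonneg_left hsum (inv_pos.2 hτ).le).trans_eq ?_
  ring

end Crest.Agent.R285
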