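import Crest.Agent.R285.Approx1

/-! Row 285: accuracy of the sampling map `Smp` and of the noise compensation `Corr`.

For fixed `U, h` use the data `D(e, κ) = ⟨d, U, h, e, κ, ..⟩`; `gv`, `av`, `RV`, `CD D (gv D)` do not
depend on `e, κ` (by `rfl`).  Write `w = √d + ‖F U 1 0‖`, `G = Gf U h` (a `Sch` with `Lg`, any
`R ≤ 1/2`), `χ = κb ^ n + τ ^ (K+1)`. -/

set_option autoImplicit false

namespace Crest.Agent.R285

open MeasureTheory ProbabilityTheory Crest.OracleSampling Set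
open scoped ENNReal NNReal InnerProductSpace

namespace A2

/-- The same data with another direction and another rotation parameter. -/
abbrev mkD (D : Dat) (e : Th) (κ : ℝ) (he : ‖e‖ ≤ 1) (hκ : |κ| ≤ 1) : Dat :=
  ⟨D.d, D.U, D.h, e, κ, D.nice, D.hpos, D.hle, he, hκ⟩

noncomputable def S0 (K : ℕ) : ℝ := 20 * Cq K ^ 2 * Lg

lemma one_le_S0 (K : ℕ) : 1 ≤ S0 K := by
  have h1 := one_le_Cq K
  have h2 := one_le_Lg
  have h3 : 1 ≤ Cq K ^ 2 := one_le_pow₀ h1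
  unfold S0
  nlinarith

lemma tau_le {K : ℕ} (hK : 1 ≤ K) {τ : ℝ} (hτ : 0 < τ) (h : K * τ ≤ 1) : τ ≤ 1 := by
  have : (1 : ℝ) ≤ K := by exact_mod_cast hK
  nlinarith

lemma sch {K : ℕ} (D : Dat) {τ κb : ℝ} (hτ : 0 < τ) (hτ1 : τ ≤ 1) (hh : D.h ≤ κb)
    (hs : S0 K * κb ≤ 1) : Sch K τ D.h κb Lg (1 / 2) (Gf D.U D.h) :=
  ⟨hτ, hτ1, D.hpos.le, hh, one_le_Lg, hs, fun _ hθ => Gf_lip D.nice D.hpos hθ⟩

lemma W0_eq (D : Dat) {θ : Th} (hθ : ‖θ‖ ≤ 1 / 2) (ω : Om D.d) :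
    W0 D.h (Gf D.U D.h) D.e θ ω = BV D (θ, ω) := by
  funext k
  simp only [W0, BV, gv_eq D (θ, ω) hθ]

lemma W0_err (D : Dat) (hκ : D.κ = 0) {θ : Th} (hθ : ‖θ‖ ≤ 1 / 2) :
    ∫ ω, ‖W0 D.h (Gf D.U D.h) D.e θ ω - XV D (θ, ω)‖ ∂pm D.U θ ≤ 0 := by
  simp [W0_eq D hθ, XV, hκ]

lemma pow_le0 {K : ℕ} {τ h κb : ℝ} (hτ : 0 < τ) (hτ1 : τ ≤ 1) (hh0 : 0 < h) (hh : h ≤ κb) (n : ℕ) :
    (τ * (h * Lg) * Cq K) ^ n ≤ (Lg * Cq K) ^ n * κb ^ n := by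
  have h1 := one_le_Cq K
  have h2 := one_le_Lg
  rw [← mul_pow]
  refine pow_le_pow_left₀ (by positivity) ?_ n
  have : τ * h ≤ κb := by nlinarith
  calc τ * (h * Lg) * Cq K = Lg * Cq K * (τ * h) := by ring
    _ ≤ Lg * Cq K * κb := mul_le_mul_of_nonneg_left this (by positivity)

lemma pow_eq1 {K : ℕ} {τ κb : ℝ} (hτ : 0 < τ) (n : ℕ) :
    (τ * (3 * Cq K * Lg * κb / τ) * Cq K) ^ n = (3 * Cq K ^ 2 * Lg) ^ n * κb ^ n := by
  rw [← mul_pow]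
  congr 1
  field_simp

/-- `a x w + b (x + y) w + y s ≤ (a + b + 1) (x + y) w`. -/
lemma collect {a b x y s w : ℝ} (ha : 0 ≤ a) (hx : 0 ≤ x) (hy : 0 ≤ y) (hw : 0 ≤ w) (hs : s ≤ w) :
    a * x * w + b * (x + y) * w + y * s ≤ (a + b + 1) * (x + y) * w := by
  have h1 := mul_le_mul_of_nonneg_left hs hy
  have h2 : 0 ≤ a * y * w := by positivity
  have h3 : 0 ≤ x * w := by positivity
  nlinarith

lemma lip_integrable {α Y : Type*} [MeasurableSpace α] {μ : Measure α} [IsFiniteMeasure μ]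
    [NormedAddCommGroup Y] {f : Y → ℝ} {L : ℝ} (hf : Lip L f) {a : α → Y} (ha : Integrable a μ) :
    Integrable (fun x => f (a x)) μ := by
  refine ((integrable_const ‖f 0‖).add (ha.norm.const_mul L)).mono'
    (hf.continuous.comp_aestronglyMeasurable ha.1) (Filter.Eventually.of_forall fun x => ?_)
  simpa using hf.norm_le (a x) 0

lemma lip_int_le {α Y : Type*} [MeasurableSpace α] {μ : Measure α} [IsFiniteMeasure μ]
    [NormedAddCommGroup Y] {f : Y → ℝ} {L : ℝ} (hf : Lip L f) {a b : α → Y} (ha : Integrable a μ)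
    (hb : Integrable b μ) :
    |∫ x, f (a x) ∂μ - ∫ x, f (b x) ∂μ| ≤ L * ∫ x, ‖a x - b x‖ ∂μ := by
  rw [← integral_sub (lip_integrable hf ha) (lip_integrable hf hb), ← integral_const_mul,
    ← Real.norm_eq_abs]
  exact norm_integral_le_of_norm_le ((ha.sub hb).norm.const_mul L)
    (Filter.Eventually.of_forall fun x => hf _ _)

lemma integral_pair {d : ℕ} {μ ν : Measure (E d)} [SFinite μ] [SFinite ν] {g : Om d → ℝ}
    (hg : Integrable g ((μ.prod ν).map fun p => ![p.1, p.2])) :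
    ∫ ω, g ω ∂((μ.prod ν).map fun p => ![p.1, p.2]) = ∫ η, ∫ z, g ![η, z] ∂ν ∂μ := by
  have hm : Measurable fun p : E d × E d => (![p.1, p.2] : Om d) := by
    refine measurable_pi_iff.2 fun k => ?_
    fin_cases k
    · exact measurable_fst
    · exact measurable_snd
  rw [integral_map hm.aemeasurable hg.1]
  exact integral_prod _ ((integrable_map_measure hg.1 hm.aemeasurable).1 hg)

lemma integral_pm_eu {d : ℕ} {U : E d → ℝ} (hU : ConvexOn ℝ univ U) {t : ℝ} (ht : |t| ≤ 1 / 2)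
    {g : Om d → ℝ} {L : ℝ} (hg : Lip L g) :
    ∫ ω, g ω ∂pm U (t • eu 0) = ∫ η, ∫ z, g ![η, z] ∂gam d ∂kd U t := by
  have hi := hg.integrable_pm hU (θ := t • eu 0) (by rwa [norm_smul, norm_eu, mul_one])
  obtain ⟨h1, h2⟩ := pm_eu hU ht
  rw [h2] at hi ⊢
  exact integral_pair hi

lemma integral_pm_zero {d : ℕ} {U : E d → ℝ} (hU : ConvexOn ℝ univ U) {g : Om d → ℝ} {L : ℝ}
    (hg : Lip L g) : ∫ ω, g ω ∂pm U 0 = ∫ η, ∫ z, g ![η, z] ∂gam d ∂gam d := by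
  have hi := hg.integrable_pm hU (θ := 0) (by simp)
  rw [pm_zero, pi_gam_eq_map] at hi ⊢
  exact integral_pair hi

lemma lip_eval {d : ℕ} (k : Fin 2) : Lip 1 fun ω : Om d => ω k := fun x y => by
  rw [one_mul]; exact norm_le_pi_norm (x - y) k

lemma pos_eu {d : ℕ} (s : ℝ) (ω : Om d) : pos (s • eu 0) ω = s • ω 0 := by
  simp [pos, eu]

lemma pic_zero_congr {d : ℕ} (K : ℕ) (τ h : ℝ) (U : E d → ℝ) (n : ℕ) : ∀ (j : ℕ) (ω ω' : Om d),
    ω 0 = ω' 0 → Pic K τ (W0 h (Gf U h) (eu 0)) (eu 0) n j 0 ω 0 =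
      Pic K τ (W0 h (Gf U h) (eu 0)) (eu 0) n j 0 ω' 0 := by
  induction n with
  | zero => exact fun _ _ _ h => h
  | succ n ih =>
    intro j ω ω' hω
    simp only [Pic, Pi.add_apply, Pi.smul_apply, Finset.sum_apply, W0, Gf, zero_add, pos_eu, hω,
      ih _ ω ω' hω]

lemma tg_snd (d : ℕ) : TG fun p : Pt d => p.2 := (ContinuousLinearMap.snd ℝ Th (Om d)).hasTemperateGrowth

lemma norm_path {θ e : Th} (he : ‖e‖ ≤ 1) {s t : ℝ} (hs : s ∈ Icc 0 t) : ‖θ + s • e‖ ≤ ‖θ‖ + t := by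
  refine (norm_add_le _ _).trans (add_le_add le_rfl ?_)
  rw [norm_smul, Real.norm_of_nonneg hs.1]
  nlinarith [hs.1, hs.2, norm_nonneg e]

end A2

open A2

/-- For `D(eu 0, 0)`: `W0 h G (eu 0) = XV D` on the region (`gv_eq`), so `pic_err` applies with
`η = 0` at `θ = 0`, `pm U 0 = γ ⊗ γ` (`pm_zero`, `pi_gam_eq_map`); `transport` for `ψ = snd` and
the test function `ω ↦ f (ω 0)`; `pm_eu`.  Along `θ = s • eu 0` the field `G θ ω` depends only on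
`ω 0`, hence `Smp ω = Smp ![ω 0, 0]` (induction on `n`). -/
theorem approx_smp (K n : ℕ) (hK : 1 ≤ K) : ∃ C : ℝ, 1 ≤ C ∧ ∀ (d : ℕ) (U : E d → ℝ)
    (h τ κb : ℝ), Nice h U → 0 < h → h ≤ κb → C * κb ≤ 1 → 0 < τ → 2 * (K * τ) < 1 →
    ∀ (f : E d → ℝ) (L : ℝ), 0 ≤ L → Lip L f →
    |∫ ξ, f (Smp K τ n h (Gf U h) ![ξ, 0]) ∂gam d - ∫ η, f η ∂kd U (K * τ)| ≤
      L * C * (κb ^ n + τ ^ K) * (√d + ‖F U 1 0‖) := by
  obtain ⟨C₁, hC₁, hp⟩ := pic_err K hK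
  obtain ⟨K', rfl⟩ : ∃ K', K = K' + 1 := ⟨K - 1, by omega⟩
  obtain ⟨C₂, hC₂, hi⟩ := iface K'
  set K := K' + 1 with hKK
  have hq := one_le_Cq K
  have hLg := one_le_Lg
  have hS := one_le_S0 K
  obtain ⟨A, hA⟩ : ∃ A, A = C₁ * ((Lg * Cq K) ^ n + 0 + 1) + (K : ℝ) ^ (K + 1) * C₂ := ⟨_, rfl⟩
  have hA0 : 0 ≤ A := by rw [hA]; positivity
  refine ⟨A + S0 K, by linarith, fun d U h τ κb hU hh hhκ hC hτ hKτ f L hL hf => ?_⟩
  have hκb : 0 < κb := hh.trans_le hhκ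
  have hs : S0 K * κb ≤ 1 := by nlinarith
  have hτ1 : τ ≤ 1 := tau_le hK hτ (by nlinarith)
  have hKτ0 : 0 ≤ K * τ := by positivity
  let D : Dat := ⟨d, U, h, eu 0, 0, hU, hh, by nlinarith, (norm_eu 0).le, by simp⟩
  have H : Sch K τ h κb Lg (1 / 2) (Gf U h) := sch D hτ hτ1 hhκ hs
  have := pm_prob hU.cvx (θ := 0) (by simp)
  have e1 := hp D τ (K * τ) (h * Lg) 0 0 (W0 h (Gf U h) (eu 0)) hτ hτ1 (by simp) (by linarith)
    (by positivity) (fun θ' hθ' => W0_lip hh.le (norm_eu 0).le (by positivity)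
      (H.lip θ' (by linarith))) H.small0 (fun θ' hθ' => W0_err D rfl (by linarith)) n K le_rfl
  have hf0 : Lip (L * 1) fun ω : Om d => f (ω 0) := hf.comp (lip_eval 0) hL
  rw [mul_one] at hf0
  have hreg : ∀ s ∈ Icc 0 (K * τ), ‖(0 : Th) + s • D.e‖ < 1 / 2 := fun s hs =>
    (norm_path D.he hs).trans_lt (by rw [norm_zero]; linarith)
  have e2 := transport D (tg_snd d) K 0 hKτ0 hreg hL hf0 (B := C₂ * √d) fun s hs => by
    rw [Function.iterate_succ_apply, XD_snd]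
    exact (hi D _ (hreg s hs)).2.1
  have e3 : ∫ ω, f (ω 0) ∂pm U ((0 : Th) + ((K : ℝ) * τ) • eu 0) = ∫ η, f η ∂kd U (K * τ) := by
    rw [zero_add, integral_pm_eu hU.cvx (by rw [abs_of_nonneg hKτ0]; linarith) hf0]
    simp
  have hP := (pic_lip hτ.le (norm_eu 0).le (θ := 0) (R := K * τ) (by simp) (by positivity)
    (fun θ' hθ' => W0_lip hh.le (norm_eu 0).le (by positivity) (H.lip θ' (by linarith)))
    H.small0 n (le_refl K)).1
  have e4 : ∫ ω, f (Pic K τ (W0 h (Gf U h) (eu 0)) (eu 0) n K 0 ω 0) ∂pm U 0 =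
      ∫ ξ, f (Smp K τ n h (Gf U h) ![ξ, 0]) ∂gam d := by
    rw [integral_pm_zero hU.cvx (hf0.comp hP hL)]
    refine integral_congr_ae (Filter.Eventually.of_forall fun ξ => ?_)
    have : ∀ z : E d, Pic K τ (W0 h (Gf U h) (eu 0)) (eu 0) n K 0 ![ξ, z] 0 =
        Smp K τ n h (Gf U h) ![ξ, 0] := fun z => pic_zero_congr K τ h U n K _ _ rfl
    simp [this]
  have e5 := lip_int_le hf0 (hP.integrable_pm hU.cvx (θ := 0) (by simp))
    (((tg_snd d).Tay D K (K * τ)).integrable_pm hU.cvx (θ := 0) (by simp))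
  rw [← e4, ← e3]
  refine (abs_sub_le _ _ _).trans ((add_le_add e5 e2).trans ?_)
  have hw : √d ≤ √d + ‖F U 1 0‖ := le_add_of_nonneg_right (norm_nonneg _)
  have hw0 : 0 ≤ √d + ‖F U 1 0‖ := by positivity
  have t1 : τ ^ (K + 1) ≤ τ ^ K := pow_le_pow_of_le_one hτ.le hτ1 (Nat.le_succ K)
  have e6 : C₁ * ((τ * (h * Lg) * Cq K) ^ n * (√d + ‖F U 1 0‖) + τ * 0 + τ ^ (K + 1) * √d) ≤
      C₁ * (((Lg * Cq K) ^ n + 0 + 1) * (κb ^ n + τ ^ K) * (√d + ‖F U 1 0‖)) := by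
    refine mul_le_mul_of_nonneg_left (le_trans ?_ (collect (s := √d) (by positivity) (by positivity)
      (by positivity) hw0 hw)) (by positivity)
    have := pow_le0 (K := K) hτ hτ1 hh hhκ n
    rw [mul_zero, zero_mul, zero_mul]
    gcongr
  have e7 : (K * τ) ^ (K + 1) * (C₂ * √d) ≤
      (K : ℝ) ^ (K + 1) * C₂ * ((κb ^ n + τ ^ K) * (√d + ‖F U 1 0‖)) := by
    have : τ ^ (K + 1) ≤ κb ^ n + τ ^ K := t1.trans (le_add_of_nonneg_left (by positivity))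
    calc (K * τ) ^ (K + 1) * (C₂ * √d) = (K : ℝ) ^ (K + 1) * C₂ * (τ ^ (K + 1) * √d) := by
          rw [mul_pow]; ring
      _ ≤ _ := by gcongr
  have e8 := mul_le_mul_of_nonneg_left (add_le_add (e1.trans e6) e7) hL
  have e9 : 0 ≤ L * S0 K * (κb ^ n + τ ^ K) * (√d + ‖F U 1 0‖) := by positivity
  rw [hA]
  change L * ∫ x, ‖_ - Tay D K (fun p => p.2) (K * τ) (0, x)‖ ∂pm D.U 0 + _ ≤ _
  linarith

/-- `dif_err` for `D(eu k, 0)` (`XD_gv` gives `XD gv = av k`). -/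
theorem ah_err (K n : ℕ) (hK : 1 ≤ K) : ∃ C : ℝ, 1 ≤ C ∧ ∀ (D : Dat) (τ κb : ℝ) (θ : Th)
    (k : Fin 2), D.h ≤ κb → C * κb ≤ 1 → 0 < τ → ‖θ‖ + K * τ < 1 / 2 →
    ∫ ω, ‖ah K τ n D.h (Gf D.U D.h) k θ ω - av D k (θ, ω)‖ ∂pm D.U θ ≤
      C / τ * (κb ^ n + τ ^ (K + 1)) * (√D.d + ‖F D.U 1 0‖) := by
  obtain ⟨C₁, hC₁, hd⟩ := dif_err K hK
  have hq := one_le_Cq K
  have hLg := one_le_Lg
  have hS := one_le_S0 K
  obtain ⟨A, hA⟩ : ∃ A, A = C₁ * ((Lg * Cq K) ^ n + 0 + 1) := ⟨_, rfl⟩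
  have hA0 : 0 ≤ A := by rw [hA]; positivity
  refine ⟨A + S0 K, by linarith, fun D τ κb θ k hhκ hC hτ hθ => ?_⟩
  have hh := D.hpos
  have hκb : 0 < κb := hh.trans_le hhκ
  have hs : S0 K * κb ≤ 1 := by nlinarith
  have hKτ0 : 0 ≤ K * τ := by positivity
  have hθ0 := norm_nonneg θ
  have hτ1 : τ ≤ 1 := tau_le hK hτ (by linarith)
  have H := sch (K := K) D hτ hτ1 hhκ hs
  let D' := mkD D (eu k) 0 (norm_eu k).le (by simp)
  have e1 := hd D' τ _ (D.h * Lg) 0 θ (W0 D.h (Gf D.U D.h) (eu k)) hτ hτ1 le_rfl hθ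
    (by positivity) (fun θ' hθ' => W0_lip hh.le (norm_eu k).le (by positivity)
      (H.lip θ' (by linarith))) H.small0 (fun θ' hθ' => W0_err D' rfl (by linarith)) n
  have e2 : ∀ ω, XD D' (gv D') (θ, ω) = av D k (θ, ω) := fun ω => by
    rw [XD_gv D' (θ, ω) (by change ‖θ‖ < _; linarith)]
    change ∑ j, eu k j • av D j (θ, ω) + (0 : ℝ) • _ = _
    simp [eu, Pi.single_apply]
  simp only [e2] at e1
  refine le_trans e1 ?_
  have hw : √D.d ≤ √D.d + ‖F D.U 1 0‖ := le_add_of_nonneg_right (norm_nonneg _)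
  have hw0 : 0 ≤ √D.d + ‖F D.U 1 0‖ := by positivity
  calc _ ≤ C₁ / τ * (((Lg * Cq K) ^ n + 0 + 1) * (κb ^ n + τ ^ (K + 1)) * (√D.d + ‖F D.U 1 0‖)) := by
        refine mul_le_mul_of_nonneg_left (le_trans ?_ (collect (s := √D.d) (by positivity)
          (by positivity) (by positivity) hw0 hw)) (by positivity)
        have := pow_le0 (K := K) hτ hτ1 hh hhκ n
        rw [mul_zero, zero_mul, zero_mul]
        gcongr
    _ = A / τ * (κb ^ n + τ ^ (K + 1)) * (√D.d + ‖F D.U 1 0‖) := by rw [hA]; ring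
    _ ≤ _ := by gcongr; linarith

theorem W1_err (K n : ℕ) (hK : 1 ≤ K) : ∃ C : ℝ, 1 ≤ C ∧ ∀ (D : Dat) (τ κb : ℝ) (θ : Th),
    D.h ≤ κb → C * κb ≤ 1 → 0 < τ → ‖θ‖ + K * τ < 1 / 2 →
    ∫ ω, ‖W1 K τ n D.h (Gf D.U D.h) D.e D.κ θ ω - XV D (θ, ω)‖ ∂pm D.U θ ≤
      C / τ * (κb ^ n + τ ^ (K + 1)) * (√D.d + ‖F D.U 1 0‖) := by
  obtain ⟨C₁, hC₁, ha⟩ := ah_err K n hK
  have hS := one_le_S0 K
  refine ⟨2 * C₁ + S0 K, by linarith, fun D τ κb θ hhκ hC hτ hθ => ?_⟩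
  have hh := D.hpos
  have hκb : 0 < κb := hh.trans_le hhκ
  have hs : S0 K * κb ≤ 1 := by nlinarith
  have hKτ0 : 0 ≤ K * τ := by positivity
  have hθ0 := norm_nonneg θ
  have hθ1 : ‖θ‖ ≤ 1 / 2 := by linarith
  have hτ1 : τ ≤ 1 := tau_le hK hτ (by linarith)
  have H := sch (K := K) D hτ hτ1 hhκ hs
  have hi : ∀ k, Integrable (fun ω => ‖ah K τ n D.h (Gf D.U D.h) k θ ω - av D k (θ, ω)‖)
      (pm D.U θ) := fun k => (((H.ah_lip hθ.le n k).integrable_pm D.nice.cvx hθ1).sub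
        ((tg_av D k).integrable_pm D.nice.cvx hθ1)).norm
  have e0 := ha D τ κb θ 0 hhκ (by nlinarith) hτ hθ
  have e1 := ha D τ κb θ 1 hhκ (by nlinarith) hτ hθ
  calc _ ≤ ∫ ω, (‖ah K τ n D.h (Gf D.U D.h) 0 θ ω - av D 0 (θ, ω)‖ +
        ‖ah K τ n D.h (Gf D.U D.h) 1 θ ω - av D 1 (θ, ω)‖) ∂pm D.U θ := by
        refine integral_mono_of_nonneg (Filter.Eventually.of_forall fun ω => norm_nonneg _)
          ((hi 0).add (hi 1)) (Filter.Eventually.of_forall fun ω => ?_)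
        simp only [W1, XV, W0_eq D hθ1, add_sub_add_left_eq_sub, ← smul_sub, norm_smul]
        refine (mul_le_of_le_one_left (norm_nonneg _) D.hκ).trans ?_
        refine (pi_norm_le_iff_of_nonneg (by positivity)).2 fun k => ?_
        fin_cases k
        · exact le_add_of_nonneg_left (norm_nonneg _)
        · change ‖-ah K τ n D.h (Gf D.U D.h) 0 θ ω - -av D 0 (θ, ω)‖ ≤ _
          rw [neg_sub_neg, norm_sub_rev]
          exact le_add_of_nonneg_right (norm_nonneg _)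
    _ ≤ 2 * C₁ / τ * (κb ^ n + τ ^ (K + 1)) * (√D.d + ‖F D.U 1 0‖) := by
        rw [integral_add (hi 0) (hi 1)]
        refine (add_le_add e0 e1).trans (le_of_eq ?_)
        ring
    _ ≤ _ := by gcongr; linarith

/-- `dif_err` for `D(eu 0, κ')` and `W = W1` (`Sch.W1_lip`, `W1_err`), where
`XD gv = av 0 + κ' CD gv`, and `ah_err`. -/
theorem Ch_err (K n : ℕ) (hK : 1 ≤ K) : ∃ C : ℝ, 1 ≤ C ∧ ∀ (D : Dat) (τ κb κ' : ℝ) (θ : Th),
    D.h ≤ κb → C * κb ≤ 1 → 0 < κ' → κ' ≤ κb → 0 < τ → ‖θ‖ + 2 * (K * τ) < 1 / 2 →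
    ∫ ω, ‖Ch K τ n D.h (Gf D.U D.h) κ' θ ω - CD D (gv D) (θ, ω)‖ ∂pm D.U θ ≤
      C / (κ' * τ) * (κb ^ n + τ ^ (K + 1)) * (√D.d + ‖F D.U 1 0‖) := by
  obtain ⟨C₁, hC₁, hd⟩ := dif_err K hK
  obtain ⟨C₂, hC₂, ha⟩ := ah_err K n hK
  obtain ⟨C₃, hC₃, hW⟩ := W1_err K n hK
  have hq := one_le_Cq K
  have hLg := one_le_Lg
  have hS := one_le_S0 K
  obtain ⟨A, hA⟩ : ∃ A, A = C₁ * ((3 * Cq K ^ 2 * Lg) ^ n + C₃ + 1) := ⟨_, rfl⟩
  have hA0 : 0 ≤ A := by rw [hA]; positivity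
  refine ⟨A + C₂ + C₃ + S0 K, by linarith, fun D τ κb κ' θ hhκ hC hκ' hκκ hτ hθ => ?_⟩
  have hh := D.hpos
  have hκb : 0 < κb := hh.trans_le hhκ
  have hs : S0 K * κb ≤ 1 := by nlinarith
  have hKτ0 : 0 ≤ K * τ := by positivity
  have hθ0 := norm_nonneg θ
  have hθ1 : ‖θ‖ ≤ 1 / 2 := by linarith
  have hτ1 : τ ≤ 1 := tau_le hK hτ (by linarith)
  have H := sch (K := K) D hτ hτ1 hhκ hs
  have habs : |κ'| ≤ κb := by rwa [abs_of_pos hκ']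
  let D' := mkD D (eu 0) κ' (norm_eu 0).le (habs.trans (by nlinarith))
  have hWl : ∀ θ' : Th, ‖θ'‖ ≤ ‖θ‖ + K * τ →
      Lip (3 * Cq K * Lg * κb / τ) (W1 K τ n D.h (Gf D.U D.h) (eu 0) κ' θ') :=
    fun θ' hθ' => H.W1_lip (by linarith) n (norm_eu 0).le habs
  have e1 := hd D' τ _ (3 * Cq K * Lg * κb / τ) _ θ (W1 K τ n D.h (Gf D.U D.h) (eu 0) κ') hτ hτ1
    le_rfl (by linarith) (by positivity) hWl H.small1
    (fun θ' hθ' => hW D' τ κb θ' hhκ (by nlinarith) hτ (by linarith)) n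
  have e0 := ha D τ κb θ 0 hhκ (by nlinarith) hτ (by linarith)
  have e2 : ∀ ω, XD D' (gv D') (θ, ω) = av D 0 (θ, ω) + κ' • CD D (gv D) (θ, ω) := fun ω => by
    rw [XD_gv D' (θ, ω) (by change ‖θ‖ < _; linarith)]
    change ∑ j, eu 0 j • av D j (θ, ω) + κ' • CD D (gv D) (θ, ω) = _
    simp [eu]
  have i1 : Integrable (fun ω => ‖Dif K τ n (Gf D.U D.h) (W1 K τ n D.h (Gf D.U D.h) (eu 0) κ')
      (eu 0) θ ω - XD D' (gv D') (θ, ω)‖) (pm D.U θ) :=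
    (((dif_lip hτ (norm_eu 0).le le_rfl (by positivity) hWl H.small1 (by positivity)
      (fun θ' hθ' => H.lip θ' (by linarith)) n).integrable_pm D.nice.cvx hθ1).sub
        (((tg_gv D').XD D').integrable_pm D.nice.cvx hθ1)).norm
  have i0 : Integrable (fun ω => ‖ah K τ n D.h (Gf D.U D.h) 0 θ ω - av D 0 (θ, ω)‖) (pm D.U θ) :=
    (((H.ah_lip (by linarith) n 0).integrable_pm D.nice.cvx hθ1).sub
        ((tg_av D 0).integrable_pm D.nice.cvx hθ1)).norm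
  have hw : √D.d ≤ √D.d + ‖F D.U 1 0‖ := le_add_of_nonneg_right (norm_nonneg _)
  have hw0 : 0 ≤ √D.d + ‖F D.U 1 0‖ := by positivity
  have e3 : C₁ / τ * ((τ * (3 * Cq K * Lg * κb / τ) * Cq K) ^ n * (√D.d + ‖F D.U 1 0‖) +
      τ * (C₃ / τ * (κb ^ n + τ ^ (K + 1)) * (√D.d + ‖F D.U 1 0‖)) + τ ^ (K + 1) * √D.d) ≤
      A / τ * (κb ^ n + τ ^ (K + 1)) * (√D.d + ‖F D.U 1 0‖) := by
    calc _ ≤ C₁ / τ * (((3 * Cq K ^ 2 * Lg) ^ n + C₃ + 1) * (κb ^ n + τ ^ (K + 1)) *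
          (√D.d + ‖F D.U 1 0‖)) := by
          refine mul_le_mul_of_nonneg_left (le_trans (le_of_eq ?_) (collect (s := √D.d)
            (by positivity) (by positivity) (by positivity) hw0 hw)) (by positivity)
          rw [pow_eq1 hτ]
          field_simp
      _ = _ := by rw [hA]; ring
  calc _ ≤ ∫ ω, κ'⁻¹ * (‖Dif K τ n (Gf D.U D.h) (W1 K τ n D.h (Gf D.U D.h) (eu 0) κ')
        (eu 0) θ ω - XD D' (gv D') (θ, ω)‖ +
        ‖ah K τ n D.h (Gf D.U D.h) 0 θ ω - av D 0 (θ, ω)‖) ∂pm D.U θ := by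
        refine integral_mono_of_nonneg (Filter.Eventually.of_forall fun ω => norm_nonneg _)
          ((i1.add i0).const_mul _) (Filter.Eventually.of_forall fun ω => ?_)
        have : Ch K τ n D.h (Gf D.U D.h) κ' θ ω - CD D (gv D) (θ, ω) =
            κ'⁻¹ • ((Dif K τ n (Gf D.U D.h) (W1 K τ n D.h (Gf D.U D.h) (eu 0) κ') (eu 0) θ ω
              - XD D' (gv D') (θ, ω)) - (ah K τ n D.h (Gf D.U D.h) 0 θ ω - av D 0 (θ, ω))) := by
          rw [e2, Ch]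
          simp only [smul_sub, smul_add, smul_smul, inv_mul_cancel₀ hκ'.ne', one_smul]
          abel
        simp only [this, norm_smul, Real.norm_of_nonneg (inv_pos.2 hκ').le]
        exact mul_le_mul_of_nonneg_left (norm_sub_le _ _) (inv_pos.2 hκ').le
    _ ≤ κ'⁻¹ * (A / τ * (κb ^ n + τ ^ (K + 1)) * (√D.d + ‖F D.U 1 0‖) +
        C₂ / τ * (κb ^ n + τ ^ (K + 1)) * (√D.d + ‖F D.U 1 0‖)) := by
        rw [integral_const_mul, integral_add i1 i0]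
        exact mul_le_mul_of_nonneg_left (add_le_add (e1.trans e3) e0) (inv_pos.2 hκ').le
    _ = (A + C₂) / (κ' * τ) * (κb ^ n + τ ^ (K + 1)) * (√D.d + ‖F D.U 1 0‖) := by
        field_simp
    _ ≤ _ := by
        have : A + C₂ ≤ A + C₂ + C₃ + S0 K := by linarith
        gcongr

namespace A2

/-- The observable transported in `approx_corr`. -/
noncomputable def yy (D : Dat) (κ : ℝ) : Pt D.d → E D.d := fun p => κ • gv D p + p.2 1

lemma tg_om1 (d : ℕ) : TG fun p : Pt d => p.2 1 :=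
  (tg_snd d).clm (ContinuousLinearMap.proj (R := ℝ) (φ := fun _ : Fin 2 => E d) 1)

lemma tg_smul {d : ℕ} {f : Pt d → E d} (hf : TG f) (c : ℝ) : TG fun p => c • f p :=
  hf.clm (c • ContinuousLinearMap.id ℝ (E d))

lemma XD_iter_smul (D : Dat) {f : Pt D.d → E D.d} (hf : TG f) (c : ℝ) (j : ℕ) :
    (XD D)^[j] (fun p => c • f p) = fun p => c • (XD D)^[j] f p :=
  XD_iter_clm D (c • ContinuousLinearMap.id ℝ (E D.d)) hf j

lemma tg_yy (D : Dat) (κ : ℝ) : TG (yy D κ) := (tg_smul (tg_gv D) κ).add (tg_om1 D.d)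

lemma XD_yy (D : Dat) {κ : ℝ} (he : D.e = -eu 0) (hκ : D.κ = -κ) (p : Pt D.d)
    (hp : ‖p.1‖ < 1 / 2) : XD D (yy D κ) p = (-κ ^ 2) • CD D (gv D) p := by
  have h1 := congrFun (XD_iter_add D (tg_smul (tg_gv D) κ) (tg_om1 D.d) 1) p
  have h2 := congrFun (XD_iter_smul D (tg_gv D) κ 1) p
  have h3 := congrFun (XD_iter_clm D
    (ContinuousLinearMap.proj (R := ℝ) (φ := fun _ : Fin 2 => E D.d) 1) (tg_snd D.d) 1) p
  simp only [Function.iterate_one, XD_snd, ContinuousLinearMap.proj_apply] at h1 h2 h3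
  change XD D (fun p => κ • gv D p + p.2 1) p = _
  rw [h1, h2, h3, XD_gv D p hp]
  simp only [XV, BV, RV, he, hκ, eu, Fin.sum_univ_two, Pi.add_apply, Pi.smul_apply, Pi.neg_apply,
    Pi.single_eq_same, ne_eq, one_ne_zero, not_false_eq_true, Pi.single_eq_of_ne, neg_zero,
    mul_zero, zero_smul, Matrix.cons_val_one, Matrix.cons_val_zero]
  module

lemma iter_yy (D : Dat) {κ : ℝ} (he : D.e = -eu 0) (hκ : D.κ = -κ) (j : ℕ) (p : Pt D.d)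
    (hp : ‖p.1‖ < 1 / 2) :
    (XD D)^[j] (XD D (yy D κ)) p = (-κ ^ 2) • (XD D)^[j] (CD D (gv D)) p := by
  rw [XD_iter_congr D (XD_yy D he hκ) j p hp, XD_iter_smul D ((tg_gv D).CD D)]

lemma Tay_yy (D : Dat) {κ : ℝ} (he : D.e = -eu 0) (hκ : D.κ = -κ) (K : ℕ) (τ : ℝ) (p : Pt D.d)
    (hp : ‖p.1‖ < 1 / 2) : Tay D (K + 1) (yy D κ) (K * τ) p = yy D κ p -
      (κ ^ 2 * τ) • ∑ i ∈ Finset.range (K + 1), qw K K i • Tay D K (CD D (gv D)) (i * τ) p := by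
  have h1 := sum_qw_Tay D (yy D κ) K K τ p
  have h2 : ∀ t, Tay D K (XD D (yy D κ)) t p = (-κ ^ 2) • Tay D K (CD D (gv D)) t p := fun t => by
    simp only [Tay, iter_yy D he hκ _ p hp, Finset.smul_sum, smul_comm (-κ ^ 2)]
  simp only [h2, smul_comm _ (-κ ^ 2), ← Finset.smul_sum] at h1
  rw [eq_sub_iff_add_eq] at h1
  rw [← h1]
  module

lemma norm_back {K i : ℕ} (hi : i ≤ K) {τ : ℝ} (hτ : 0 ≤ τ) :
    ‖((K : ℝ) * τ) • eu 0 + ((i : ℝ) * τ) • (-eu 0)‖ ≤ K * τ := by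
  have h1 : (i : ℝ) ≤ K := by exact_mod_cast hi
  have h2 : (i : ℝ) * τ ≤ K * τ := mul_le_mul_of_nonneg_right h1 hτ
  have h3 : 0 ≤ (i : ℝ) * τ := by positivity
  rw [smul_neg, ← sub_eq_add_neg, ← sub_smul, norm_smul, norm_eu, mul_one,
    Real.norm_of_nonneg (by linarith)]
  linarith

/-- The `L¹` distance between `Corr` and its Taylor counterpart. -/
lemma corr_err (K n : ℕ) (hK : 1 ≤ K) : ∃ C : ℝ, 1 ≤ C ∧ ∀ (D : Dat) (τ κb κ κ' : ℝ),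
    D.e = -eu 0 → D.κ = -κ → D.h ≤ κb → C * κb ≤ 1 → 0 < κ → κ ≤ κ' → κ' ≤ κb → 0 < τ →
    6 * (K * τ) < 1 →
    ∫ ω, ‖(yy D κ (((K : ℝ) * τ) • eu 0, ω) - Corr K τ n D.h (Gf D.U D.h) κ κ' ω) -
        Tay D (K + 1) (yy D κ) (K * τ) (((K : ℝ) * τ) • eu 0, ω)‖ ∂pm D.U (((K : ℝ) * τ) • eu 0) ≤
      C * (κ ^ 2 / κ') * (κb ^ n + τ ^ (K + 1)) * (√D.d + ‖F D.U 1 0‖) := by
  obtain ⟨C₁, hC₁, hp⟩ := pic_err K hK
  obtain ⟨C₂, hC₂, hi⟩ := iface (K + 1)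
  obtain ⟨C₃, hC₃, hev⟩ := eval_err K hK
  obtain ⟨C₄, hC₄, hCh⟩ := Ch_err K n hK
  obtain ⟨C₅, hC₅, hW⟩ := W1_err K n hK
  have hq := one_le_Cq K
  have hLg := one_le_Lg
  have hS := one_le_S0 K
  obtain ⟨A, hA⟩ : ∃ A, A = C₁ * ((3 * Cq K ^ 2 * Lg) ^ n + C₅ + 1) := ⟨_, rfl⟩
  have hA0 : 0 ≤ A := by rw [hA]; positivity
  obtain ⟨M, hM⟩ : ∃ M, M = 4 * Cq K * Lg * A + C₄ + C₃ * (4 * Cq K * Lg + 1) * (C₂ + 1) :=
    ⟨_, rfl⟩
  have hM0 : 0 ≤ M := by rw [hM]; positivity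
  have hMq : 0 ≤ Cq K * M := by positivity
  refine ⟨Cq K * M + C₄ + C₅ + S0 K, by linarith,
    fun D τ κb κ κ' he hκD hhκ hC hκ hκκ' hκκ hτ hKτ => ?_⟩
  have hh := D.hpos
  have hκ' : 0 < κ' := hκ.trans_le hκκ'
  have hκb : 0 < κb := hh.trans_le hhκ
  have hs : S0 K * κb ≤ 1 := by nlinarith
  have hκb1 : κb ≤ 1 := by nlinarith
  have hKτ0 : 0 ≤ K * τ := by positivity
  have hτ1 : τ ≤ 1 := tau_le hK hτ (by linarith)
  have H := sch (K := K) D hτ hτ1 hhκ hs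
  set θ : Th := ((K : ℝ) * τ) • eu 0 with hθ
  have hθn : ‖θ‖ = K * τ := by rw [hθ, norm_smul, norm_eu, mul_one, Real.norm_of_nonneg hKτ0]
  have hθ1 : ‖θ‖ ≤ 1 / 2 := by linarith
  have habs : |D.κ| ≤ κb := by rw [hκD, abs_neg, abs_of_pos hκ]; linarith
  have hw : √D.d ≤ √D.d + ‖F D.U 1 0‖ := le_add_of_nonneg_right (norm_nonneg _)
  have hw0 : 0 ≤ √D.d + ‖F D.U 1 0‖ := by positivity
  set w := √D.d + ‖F D.U 1 0‖ with hwd
  set χ := κb ^ n + τ ^ (K + 1) with hχ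
  have hχ0 : 0 ≤ χ := by positivity
  have hWl : ∀ θ' : Th, ‖θ'‖ ≤ 2 * (K * τ) →
      Lip (3 * Cq K * Lg * κb / τ) (W1 K τ n D.h (Gf D.U D.h) D.e D.κ θ') :=
    fun θ' hθ' => H.W1_lip (by linarith) n D.he habs
  have hP : ∀ i ≤ K, Lip 2 (Pic K τ (W1 K τ n D.h (Gf D.U D.h) D.e D.κ) D.e n i θ) := fun i hi =>
    (pic_lip hτ.le D.he (R := 2 * (K * τ)) (by linarith) (by positivity) hWl H.small1 n hi).1
  have hnode : ∀ i ≤ K, ‖θ + ((i : ℝ) * τ) • D.e‖ ≤ K * τ := fun i hi => by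
    rw [he]; exact norm_back hi hτ.le
  have hH : ∀ i ≤ K, Lip (4 * Cq K * Lg / (κ' * τ))
      (Ch K τ n D.h (Gf D.U D.h) κ' (θ + ((i : ℝ) * τ) • D.e)) := fun i hi =>
    H.Ch_lip (by linarith [hnode i hi]) n hκ' hκκ
  have eP : ∀ i ≤ K, ∫ ω, ‖Pic K τ (W1 K τ n D.h (Gf D.U D.h) D.e D.κ) D.e n i θ ω -
      Tay D K (fun p => p.2) (i * τ) (θ, ω)‖ ∂pm D.U θ ≤ A * χ * w := fun i hi => by
    refine (hp D τ (2 * (K * τ)) _ _ θ _ hτ hτ1 (by linarith) (by linarith) (by positivity) hWl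
      H.small1 (fun θ' hθ' => hW D τ κb θ' hhκ (by nlinarith) hτ (by linarith)) n i hi).trans ?_
    calc _ ≤ C₁ * (((3 * Cq K ^ 2 * Lg) ^ n + C₅ + 1) * (κb ^ n + τ ^ (K + 1)) * w) := by
          refine mul_le_mul_of_nonneg_left (le_trans (le_of_eq ?_) (collect (s := √D.d)
            (by positivity) (by positivity) (by positivity) hw0 hw)) (by positivity)
          rw [pow_eq1 hτ, ← hwd]
          field_simp
      _ = _ := by rw [hA]; ring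
  have eT : ∀ i ≤ K, ∫ ω, ‖Ch K τ n D.h (Gf D.U D.h) κ' (θ + ((i : ℝ) * τ) • D.e)
      (Pic K τ (W1 K τ n D.h (Gf D.U D.h) D.e D.κ) D.e n i θ ω) -
      Tay D K (CD D (gv D)) (i * τ) (θ, ω)‖ ∂pm D.U θ ≤ M / (κ' * τ) * χ * w := fun i hiK => by
    refine (hev D τ _ _ _ (C₂ * √D.d) θ (CD D (gv D)) _ _ i hτ hτ1 (by linarith) hiK
      ((tg_gv D).CD D) (by positivity) (hH i hiK) (hP i hiK) (fun θ' hθ' => (hi D θ' hθ').2.2)
      (hCh D τ κb κ' _ hhκ (by nlinarith) hκ' hκκ hτ (by linarith [hnode i hiK])) (eP i hiK)).trans ?_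
    have k1 : κ' * τ ≤ 1 := by nlinarith
    have k2 : 4 * Cq K * Lg / (κ' * τ) + 1 ≤ (4 * Cq K * Lg + 1) / (κ' * τ) := by
      rw [add_div]
      exact add_le_add le_rfl ((one_le_div (by positivity)).2 k1)
    have k3 : τ ^ (K + 1) ≤ χ := le_add_of_nonneg_left (by positivity)
    have k4 : C₂ * √D.d + √D.d ≤ (C₂ + 1) * w := by nlinarith
    calc _ ≤ 4 * Cq K * Lg / (κ' * τ) * (A * χ * w) + C₄ / (κ' * τ) * χ * w +
          C₃ * ((4 * Cq K * Lg + 1) / (κ' * τ)) * χ * ((C₂ + 1) * w) := by gcongr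
      _ = _ := by rw [hM]; field_simp
  have iT : ∀ i ∈ Finset.range (K + 1), Integrable (fun ω => |qw K K i| *
      ‖Ch K τ n D.h (Gf D.U D.h) κ' (θ + ((i : ℝ) * τ) • D.e)
      (Pic K τ (W1 K τ n D.h (Gf D.U D.h) D.e D.κ) D.e n i θ ω) -
      Tay D K (CD D (gv D)) (i * τ) (θ, ω)‖) (pm D.U θ) := fun i hi => by
    have hi' : i ≤ K := Nat.lt_succ_iff.1 (Finset.mem_range.1 hi)
    exact ((((hH i hi').comp (hP i hi') (by positivity)).integrable_pm D.nice.cvx hθ1).sub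
      ((((tg_gv D).CD D).Tay D K _).integrable_pm D.nice.cvx hθ1)).norm.const_mul _
  calc _ ≤ ∫ ω, κ ^ 2 * τ * ∑ i ∈ Finset.range (K + 1), |qw K K i| *
        ‖Ch K τ n D.h (Gf D.U D.h) κ' (θ + ((i : ℝ) * τ) • D.e)
        (Pic K τ (W1 K τ n D.h (Gf D.U D.h) D.e D.κ) D.e n i θ ω) -
        Tay D K (CD D (gv D)) (i * τ) (θ, ω)‖ ∂pm D.U θ := by
        refine integral_mono_of_nonneg (Filter.Eventually.of_forall fun ω => norm_nonneg _)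
          ((integrable_finsetSum _ iT).const_mul _) (Filter.Eventually.of_forall fun ω => ?_)
        simp only
        rw [Tay_yy D he hκD K τ (θ, ω) (by change ‖θ‖ < _; linarith), sub_sub_sub_cancel_left,
          norm_sub_rev, Corr, ← he, ← hκD, ← hθ, ← smul_sub, ← Finset.sum_sub_distrib, norm_smul,
          Real.norm_of_nonneg (by positivity)]
        refine mul_le_mul_of_nonneg_left ((norm_sum_le _ _).trans (le_of_eq ?_)) (by positivity)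
        refine Finset.sum_congr rfl fun i _ => ?_
        rw [← smul_sub, norm_smul, Real.norm_eq_abs]
    _ ≤ κ ^ 2 * τ * (Cq K * (M / (κ' * τ) * χ * w)) := by
        rw [integral_const_mul, integral_finsetSum _ iT]
        refine mul_le_mul_of_nonneg_left ?_ (by positivity)
        calc _ ≤ ∑ i ∈ Finset.range (K + 1), |qw K K i| * (M / (κ' * τ) * χ * w) := by
              refine Finset.sum_le_sum fun i hi => ?_
              rw [integral_const_mul]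
              exact mul_le_mul_of_nonneg_left (eT i (Nat.lt_succ_iff.1 (Finset.mem_range.1 hi)))
                (abs_nonneg _)
          _ ≤ _ := by
              rw [← Finset.sum_mul]
              exact mul_le_mul_of_nonneg_right (sum_qw_le K le_rfl) (by positivity)
    _ = Cq K * M * (κ ^ 2 / κ') * χ * w := by field_simp
    _ ≤ _ := by
        have : Cq K * M ≤ Cq K * M + C₄ + C₅ + S0 K := by linarith
        gcongr

end A2

/-- Take `D = D(-eu 0, -κ)`, `θ* = (K τ) • eu 0`, `y p = κ • gv p + p.2 1`.  On the region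
`XD y = -κ² • CD gv` (`XD_gv`, and `XV p 1 = κ • av 0 p`), so by `sum_qw_Tay`, `XD_iter_congr`,
`Tay (K+1) y (K τ) = y - κ² τ ∑ w K i • Tay K (CD gv) (i τ)` at `(θ*, ω)`.  `eval_err` with
`H = Ch θ_i` (`Sch.Ch_lip`, `Ch_err`, `pic_err`, `W1_err`, `iface`) bounds the `L¹(pm θ*)` distance
to `y - Corr`, and `transport` (order `K + 1`, ending at `θ* + K τ (-eu 0) = 0`) compares with the
law of `y (0, ·) = κ G 0 0 + ω 1` under `γ ⊗ γ`.  `pm_eu` and Fubini give the stated form. -/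
theorem approx_corr (K n : ℕ) (hK : 1 ≤ K) : ∃ C : ℝ, 1 ≤ C ∧ ∀ (d : ℕ) (U : E d → ℝ)
    (h τ κb κ κ' : ℝ), Nice h U → 0 < h → h ≤ κb → C * κb ≤ 1 → 0 < κ → κ ≤ κ' → κ' ≤ κb →
    0 < τ → 6 * (K * τ) < 1 → ∀ (f : E d → ℝ) (L : ℝ), 0 ≤ L → Lip L f →
    |∫ η, ∫ z, f (κ • Gf U h (((K : ℝ) * τ) • eu 0) ![η, z] + z -
        Corr K τ n h (Gf U h) κ κ' ![η, z]) ∂gam d ∂kd U (K * τ) -
      ∫ z, f (κ • Gf U h 0 0 + z) ∂gam d| ≤
      L * C * (κ ^ 2 / κ') * (κb ^ n + τ ^ K) * (√d + ‖F U 1 0‖) := by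
  obtain ⟨C₁, hC₁, hc⟩ := corr_err K n hK
  obtain ⟨C₂, hC₂, hi⟩ := iface (K + 1)
  have hS := one_le_S0 K
  have hB0 : 0 ≤ (K : ℝ) ^ (K + 2) * C₂ := by positivity
  refine ⟨C₁ + (K : ℝ) ^ (K + 2) * C₂ + S0 K, by linarith,
    fun d U h τ κb κ κ' hU hh hhκ hC hκ hκκ' hκκ hτ hKτ f L hL hf => ?_⟩
  have hκ' : 0 < κ' := hκ.trans_le hκκ'
  have hκb : 0 < κb := hh.trans_le hhκ
  have hs : S0 K * κb ≤ 1 := by nlinarith
  have hκb1 : κb ≤ 1 := by nlinarith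
  have hKτ0 : 0 ≤ K * τ := by positivity
  have hτ1 : τ ≤ 1 := tau_le hK hτ (by linarith)
  let D : Dat := ⟨d, U, h, -eu 0, -κ, hU, hh, by linarith, by rw [norm_neg, norm_eu],
    by rw [abs_neg, abs_of_pos hκ]; linarith⟩
  have H : Sch K τ h κb Lg (1 / 2) (Gf U h) := sch D hτ hτ1 hhκ hs
  set θ : Th := ((K : ℝ) * τ) • eu 0 with hθ
  have hθn : ‖θ‖ = K * τ := by rw [hθ, norm_smul, norm_eu, mul_one, Real.norm_of_nonneg hKτ0]
  have hθ1 : ‖θ‖ ≤ 1 / 2 := by linarith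
  have := pm_prob hU.cvx hθ1
  have e1 := hc D τ κb κ κ' rfl rfl hhκ (by nlinarith) hκ hκκ' hκκ hτ hKτ
  have hreg : ∀ s ∈ Icc 0 (K * τ), ‖θ + s • D.e‖ < 1 / 2 := fun s hs =>
    (norm_path D.he hs).trans_lt (by linarith)
  have e2 := transport D (tg_yy D κ) (K + 1) θ hKτ0 hreg hL hf (B := κ ^ 2 * (C₂ * √d))
    fun s hs => by
      have : ∀ ω, ‖(XD D)^[K + 1 + 1] (yy D κ) (θ + s • D.e, ω)‖ =
          κ ^ 2 * ‖(XD D)^[K + 1] (CD D (gv D)) (θ + s • D.e, ω)‖ := fun ω => by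
        rw [Function.iterate_succ_apply, iter_yy D rfl rfl _ _ (hreg s hs), norm_smul, norm_neg,
          Real.norm_of_nonneg (by positivity)]
      simp only [this]
      rw [integral_const_mul]
      exact mul_le_mul_of_nonneg_left (hi D _ (hreg s hs)).2.2 (by positivity)
  have e0 : θ + ((K : ℝ) * τ) • D.e = 0 := by
    change θ + ((K : ℝ) * τ) • (-eu 0) = 0
    rw [smul_neg, hθ, add_neg_cancel]
  rw [e0] at e2
  have hy : ∀ θ' : Th, ‖θ'‖ ≤ 1 / 2 → ∀ ω : Om d, yy D κ (θ', ω) = κ • Gf U h θ' ω + ω 1 :=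
    fun θ' hθ' ω => by rw [yy, gv_eq D (θ', ω) hθ']
  have e3 : ∫ ω, f (yy D κ (0, ω)) ∂pm U 0 = ∫ z, f (κ • Gf U h 0 0 + z) ∂gam d := by
    have h1 : ∀ ω : Om d, yy D κ (0, ω) = κ • Gf U h 0 0 + ω 1 := fun ω => by
      rw [hy 0 (by simp)]; simp [Gf, pos]
    have h2 : Lip 1 fun ω : Om d => κ • Gf U h 0 0 + ω 1 := fun x y => by
      rw [add_sub_add_left_eq_sub]; exact lip_eval 1 x y
    simp only [h1]
    rw [integral_pm_zero hU.cvx (hf.comp h2 hL)]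
    simp
  have hl : Lip (|κ| * Lg + 1 + 8 * Cq K ^ 2 * Lg * (κ ^ 2 / κ')) fun ω : Om d =>
      κ • Gf U h θ ω + ω 1 - Corr K τ n h (Gf U h) κ κ' ω :=
    (((H.lip θ hθ1).smul κ).add (lip_eval 1)).sub (H.Corr_lip (by linarith) n
      (by rw [abs_of_pos hκ]; linarith) hκ' hκκ)
  have e4 := integral_pm_eu hU.cvx (t := K * τ) (by rw [abs_of_nonneg hKτ0]; linarith)
    (hf.comp hl hL)
  have e5 := lip_int_le hf (hl.integrable_pm hU.cvx hθ1)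
    (((tg_yy D κ).Tay D (K + 1) (K * τ)).integrable_pm hU.cvx hθ1)
  simp only [Matrix.cons_val_one, Matrix.cons_val_zero] at e4
  rw [← e4, ← e3]
  refine (abs_sub_le _ _ _).trans ((add_le_add e5 e2).trans ?_)
  have e1' : ∫ ω, ‖κ • Gf U h θ ω + ω 1 - Corr K τ n h (Gf U h) κ κ' ω -
      Tay D (K + 1) (yy D κ) (K * τ) (θ, ω)‖ ∂pm U θ ≤
      C₁ * (κ ^ 2 / κ') * (κb ^ n + τ ^ (K + 1)) * (√d + ‖F U 1 0‖) := by
    simp only [← hy θ hθ1]; exact e1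
  have hw : √d ≤ √d + ‖F U 1 0‖ := le_add_of_nonneg_right (norm_nonneg _)
  have hw0 : 0 ≤ √d + ‖F U 1 0‖ := by positivity
  have t1 : τ ^ (K + 1) ≤ τ ^ K := pow_le_pow_of_le_one hτ.le hτ1 (Nat.le_succ K)
  have e6 : C₁ * (κ ^ 2 / κ') * (κb ^ n + τ ^ (K + 1)) * (√d + ‖F U 1 0‖) ≤
      C₁ * (κ ^ 2 / κ') * (κb ^ n + τ ^ K) * (√d + ‖F U 1 0‖) := by gcongr
  have e7 : (K * τ) ^ (K + 1 + 1) * (κ ^ 2 * (C₂ * √d)) ≤
      (K : ℝ) ^ (K + 2) * C₂ * ((κ ^ 2 / κ') * (κb ^ n + τ ^ K) * (√d + ‖F U 1 0‖)) := by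
    have t2 : τ ^ (K + 2) ≤ κb ^ n + τ ^ K :=
      (pow_le_pow_of_le_one hτ.le hτ1 (by omega)).trans (le_add_of_nonneg_left (by positivity))
    have t3 : κ ^ 2 ≤ κ ^ 2 / κ' := le_div_self (by positivity) hκ' (by linarith)
    calc (K * τ) ^ (K + 1 + 1) * (κ ^ 2 * (C₂ * √d)) =
          (K : ℝ) ^ (K + 2) * C₂ * (κ ^ 2 * τ ^ (K + 2) * √d) := by rw [mul_pow]; ring
      _ ≤ _ := by gcongr
  have e8 := mul_le_mul_of_nonneg_left (add_le_add (e1'.trans e6) e7) hL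
  have e9 : 0 ≤ L * S0 K * (κ ^ 2 / κ') * (κb ^ n + τ ^ K) * (√d + ‖F U 1 0‖) := by positivity
  linarith

end Crest.Agent.R285
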