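import Crest.Agent.R285.Adm

/-! Row 285: identities and contraction for the Gibbs kernels. -/

set_option autoImplicit false

namespace Crest.Agent.R285

open MeasureTheory ProbabilityTheory Crest.OracleSampling Set
open scoped ENNReal NNReal InnerProductSpace

variable {d : ℕ} {W V : E d → ℝ}

/-- Translation invariance under a Gaussian average. -/
lemma kn_shear {H : E d × E d → ℝ} (hH : Integrable H ((gam d).prod volume)) (r : ℝ) :
    ∫ y, ∫ ξ, H (ξ, y + r • ξ) ∂gam d = ∫ x, ∫ ξ, H (ξ, x) ∂gam d := by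
  have hT : MeasurePreserving (fun p : E d × E d => (id p.1, p.2 + r • p.1))
      ((gam d).prod volume) ((gam d).prod volume) :=
    (MeasurePreserving.id (gam d)).skew_product (g := fun ξ x => x + r • ξ) (by fun_prop)
      (Filter.Eventually.of_forall fun ξ => map_add_right_eq_self _ _)
  have h1 := integral_prod_symm _ (hT.integrable_comp_of_integrable hH)
  have h2 := integral_map (μ := (gam d).prod volume) hT.measurable.aemeasurable (f := H)
    (by rw [hT.map_eq]; exact hH.1)
  rw [hT.map_eq] at h2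
  rw [← integral_prod_symm _ hH, h2]
  exact h1.symm

lemma kn_one_add_le (a b : ℝ) (_ha : 0 ≤ a) (_hb : 0 ≤ b) :
    1 + a + b ≤ Real.exp a * Real.exp b := by
  rw [← Real.exp_add]
  linarith [Real.add_one_le_exp (a + b)]

lemma kn_Z_sq (W : E d → ℝ) (r : ℝ) (y : E d) :
    ∫ ξ, Real.exp (-W (y + (-r) • ξ)) ∂gam d = Z W (r ^ 2) y := by
  rw [Z, Real.sqrt_sq_eq_abs]
  rcases le_total 0 r with h | h
  · rw [abs_of_nonneg h, ← R215.integral_neg_stdGaussian]
    simp
  · rw [abs_of_nonpos h]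

lemma kn_noise {c : ℝ} (hc : 0 < c) (hW : SC c W) (r : ℝ) {f : E d → ℝ}
    (hf : Measurable f) {C : ℝ} (hC : ∀ x, |f x| ≤ C * (1 + ‖x‖)) :
    ∫ x, Real.exp (-W x) * ∫ ξ, f (x + r • ξ) ∂gam d = ∫ y, Z W (r ^ 2) y * f y := by
  have hc' := cvx_continuous (hW.cvx hc)
  have hC0 : 0 ≤ C := by simpa using (abs_nonneg _).trans (hC 0)
  have hH : Integrable (fun p : E d × E d => Real.exp (-W p.2) * f (p.2 + r • p.1))
      ((gam d).prod volume) := by
    refine (((integrable_exp_norm_gam |r|).const_mul C).mul_prod (hW.integrable_exp hc 1)).mono'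
      (Measurable.aestronglyMeasurable (by fun_prop)) (Filter.Eventually.of_forall fun p => ?_)
    rw [norm_mul, Real.norm_of_nonneg (Real.exp_pos _).le, Real.norm_eq_abs, one_mul]
    have h1 : ‖p.2 + r • p.1‖ ≤ |r| * ‖p.1‖ + ‖p.2‖ := by
      rw [add_comm, ← Real.norm_eq_abs, ← norm_smul]; exact norm_add_le _ _
    have h2 := kn_one_add_le (|r| * ‖p.1‖) ‖p.2‖ (by positivity) (norm_nonneg _)
    have h3 : |f (p.2 + r • p.1)| ≤ C * (Real.exp (|r| * ‖p.1‖) * Real.exp ‖p.2‖) :=
      (hC _).trans (mul_le_mul_of_nonneg_left (by linarith) hC0)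
    calc Real.exp (-W p.2) * |f (p.2 + r • p.1)|
        ≤ Real.exp (-W p.2) * (C * (Real.exp (|r| * ‖p.1‖) * Real.exp ‖p.2‖)) :=
          mul_le_mul_of_nonneg_left h3 (Real.exp_pos _).le
      _ = _ := by ring
  have h := kn_shear hH (-r)
  simp only [neg_smul, neg_add_cancel_right, integral_const_mul, integral_mul_const] at h
  rw [← h]
  simp only [← kn_Z_sq, neg_smul]

lemma kn_mass {c : ℝ} (hc : 0 < c) (hW : SC c W) (r : ℝ) :
    ∫ y, Z W (r ^ 2) y = ∫ x, Real.exp (-W x) := by
  have h := kn_noise hc hW r (f := fun _ => 1) measurable_const (C := 1) fun x => by simp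
  simpa using h.symm

lemma kn_integral_gib (W : E d → ℝ) (g : E d → ℝ) :
    ∫ x, g x ∂gib W = (∫ x, Real.exp (-W x))⁻¹ * ∫ x, Real.exp (-W x) * g x := by
  rw [gib, integral_tilted, ← integral_const_mul]
  refine integral_congr_ae (Filter.Eventually.of_forall fun x => ?_)
  simp only [smul_eq_mul]
  rw [div_eq_inv_mul, mul_assoc]

lemma Lip.kn_growth {f : E d → ℝ} {L : ℝ} (hf : Lip L f) (x : E d) :
    |f x| ≤ (|f 0| + |L|) * (1 + ‖x‖) := by
  have h1 := hf.norm_le x 0
  rw [sub_zero, Real.norm_eq_abs, Real.norm_eq_abs] at h1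
  have h2 := mul_le_mul_of_nonneg_right (le_abs_self L) (norm_nonneg x)
  nlinarith [abs_nonneg (f 0), abs_nonneg L, norm_nonneg x,
    mul_nonneg (abs_nonneg (f 0)) (norm_nonneg x)]

/-- Adding Gaussian noise to `gib W` gives `gib (Phi W r²)`.  Both sides are
`∫∫ f(x + r ξ) e^{-W x} dx dγ(ξ) / ∫ e^{-W}`: translate `x ↦ x - r ξ`, use the symmetry of `γ` and
Fubini; the case `f = 1` identifies the normalizations. -/
theorem integral_gib_noise {c : ℝ} (hc : 0 < c) (hW : SC c W) (r : ℝ) {f : E d → ℝ}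
    (hf : Measurable f) {C : ℝ} (hC : ∀ x, |f x| ≤ C * (1 + ‖x‖)) :
    ∫ x, ∫ ξ, f (x + r • ξ) ∂gam d ∂gib W = ∫ x, f x ∂gib (Phi W (r ^ 2)) := by
  rw [kn_integral_gib, kn_integral_gib, kn_noise hc hW r hf hC]
  simp only [exp_neg_Phi (hW.cvx hc), kn_mass hc hW r]

/-- The Gibbs identity: by `integral_nu` the left side is
`∫∫ e^{-W(u + √s ξ)} f(u + √s ξ) dγ(ξ) du / ∫ Z W s`; translate in `u`. -/
theorem integral_gib_nu {c : ℝ} (hc : 0 < c) (hW : SC c W) {s : ℝ} (hs : 0 < s) {f : E d → ℝ}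
    {L : ℝ} (hf : Lip L f) :
    ∫ u, ∫ b, f b ∂nu W s u ∂gib (Phi W s) = ∫ x, f x ∂gib W := by
  have hW' := hW.cvx hc
  have hc' := cvx_continuous hW'
  have hfc := hf.continuous
  have hG : Integrable fun x => Real.exp (-W x) * f x := by
    refine ((hW.integrable_exp hc 1).const_mul (|f 0| + |L|)).mono' (by fun_prop)
      (Filter.Eventually.of_forall fun x => ?_)
    rw [norm_mul, Real.norm_of_nonneg (Real.exp_pos _).le, Real.norm_eq_abs, one_mul]
    have h2 := kn_one_add_le ‖x‖ 0 (norm_nonneg _) le_rfl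
    rw [add_zero, Real.exp_zero, mul_one] at h2
    have h3 := (hf.kn_growth x).trans (mul_le_mul_of_nonneg_left h2 (by positivity))
    calc Real.exp (-W x) * |f x| ≤ Real.exp (-W x) * ((|f 0| + |L|) * Real.exp ‖x‖) :=
          mul_le_mul_of_nonneg_left h3 (Real.exp_pos _).le
      _ = _ := by ring
  have hH : Integrable (fun p : E d × E d => (1 : ℝ) * (Real.exp (-W p.2) * f p.2))
      ((gam d).prod volume) := (integrable_const (1 : ℝ)).mul_prod hG
  have h := kn_shear hH √s
  have hm := kn_mass hc hW √s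
  rw [Real.sq_sqrt hs.le] at hm
  simp only [one_mul, integral_const, probReal_univ, smul_eq_mul] at h
  rw [kn_integral_gib, kn_integral_gib, ← h]
  simp only [exp_neg_Phi hW', hm]
  congr 1
  refine integral_congr_ae (Filter.Eventually.of_forall fun u => ?_)
  simp only
  rw [integral_nu hW' hs u hfc.stronglyMeasurable, smul_eq_mul,
    mul_inv_cancel_left₀ (Z_pos hW' s u).ne']
  rfl

lemma kn_deriv {κ : ℝ} {μ : Measure (E d)} (hμ : PM κ μ) {f : E d → ℝ} (hf : Continuous f) {C : ℝ}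
    (hC : ∀ x, |f x| ≤ C * (1 + ‖x‖)) (v : E d) :
    HasDerivAt (fun h : ℝ => ∫ y, Real.exp (h * ⟪v, y⟫_ℝ) * f y ∂μ) (∫ y, ⟪v, y⟫_ℝ * f y ∂μ) 0 := by
  have hC0 : 0 ≤ C := by simpa using (abs_nonneg _).trans (hC 0)
  have hi : Integrable f μ := hμ.integrable_of_growth hf.aestronglyMeasurable (C := C) (N := 1)
    fun y => by simpa using hC y
  have h := (hasDerivAt_integral_of_dominated_loc_of_deriv_le (μ := μ) (x₀ := (0 : ℝ))
    (F := fun h y => Real.exp (h * ⟪v, y⟫_ℝ) * f y)
    (F' := fun h y => Real.exp (h * ⟪v, y⟫_ℝ) * ⟪v, y⟫_ℝ * f y)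
    (bound := fun y => C * Real.exp ((2 * ‖v‖ + 1) * ‖y‖)) (Metric.ball_mem_nhds 0 one_pos)
    (Filter.Eventually.of_forall fun h => by fun_prop) (by simpa using hi) (by fun_prop)
    (Filter.Eventually.of_forall fun y h hh => ?_) ((hμ.expm _).const_mul C)
    (Filter.Eventually.of_forall fun y h _ => ?_)).2
  · simpa using h
  · have h1 : |⟪v, y⟫_ℝ| ≤ ‖v‖ * ‖y‖ := abs_real_inner_le_norm _ _
    have hh' : |h| ≤ 1 := by simpa using (mem_ball_zero_iff.1 hh).le
    have h2 : h * ⟪v, y⟫_ℝ ≤ ‖v‖ * ‖y‖ := by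
      refine (le_abs_self _).trans ?_
      rw [abs_mul]
      exact (mul_le_of_le_one_left (abs_nonneg _) hh').trans h1
    have h3 : |⟪v, y⟫_ℝ| ≤ Real.exp (‖v‖ * ‖y‖) := by
      linarith [Real.add_one_le_exp (‖v‖ * ‖y‖)]
    have h4 : |f y| ≤ C * Real.exp ‖y‖ :=
      (hC y).trans (mul_le_mul_of_nonneg_left (by linarith [Real.add_one_le_exp ‖y‖]) hC0)
    rw [norm_mul, norm_mul, Real.norm_of_nonneg (Real.exp_pos _).le, Real.norm_eq_abs,
      Real.norm_eq_abs]
    calc Real.exp (h * ⟪v, y⟫_ℝ) * |⟪v, y⟫_ℝ| * |f y|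
        ≤ Real.exp (‖v‖ * ‖y‖) * Real.exp (‖v‖ * ‖y‖) * (C * Real.exp ‖y‖) := by gcongr
      _ = _ := by
        rw [show (2 * ‖v‖ + 1) * ‖y‖ = ‖v‖ * ‖y‖ + ‖v‖ * ‖y‖ + ‖y‖ by ring, Real.exp_add,
          Real.exp_add]
        ring
  · simpa using (((hasDerivAt_id h).mul_const ⟪v, y⟫_ℝ).exp).mul_const (f y)

lemma kn_cov {κ : ℝ} (hκ : 0 ≤ κ) {μ : Measure (E d)} (hμ : PM κ μ) {f g : E d → ℝ} {L K : ℝ}
    (hL : 0 ≤ L) (hf : Lip L f) (hK : 0 ≤ K) (hg : Lip K g) :
    |∫ y, g y * f y ∂μ - (∫ y, f y ∂μ) * ∫ y, g y ∂μ| ≤ κ * L * K := by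
  have := hμ.prob
  have int1 : ∀ {a : E d → ℝ} {A : ℝ}, Lip A a → Integrable a μ := fun ha =>
    hμ.integrable_of_growth ha.continuous.aestronglyMeasurable (N := 1)
      fun y => by simpa using ha.kn_growth y
  have int2 : ∀ {a b : E d → ℝ} {A B : ℝ}, Lip A a → Lip B b →
      Integrable (fun y => a y * b y) μ := fun {a b A B} ha hb =>
    hμ.integrable_of_growth (ha.continuous.mul hb.continuous).aestronglyMeasurable (N := 2)
      (C := (|a 0| + |A|) * (|b 0| + |B|)) fun y => by
        rw [norm_mul, Real.norm_eq_abs, Real.norm_eq_abs]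
        calc |a y| * |b y| ≤ (|a 0| + |A|) * (1 + ‖y‖) * ((|b 0| + |B|) * (1 + ‖y‖)) :=
              mul_le_mul (ha.kn_growth y) (hb.kn_growth y) (abs_nonneg _) (by positivity)
          _ = _ := by ring
  set m := ∫ y, f y ∂μ with hm
  set n := ∫ y, g y ∂μ with hn
  have hf' : Lip (L + 0) fun y => f y - m := hf.sub (lip_const m)
  have hg' : Lip (K + 0) fun y => g y - n := hg.sub (lip_const n)
  have hcov : ∫ y, (g y - n) * (f y - m) ∂μ = ∫ y, g y * f y ∂μ - m * n := by
    have e : ∀ y, (g y - n) * (f y - m) = g y * f y - (m * g y + (n * f y - m * n)) := fun y => by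
      ring
    have i1 : Integrable (fun y => n * f y - m * n) μ :=
      ((int1 hf).const_mul n).sub (integrable_const _)
    have i2 : Integrable (fun y => m * g y + (n * f y - m * n)) μ := ((int1 hg).const_mul m).add i1
    simp_rw [e]
    rw [integral_sub (int2 hg hf) i2, integral_add ((int1 hg).const_mul m) i1,
      integral_sub ((int1 hf).const_mul n) (integrable_const _), integral_const_mul,
      integral_const_mul, integral_const, probReal_univ, ← hm, ← hn]
    simp only [smul_eq_mul]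
    ring
  rw [← hcov]
  have hA := hμ.var_lip hκ hL hf
  have hB := hμ.var_lip hκ hK hg
  rw [← hm] at hA
  rw [← hn] at hB
  have hd := discrim_le_zero (a := ∫ y, (f y - m) ^ 2 ∂μ) (b := 2 * ∫ y, (g y - n) * (f y - m) ∂μ)
    (c := ∫ y, (g y - n) ^ 2 ∂μ) fun t => by
      have j1 : Integrable (fun y => (f y - m) ^ 2 * (t * t)) μ := by
        simpa only [sq] using (int2 hf' hf').mul_const (t * t)
      have j2 : Integrable (fun y => 2 * ((g y - n) * (f y - m)) * t) μ :=
        ((int2 hg' hf').const_mul 2).mul_const t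
      have j3 : Integrable (fun y => (g y - n) ^ 2) μ := by simpa only [sq] using int2 hg' hg'
      have j4 : Integrable (fun y => (f y - m) ^ 2 * (t * t) + 2 * ((g y - n) * (f y - m)) * t) μ :=
        j1.add j2
      rw [← integral_mul_const, ← integral_const_mul, ← integral_mul_const, ← integral_add j1 j2,
        ← integral_add j4 j3]
      refine integral_nonneg fun y => ?_
      have : (f y - m) ^ 2 * (t * t) + 2 * ((g y - n) * (f y - m)) * t + (g y - n) ^ 2 =
          ((f y - m) * t + (g y - n)) ^ 2 := by ring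
      simp only [Pi.zero_apply, this]
      positivity
  rw [discrim] at hd
  have hA0 : 0 ≤ ∫ y, (f y - m) ^ 2 ∂μ := integral_nonneg fun y => sq_nonneg _
  have hB0 : 0 ≤ ∫ y, (g y - n) ^ 2 ∂μ := integral_nonneg fun y => sq_nonneg _
  refine abs_le_of_sq_le_sq' ?_ (by positivity) |> abs_le.2
  have h5 := mul_le_mul hA hB hB0 (by positivity)
  nlinarith

/-- Contraction.  By `nu_tilt`, `g t = ∫ f dν(u' + t w) = N t / M t` with
`N t = ∫ f e^{t ⟪w, y⟫/s} dν(u')` (`ExpFam.lean` with `P = ℝ`), and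
`g' t = Cov(f, ⟪w, ·⟫)/s` under `ν(u' + t w)`; Cauchy–Schwarz and `PM.var_lip` with the constant
`c s / (c + s)` (`SC.sc_nu`, `pm_gib`). -/
theorem nu_lip {c : ℝ} (hc : 0 < c) (hW : SC c W) {s : ℝ} (hs : 0 < s) {f : E d → ℝ} {L : ℝ}
    (hL : 0 ≤ L) (hf : Lip L f) : Lip (L * (c / (c + s))) fun u => ∫ b, f b ∂nu W s u := by
  intro u u'
  have hW' := hW.cvx hc
  set w := u - u' with hw
  set v : E d := s⁻¹ • w with hv
  have hκ : 0 < c * s / (c + s) := by positivity
  have hpm : ∀ x, PM (c * s / (c + s)) (nu W s x) := fun x => pm_gib hκ (hW.sc_nu hc hs x)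
  have hvl : Lip ‖v‖ fun y : E d => ⟪v, y⟫_ℝ := fun y z => by
    rw [← inner_sub_right]; exact norm_inner_le_norm _ _
  have hder : ∀ t : ℝ, HasDerivAt (fun t : ℝ => ∫ b, f b ∂nu W s (u' + t • w))
      (∫ y, ⟪v, y⟫_ℝ * f y ∂nu W s (u' + t • w) -
        (∫ y, f y ∂nu W s (u' + t • w)) * ∫ y, ⟪v, y⟫_ℝ ∂nu W s (u' + t • w)) t := fun t => by
    set μ := nu W s (u' + t • w) with hμ
    have := (hpm (u' + t • w)).prob
    have h1 := kn_deriv (hpm (u' + t • w)) hf.continuous hf.kn_growth v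
    have h2 := kn_deriv (hpm (u' + t • w)) (f := fun _ => 1) continuous_const (C := 1)
      (fun x => by simp) v
    have h3 := h1.div h2 (by simp)
    simp only [mul_one, zero_mul, Real.exp_zero, one_mul, integral_const, probReal_univ,
      smul_eq_mul, one_pow, div_one, ← hμ] at h3
    have h4 := HasDerivAt.comp_sub_const t t (by rw [sub_self]; exact h3)
    refine h4.congr_of_eventuallyEq (Filter.Eventually.of_forall fun τ => ?_)
    have e : u' + τ • w = u' + t • w + (τ - t) • w := by module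
    simp only [Pi.div_apply]
    rw [e, nu_tilt hW' hs, integral_tilted, ← hμ, ← integral_div]
    have e2 : ∀ y : E d, ⟪s⁻¹ • (τ - t) • w, y⟫_ℝ = (τ - t) * ⟪v, y⟫_ℝ := fun y => by
      rw [hv, smul_comm, real_inner_smul_left]
    simp only [e2, smul_eq_mul, div_mul_eq_mul_div]
  have h := norm_image_sub_le_of_norm_deriv_le_segment_01'
    (fun t _ => (hder t).hasDerivWithinAt)
    (fun t _ => kn_cov hκ.le (hpm (u' + t • w)) hL hf (norm_nonneg v) hvl)
  simp only [one_smul, zero_smul, add_zero, hw, add_sub_cancel] at h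
  refine h.trans (le_of_eq ?_)
  rw [hv, norm_smul, norm_inv, Real.norm_of_nonneg hs.le]
  field_simp

/-- The bridge identity.  By `integral_nu`, with `b' = u + √(2s) η`, the right side is
`∫∫ e^{-W(u + √(2s) η)} f(u + √s (η + G)/√2) / Z W (2s) u`; rotate by 45° (`gam_rot`), integrate out
the second variable, and use `Phi_Phi`, `exp_neg_Phi`. -/
theorem integral_bridge (hW : ConvexOn ℝ univ W) {s : ℝ} (hs : 0 < s) (u : E d) {f : E d → ℝ}
    {L : ℝ} (hf : Lip L f) :
    ∫ b, f b ∂nu (Phi W s) s u =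
      ∫ b', ∫ G, f ((1 / 2 : ℝ) • (u + b') + √(s / 2) • G) ∂gam d ∂nu W (2 * s) u := by
  have hc := cvx_continuous hW
  have hfc := hf.continuous
  obtain ⟨C, hC0, hC⟩ := cvx_lower hW
  have hZ : Z (Phi W s) s u = Z W (2 * s) u := by
    rw [← exp_neg_Phi (Phi_cvx hW s), Phi_Phi hW hs.le hs.le, exp_neg_Phi hW, two_mul]
  let K : E d × E d → ℝ := fun p => Real.exp (-W (u + √s • p.1 + √s • p.2)) * f (u + √s • p.1)
  have hK : Integrable K ((gam d).prod (gam d)) := by
    refine (((integrable_exp_norm_gam (C * √s + √s)).const_mul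
      (Real.exp (C * (1 + ‖u‖)) * ((|f 0| + |L|) * Real.exp ‖u‖))).mul_prod
      (integrable_exp_norm_gam (C * √s))).mono' (by fun_prop)
      (Filter.Eventually.of_forall fun p => ?_)
    have h0 : ‖u + √s • p.1‖ ≤ ‖u‖ + √s * ‖p.1‖ := by
      refine (norm_add_le _ _).trans ?_
      rw [norm_smul, Real.norm_of_nonneg (Real.sqrt_nonneg s)]
    have h1 := h1_bound hC0 hC (r := √s) (ρ := √s) (abs_of_nonneg (Real.sqrt_nonneg s)).le h0 p.2
    have h2 := kn_one_add_le ‖u‖ (√s * ‖p.1‖) (norm_nonneg _) (by positivity)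
    have h3 : |f (u + √s • p.1)| ≤ (|f 0| + |L|) * (Real.exp ‖u‖ * Real.exp (√s * ‖p.1‖)) :=
      (hf.kn_growth _).trans (mul_le_mul_of_nonneg_left (by linarith) (by positivity))
    simp only [K]
    rw [norm_mul, Real.norm_eq_abs (f _)]
    refine (mul_le_mul h1 h3 (abs_nonneg _) (by positivity)).trans (le_of_eq ?_)
    rw [show C * (1 + (‖u‖ + √s * ‖p.1‖)) = C * (1 + ‖u‖) + C * √s * ‖p.1‖ by ring,
      show (C * √s + √s) * ‖p.1‖ = C * √s * ‖p.1‖ + √s * ‖p.1‖ by ring, Real.exp_add,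
      Real.exp_add]
    ring
  set a : ℝ := √(1 / 2) with ha
  have ha2 : a ^ 2 + a ^ 2 = 1 := by rw [ha, Real.sq_sqrt (by norm_num)]; norm_num
  have hσ : √s * a = √(s / 2) := by rw [ha, ← Real.sqrt_mul hs.le, mul_one_div]
  have h2s : √(2 * s) = 2 * √(s / 2) := by
    rw [show 2 * s = 2 ^ 2 * (s / 2) by ring, Real.sqrt_mul (by norm_num),
      Real.sqrt_sq (by norm_num)]
  have hT : MeasurePreserving (fun p : E d × E d => (a • p.1 + a • p.2, -a • p.1 + a • p.2))
      ((gam d).prod (gam d)) ((gam d).prod (gam d)) := ⟨by fun_prop, gam_rot ha2⟩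
  have h1 := integral_prod_symm _ (hT.integrable_comp_of_integrable hK)
  have h2 := integral_map (μ := (gam d).prod (gam d)) hT.measurable.aemeasurable (f := K)
    (by rw [hT.map_eq]; exact hK.1)
  rw [hT.map_eq, integral_prod _ hK] at h2
  rw [integral_nu (Phi_cvx hW s) hs u hfc.stronglyMeasurable, integral_nu hW (by positivity) u
    (StronglyMeasurable.integral_prod_right (Continuous.stronglyMeasurable (by fun_prop))), hZ]
  congr 1
  simp only [exp_neg_Phi hW, smul_eq_mul, Z, ← integral_mul_const, ← integral_const_mul]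
  refine h2.trans (h1.trans ?_)
  refine integral_congr_ae (Filter.Eventually.of_forall fun η => ?_)
  refine integral_congr_ae (Filter.Eventually.of_forall fun G => ?_)
  simp only [Function.comp_apply, K, h2s, ← hσ]
  have e1 : u + √s • (a • G + a • η) + √s • (-a • G + a • η) = u + (2 * (√s * a)) • η := by module
  have e2 : u + √s • (a • G + a • η) =
      (1 / 2 : ℝ) • (u + (u + (2 * (√s * a)) • η)) + (√s * a) • G := by module
  rw [e1, e2]

/-- `Kd` in normalized coordinates (`nu_eq_map`, `Phi_resc`). -/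
theorem Kd_eq_map (hV : ConvexOn ℝ univ V) {v t : ℝ} (hv : 0 < v) (ht : 0 < t) (u : E d) :
    Kd V v t u = (kd (resc V u v) t).map fun η => u + (√v * t) • η := by
  rw [Kd, nu_eq_map (Phi_cvx hV _) (by positivity), Real.sqrt_mul hv.le, Real.sqrt_sq ht.le, kd]
  simp only [Phi_resc V u hv.le, smul_smul]

lemma kn_int_norm (hV : Admissible d V) : Integrable (fun x : E d => ‖x‖) (gib V) :=
  (pm_gib one_pos (adm_sc hV)).integrable_of_growth (by fun_prop) (C := 1) (N := 1)
    fun y => by simp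

theorem integral_norm_smooth_le (hV : Admissible d V) {s : ℝ} (hs : 0 ≤ s) (hs' : s ≤ 1) :
    ∫ x, ‖x‖ ∂gib (Phi V s) ≤ 3 * √d := by
  have := (adm_sc hV).prob one_pos
  have h := integral_gib_noise one_pos (adm_sc hV) √s (f := fun x => ‖x‖) (by fun_prop) (C := 1)
    fun x => by simp
  rw [Real.sq_sqrt hs] at h
  rw [← h]
  have hs1 : √s ≤ 1 := Real.sqrt_le_one.2 hs'
  have hi : Integrable (fun ξ : E d => ‖ξ‖) (gam d) := by
    simpa using (lip_norm (X := E d)).integrable_gam 0 1
  have h1 : ∀ x : E d, ∫ ξ, ‖x + √s • ξ‖ ∂gam d ≤ ‖x‖ + √d := fun x => by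
    have h2 : ∫ ξ, ‖x + √s • ξ‖ ∂gam d ≤ ∫ ξ, (‖x‖ + ‖ξ‖) ∂gam d := by
      refine integral_mono ((lip_norm (X := E d)).integrable_gam x √s)
        ((integrable_const _).add hi) fun ξ => (norm_add_le _ _).trans ?_
      rw [norm_smul, Real.norm_of_nonneg (Real.sqrt_nonneg s)]
      exact add_le_add le_rfl (mul_le_of_le_one_left (norm_nonneg _) hs1)
    rw [integral_add (integrable_const _) hi, integral_const, probReal_univ, one_smul] at h2
    linarith [integral_norm_gam_le (d := d)]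
  have h3 := integral_mono_of_nonneg (μ := gib V)
    (Filter.Eventually.of_forall fun x => integral_nonneg fun ξ => norm_nonneg (x + √s • ξ))
    ((kn_int_norm hV).add (integrable_const √d)) (Filter.Eventually.of_forall h1)
  simp only [Pi.add_apply] at h3
  rw [integral_add (kn_int_norm hV) (integrable_const _), integral_const, probReal_univ,
    one_smul] at h3
  linarith [integral_norm_gib_le hV]

/-- `integral_gib_noise` for the indicator of `B`, Fubini, and `shift_tv` for each `w = √s ξ`: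
`∫ |⟪∇V x, w⟫| ≤ 2 ‖w‖ ∫ ‖x‖ ≤ 4 √d ‖w‖`. -/
theorem tv_smooth (hV : Admissible d V) {s : ℝ} (hs : 0 ≤ s) {B : Set (E d)}
    (hB : MeasurableSet B) : |(gib (Phi V s)).real B - (gib V).real B| ≤ 4 * √s * d := by
  have := (adm_sc hV).prob one_pos
  have h := integral_gib_noise one_pos (adm_sc hV) √s (f := B.indicator 1)
    (measurable_const.indicator hB) (C := 1) fun x => by
      have : |B.indicator (1 : E d → ℝ) x| ≤ 1 := by by_cases hx : x ∈ B <;> simp [hx]
      linarith [norm_nonneg x]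
  rw [Real.sq_sqrt hs, integral_indicator_one hB] at h
  have hI : Integrable (Function.uncurry fun x ξ : E d => B.indicator (1 : E d → ℝ) (x + √s • ξ))
      ((gib V).prod (gam d)) := by
    refine Integrable.of_bound (Measurable.aestronglyMeasurable
      ((measurable_const.indicator hB).comp (by fun_prop))) 1
      (Filter.Eventually.of_forall fun p => ?_)
    by_cases hx : p.1 + √s • p.2 ∈ B <;> simp [Function.uncurry, hx]
  rw [integral_integral_swap hI] at h
  have hint := hI.integral_prod_right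
  have e : ∀ ξ : E d, ∫ x, B.indicator (1 : E d → ℝ) (x + √s • ξ) ∂gib V =
      (gib V).real {x | x + √s • ξ ∈ B} := fun ξ =>
    integral_indicator_one (μ := gib V) (hB.preimage (f := fun x => x + √s • ξ) (by fun_prop))
  simp only [Function.uncurry, e] at h hint
  have hg : Continuous (gradient V) := (adm_nice hV).lip.continuous
  have hb : ∀ w x : E d, |⟪gradient V x, w⟫_ℝ| ≤ 2 * ‖w‖ * ‖x‖ := fun w x => by
    refine (abs_real_inner_le_norm _ _).trans ?_
    nlinarith [adm_grad_le hV x, norm_nonneg w]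
  have h1 : ∀ w : E d, |(gib V).real {x | x + w ∈ B} - (gib V).real B| ≤ 4 * √d * ‖w‖ := fun w => by
    have hw : Integrable (fun x => ⟪gradient V x, w⟫_ℝ) (gib V) :=
      ((kn_int_norm hV).const_mul (2 * ‖w‖)).mono' (by fun_prop)
        (Filter.Eventually.of_forall (hb w))
    refine (shift_tv ((adm_nice hV).smooth.of_le (by norm_num)) ((adm_sc hV).h1_int one_pos) w hw
      hB).trans ?_
    refine (integral_mono hw.abs ((kn_int_norm hV).const_mul (2 * ‖w‖)) (hb w)).trans ?_
    rw [integral_const_mul]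
    nlinarith [integral_norm_gib_le hV, norm_nonneg w]
  have hi : Integrable (fun ξ : E d => ‖ξ‖) (gam d) := by
    simpa using (lip_norm (X := E d)).integrable_gam 0 1
  have h2 : (gib (Phi V s)).real B - (gib V).real B =
      ∫ ξ, ((gib V).real {x | x + √s • ξ ∈ B} - (gib V).real B) ∂gam d := by
    rw [integral_sub hint (integrable_const _), h, integral_const, probReal_univ, one_smul]
  rw [h2, ← Real.norm_eq_abs]
  refine (norm_integral_le_of_norm_le (hi.const_mul (4 * √d * √s))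
    (Filter.Eventually.of_forall fun ξ => ?_)).trans ?_
  · refine (h1 _).trans (le_of_eq ?_)
    rw [norm_smul, Real.norm_of_nonneg (Real.sqrt_nonneg s)]
    ring
  · rw [integral_const_mul]
    calc 4 * √d * √s * ∫ ξ, ‖ξ‖ ∂gam d ≤ 4 * √d * √s * √d :=
          mul_le_mul_of_nonneg_left integral_norm_gam_le (by positivity)
      _ = 4 * √s * (√d * √d) := by ring
      _ = _ := by rw [Real.mul_self_sqrt (Nat.cast_nonneg d)]

end Crest.Agent.R285
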