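import Crest.Agent.R285.Acc
import Crest.Agent.R285.Kern

/-! Row 285: the outer Markov chain. Write `π s V = gib (Phi V s)`. -/

set_option autoImplicit false

namespace Crest.Agent.R285

open MeasureTheory ProbabilityTheory Crest.OracleSampling Set
open scoped ENNReal NNReal InnerProductSpace

variable {d : ℕ}

/-- `App.bind` (`App.pre` with `Prod.snd`), `nu_lip` with `c = 1 + v (1 - t²)` (`Phi_sc`,
`adm_sc`), `s = v t²`, `c/(c+s) ≤ 1 - v t²/2`; `integral_gib_nu`, `Phi_Phi`,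
`integral_norm_smooth_le`. -/
theorem Near.down {N v t q e Aq δ : ℝ} (hd : (d : ℝ) ≤ N) (hv : 0 < v) (hv' : v ≤ 1) (ht : 0 < t)
    (ht' : t ≤ 1) (hδ : 0 ≤ δ) (h : Near q e fun V : Pot d => gib (Phi V.1 v))
    (hK : App (A := E d) Aq (fun _ u => δ * (√N + ‖u‖)) fun V u f => ∫ b, f b ∂Kd V.1 v t u) :
    Near (q + Aq) ((1 - v * t ^ 2 / 2 + δ) * e + 4 * δ * √N)
      fun V : Pot d => gib (Phi V.1 (v * (1 - t ^ 2))) := by
  have ht2 : t ^ 2 ≤ 1 := pow_le_one₀ ht.le ht'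
  have h1 : 0 ≤ v * (1 - t ^ 2) := mul_nonneg hv.le (sub_nonneg.2 ht2)
  have h2 : 0 < v * t ^ 2 := by positivity
  have h3 : v * t ^ 2 ≤ 1 := mul_le_one₀ hv' (by positivity) ht2
  have hc : 0 < 1 + v * (1 - t ^ 2) := by positivity
  have hsc : ∀ V : Pot d, SC (1 + v * (1 - t ^ 2)) (Phi V.1 (v * (1 - t ^ 2))) := fun V =>
    Phi_sc one_pos (adm_sc V.2) h1
  have h4 := App.bind (Λ := 1 - v * t ^ 2 / 2) (β := δ) (α := fun _ _ => δ * √N) h
    (hK.pre (A' := Unit × E d) measurable_snd) (by linarith) hδ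
    (fun V a L f hL hf => (nu_lip hc (hsc V) h2 hL hf).mono
      (mul_le_mul_of_nonneg_left (by
        rw [div_le_iff₀ (by positivity)]
        nlinarith [mul_le_mul_of_nonneg_left hv' h2.le]) hL))
    (fun V a r => le_of_eq (by ring))
  refine (h4.congr fun V a L f hL hf => ?_).mono le_rfl fun V a => ?_
  · have := integral_gib_nu hc (hsc V) h2 hf
    rw [Phi_Phi (adm_cvx V.2) h1 h2.le, show v * (1 - t ^ 2) + v * t ^ 2 = v by ring] at this
    exact this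
  · have h5 := integral_norm_smooth_le V.2 hv.le hv'
    have h6 : √(d : ℝ) ≤ √N := Real.sqrt_le_sqrt hd
    have h7 : δ * ∫ x, ‖x‖ ∂gib (Phi V.1 v) ≤ δ * (3 * √N) :=
      mul_le_mul_of_nonneg_left (by linarith) hδ
    simp only
    nlinarith

/-- `Near.noise`, `integral_gib_noise`, `Phi_Phi`. -/
theorem Near.up {s r q e : ℝ} (hs : 0 ≤ s) (h : Near q e fun V : Pot d => gib (Phi V.1 s)) :
    Near q e fun V : Pot d => gib (Phi V.1 (s + r ^ 2)) := by
  refine h.noise r fun V L f _ hf => ?_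
  rw [integral_gib_noise (by positivity) (Phi_sc one_pos (adm_sc V.2) hs) r
    hf.continuous.measurable hf.kn_growth, Phi_Phi (adm_cvx V.2) hs (sq_nonneg r)]

set_option maxHeartbeats 400000 in
/-- Start from `near_zero` with `e = 3√N` at level `v₀`; `m₁` rounds of `down` then `up` with
`r = √v₀ t` (factor `1 - v₀t²/4 ≤ exp(-v₀t²/8)`), then `m₂` steps `down` (factor `1 + δ`,
`(1+δ)^{m₂} ≤ 3`): error `≤ 12 √N (exp(..) + (m₁+m₂) δ)`.  `Near.toAlg`, `integral_gib_noise` for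
the indicator of `B`, `Phi_Phi`, `tv_smooth` at level `≤ 2 r²`, `target_eq_gib`; `C = 240`. -/
theorem chain : ∃ C : ℝ, 1 ≤ C ∧ ∀ (d m₁ m₂ : ℕ) (N v₀ t Aq δ r : ℝ), (d : ℝ) ≤ N → 1 ≤ N →
    0 < v₀ → v₀ ≤ 1 / 4 → 0 < t → t ≤ 1 / 2 → 0 ≤ δ → 0 < r →
    (∀ v, 0 < v → v ≤ v₀ →
      App (A := E d) Aq (fun _ u => δ * (√N + ‖u‖)) fun V u f => ∫ b, f b ∂Kd V.1 v t u) →
    8 * δ ≤ v₀ * t ^ 2 → m₂ * δ ≤ 1 → v₀ * (1 - t ^ 2) ^ m₂ ≤ r ^ 2 → C * r * N ≤ 1 →
    C * √N * (Real.exp (-(v₀ * t ^ 2 * m₁ / 8)) + (m₁ + m₂) * δ) ≤ r →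
    ∃ (q : ℕ) (A : QueryAlg d q), (q : ℝ) ≤ (m₁ + m₂) * Aq ∧
      ∀ V : E d → ℝ, Admissible d V → Succeeds A V := by
  refine ⟨240, by norm_num, fun d m₁ m₂ N v₀ t Aq δ r hd hN hv hv' ht ht' hδ hr hK h8 hm hf hr1 hr2
    => ?_⟩
  have hs : √(d : ℝ) ≤ √N := Real.sqrt_le_sqrt hd
  have hN0 : 0 ≤ √N := Real.sqrt_nonneg N
  have ht2 : t ^ 2 ≤ 1 / 4 := by nlinarith
  have ht3 : 0 < 1 - t ^ 2 := by linarith
  have ha : 0 < v₀ * t ^ 2 := by positivity
  have ha1 : v₀ * t ^ 2 ≤ 1 := by nlinarith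
  -- phase one
  have p1 : ∀ m : ℕ, Near (m * Aq) (3 * √N * Real.exp (-(v₀ * t ^ 2 * m / 8)) + 4 * m * δ * √N)
      fun V : Pot d => gib (Phi V.1 v₀) := by
    intro m
    induction m with
    | zero =>
      have hsc : ∀ V : Pot d, SC (1 + v₀) (Phi V.1 v₀) := fun V =>
        Phi_sc one_pos (adm_sc V.2) hv.le
      have := near_zero (μ := fun V : Pot d => gib (Phi V.1 v₀)) (e := 3 * √N)
        (fun V => (hsc V).prob (by positivity))
        (fun V => ((hsc V).expm (by positivity) 1).mono' continuous_id.aestronglyMeasurable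
          (Filter.Eventually.of_forall fun x => by
            have := Real.add_one_le_exp (1 * ‖x‖)
            linarith))
        (fun V => (integral_norm_smooth_le V.2 hv.le (by linarith)).trans (by linarith))
      simpa using this
    | succ m ih =>
      have h1 := (ih.down hd hv (by linarith) ht (by linarith) hδ (hK v₀ hv le_rfl)).up
        (r := √v₀ * t) (mul_nonneg hv.le ht3.le)
      rw [mul_pow, Real.sq_sqrt hv.le, show v₀ * (1 - t ^ 2) + v₀ * t ^ 2 = v₀ by ring] at h1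
      refine App.mono h1 (le_of_eq (by push_cast; ring)) fun _ _ => ?_
      have h2 : 1 - v₀ * t ^ 2 / 2 + δ ≤ Real.exp (-(v₀ * t ^ 2 / 8)) := by
        have := Real.add_one_le_exp (-(v₀ * t ^ 2 / 8))
        linarith
      have h3 : Real.exp (-(v₀ * t ^ 2 * ((m + 1 : ℕ) : ℝ) / 8)) =
          Real.exp (-(v₀ * t ^ 2 / 8)) * Real.exp (-(v₀ * t ^ 2 * m / 8)) := by
        rw [← Real.exp_add]; congr 1; push_cast; ring
      have h4 := mul_le_mul_of_nonneg_right h2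
        (show 0 ≤ 3 * √N * Real.exp (-(v₀ * t ^ 2 * m / 8)) by positivity)
      have h5 := mul_le_mul_of_nonneg_right (show 1 - v₀ * t ^ 2 / 2 + δ ≤ 1 by linarith)
        (show 0 ≤ 4 * m * δ * √N by positivity)
      rw [h3]
      push_cast
      linarith
  -- phase two
  set e₁ := 3 * √N * Real.exp (-(v₀ * t ^ 2 * m₁ / 8)) + 4 * m₁ * δ * √N with he₁
  have he0 : 0 ≤ e₁ := by positivity
  have p2 : ∀ j : ℕ, Near ((m₁ + j) * Aq) ((1 + δ) ^ j * (e₁ + 4 * j * δ * √N))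
      fun V : Pot d => gib (Phi V.1 (v₀ * (1 - t ^ 2) ^ j)) := by
    intro j
    induction j with
    | zero => simpa using p1 m₁
    | succ j ih =>
      have h0 : 0 < v₀ * (1 - t ^ 2) ^ j := by positivity
      have h1 : v₀ * (1 - t ^ 2) ^ j ≤ v₀ :=
        mul_le_of_le_one_right hv.le (pow_le_one₀ ht3.le (by nlinarith))
      have h2 := ih.down hd h0 (by linarith) ht (by linarith) hδ (hK _ h0 h1)
      rw [mul_assoc v₀ _ (1 - t ^ 2), ← pow_succ] at h2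
      refine App.mono h2 (le_of_eq (by push_cast; ring)) fun _ _ => ?_
      have h3 : 0 ≤ v₀ * (1 - t ^ 2) ^ j * t ^ 2 := by positivity
      have h4 := mul_le_mul_of_nonneg_right
        (show 1 - v₀ * (1 - t ^ 2) ^ j * t ^ 2 / 2 + δ ≤ 1 + δ by linarith)
        (show 0 ≤ (1 + δ) ^ j * (e₁ + 4 * j * δ * √N) by positivity)
      have h5 : 1 ≤ (1 + δ) ^ (j + 1) := one_le_pow₀ (by linarith)
      have h6 := mul_le_mul_of_nonneg_right h5 (show 0 ≤ 4 * δ * √N by positivity)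
      push_cast
      rw [pow_succ (1 + δ)] at h6 ⊢
      linarith
  obtain ⟨n, A, hn, hA⟩ := (p2 m₂).toAlg hr
  refine ⟨n, A, hn, fun V hV B hB => ?_⟩
  have h1 := hA ⟨V, hV⟩ B hB
  have h0 : 0 ≤ v₀ * (1 - t ^ 2) ^ m₂ := by positivity
  have h2 := integral_gib_noise (by positivity) (Phi_sc one_pos (adm_sc hV) h0) r
    (f := B.indicator fun _ => (1 : ℝ)) (measurable_const.indicator hB) (C := 1) (fun x => by
      have := norm_nonneg x
      by_cases hx : x ∈ B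
      · rw [indicator_of_mem hx, abs_one]; linarith
      · rw [indicator_of_notMem hx, abs_zero]; linarith)
  have h3 : ∀ x : E d, ∫ ξ, B.indicator (fun _ => (1 : ℝ)) (x + r • ξ) ∂gam d =
      (gam d).real {ξ | x + r • ξ ∈ B} := fun x => by
    rw [← integral_indicator_one (s := {ξ | x + r • ξ ∈ B})
      (hB.preimage (f := fun ξ : E d => x + r • ξ) (by fun_prop))]
    rfl
  have h4 : ∫ x, B.indicator (fun _ => (1 : ℝ)) x ∂gib (Phi V (v₀ * (1 - t ^ 2) ^ m₂ + r ^ 2)) =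
      (gib (Phi V (v₀ * (1 - t ^ 2) ^ m₂ + r ^ 2))).real B := integral_indicator_one hB
  simp only [h3] at h2
  rw [Phi_Phi (adm_cvx hV) h0 (sq_nonneg r), h4] at h2
  simp only at h1
  rw [h2] at h1
  have h5 := tv_smooth hV (add_nonneg h0 (sq_nonneg r)) hB
  have h6 : √(v₀ * (1 - t ^ 2) ^ m₂ + r ^ 2) ≤ 2 * r :=
    Real.sqrt_le_iff.2 ⟨by positivity, by nlinarith⟩
  have h7 : 4 * √(v₀ * (1 - t ^ 2) ^ m₂ + r ^ 2) * d ≤ 4 * (2 * r) * N := by gcongr
  have h8' : (1 + δ) ^ m₂ ≤ 3 := by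
    calc (1 + δ) ^ m₂ ≤ Real.exp δ ^ m₂ :=
          pow_le_pow_left₀ (by positivity) (by linarith [Real.add_one_le_exp δ]) _
      _ = Real.exp (m₂ * δ) := (Real.exp_nat_mul δ m₂).symm
      _ ≤ Real.exp 1 := Real.exp_le_exp.2 hm
      _ ≤ 3 := by linarith [Real.exp_one_lt_d9]
  have h9 : r⁻¹ * ((1 + δ) ^ m₂ * (e₁ + 4 * m₂ * δ * √N)) ≤ 1 / 20 := by
    rw [inv_mul_le_iff₀ hr]
    refine (mul_le_mul_of_nonneg_right h8' (by positivity)).trans ?_
    have : 0 ≤ √N * Real.exp (-(v₀ * t ^ 2 * m₁ / 8)) := by positivity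
    rw [he₁]
    linarith
  rw [target_eq_gib hV]
  have h10 := abs_sub_le (outputLaw A V B).toReal
    ((gib (Phi V (v₀ * (1 - t ^ 2) ^ m₂ + r ^ 2))).real B) ((gib V).real B)
  change _ ≤ _ at h10
  refine h10.trans ?_
  linarith

end Crest.Agent.R285
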