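import Crest.Agent.R285.Adm

/-! Row 285: deterministic query computations. All proofs are by induction on the number of
queries, generalizing the input type. -/

set_option autoImplicit false

namespace Crest.Agent.R285

open MeasureTheory ProbabilityTheory Crest.OracleSampling Set
open scoped ENNReal NNReal InnerProductSpace

variable {d : ℕ} {S S' R R' : Type} [MeasurableSpace S] [MeasurableSpace S'] [MeasurableSpace R]
  [MeasurableSpace R']

theorem comp_of_measurable {φ : S → R} (hφ : Measurable φ) :
    Comp (d := d) 0 fun _ s => φ s := ⟨φ, hφ, fun _ _ => rfl⟩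

theorem Comp.pre {n : ℕ} {Φ : Pot d → S → R} (h : Comp n Φ) {g : S' → S} (hg : Measurable g) :
    Comp n fun V s => Φ V (g s) := by
  induction n generalizing S S' with
  | zero =>
    obtain ⟨φ, hφ, h⟩ := h
    exact ⟨fun s => φ (g s), hφ.comp hg, fun V s => h V _⟩
  | succ n ih =>
    obtain ⟨x, hx, Ψ, hΨ, h⟩ := h
    exact ⟨fun s => x (g s), hx.comp hg, fun V p => Ψ V (g p.1, p.2),
      ih hΨ (g := fun p : S' × Answer d => (g p.1, p.2)) (by fun_prop), fun V s => h V _⟩

theorem Comp.mono {n m : ℕ} {Φ : Pot d → S → R} (h : Comp n Φ) (hnm : n ≤ m) : Comp m Φ := by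
  induction hnm with
  | refl => exact h
  | step _ ih =>
    exact ⟨fun _ => 0, measurable_const, fun V p => Φ V p.1, ih.pre measurable_fst, fun _ _ => rfl⟩

theorem Comp.seq {n m : ℕ} {Φ : Pot d → S → R} {Ψ : Pot d → S × R → R'} (h : Comp n Φ)
    (h' : Comp m Ψ) : Comp (n + m) fun V s => Ψ V (s, Φ V s) := by
  induction n generalizing S with
  | zero =>
    obtain ⟨φ, hφ, h⟩ := h
    have := h'.pre (g := fun s => (s, φ s)) (by fun_prop)
    simp only [h, zero_add]
    exact this
  | succ n ih =>
    obtain ⟨x, hx, Ψ₁, hΨ₁, h⟩ := h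
    rw [Nat.add_right_comm]
    exact ⟨x, hx, fun V p => Ψ V (p.1, Ψ₁ V p),
      ih hΨ₁ (h'.pre (g := fun q : (S × Answer d) × R => (q.1.1, q.2)) (by fun_prop)),
      fun V s => congrArg (fun r => Ψ V (s, r)) (h V s)⟩

theorem Comp.post {n : ℕ} {Φ : Pot d → S → R} (h : Comp n Φ) {g : S × R → R'}
    (hg : Measurable g) : Comp n fun V s => g (s, Φ V s) :=
  h.seq (comp_of_measurable hg)

theorem comp_grad {x : S → E d} (hx : Measurable x) :
    Comp (d := d) 1 fun V s => gradient V.1 (x s) := by
  exact ⟨x, hx, fun _ p => p.2.2, comp_of_measurable (by fun_prop), fun _ _ => rfl⟩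

theorem Comp.measurable {n : ℕ} {Φ : Pot d → S → R} (h : Comp n Φ) (V : Pot d) :
    Measurable (Φ V) := by
  induction n generalizing S with
  | zero =>
    obtain ⟨φ, hφ, h⟩ := h
    rwa [show Φ V = φ from funext (h V)]
  | succ n ih =>
    obtain ⟨x, hx, Ψ, hΨ, h⟩ := h
    rw [show Φ V = fun s => Ψ V (s, oracle V.1 (x s)) from funext (h V)]
    exact (ih hΨ).comp (measurable_id.prodMk ((measurable_oracle V.2).comp hx))

/-- The transcript of a query strategy. -/
noncomputable def trS {S : Type} (query : (i : ℕ) → S → (Fin i → Answer d) → E d) (V : E d → ℝ)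
    (s : S) : (i : ℕ) → Fin i → Answer d
  | 0 => Fin.elim0
  | i + 1 => Fin.snoc (trS query V s i) (oracle V (query i s (trS query V s i)))

/-- The strategy that first asks `x s`. -/
def consQ {S : Type} (x : S → E d) (query : (i : ℕ) → S × Answer d → (Fin i → Answer d) → E d) :
    (i : ℕ) → S → (Fin i → Answer d) → E d
  | 0 => fun s _ => x s
  | i + 1 => fun s t => query i (s, t 0) (Fin.tail t)

theorem trS_consQ {S : Type} (x : S → E d)
    (query : (i : ℕ) → S × Answer d → (Fin i → Answer d) → E d) (V : E d → ℝ) (s : S) (i : ℕ) :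
    trS (consQ x query) V s (i + 1) =
      Fin.cons (oracle V (x s)) (trS query V (s, oracle V (x s)) i) := by
  induction i with
  | zero =>
    funext j
    fin_cases j
    rfl
  | succ i ih =>
    rw [trS, ih, trS, Fin.cons_snoc_eq_snoc_cons]
    rfl

theorem Comp.strategy {n : ℕ} {Φ : Pot d → S → R} (h : Comp n Φ) :
    ∃ (query : (i : ℕ) → S → (Fin i → Answer d) → E d) (out : S → (Fin n → Answer d) → R),
      (∀ i, Measurable (Function.uncurry (query i))) ∧ Measurable (Function.uncurry out) ∧
        ∀ V s, Φ V s = out s (trS query V.1 s n) := by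
  induction n generalizing S with
  | zero =>
    obtain ⟨φ, hφ, h⟩ := h
    exact ⟨fun _ _ _ => 0, fun s _ => φ s, fun _ => measurable_const, hφ.comp measurable_fst, h⟩
  | succ n ih =>
    obtain ⟨x, hx, Ψ, hΨ, h⟩ := h
    obtain ⟨query, out, hq, ho, he⟩ := ih hΨ
    have hm : ∀ i, Measurable fun p : S × (Fin (i + 1) → Answer d) =>
        ((p.1, p.2 0), Fin.tail p.2) := fun i =>
      (measurable_fst.prodMk ((measurable_pi_apply 0).comp measurable_snd)).prodMk
        (measurable_pi_lambda _ fun j => (measurable_pi_apply j.succ).comp measurable_snd)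
    refine ⟨consQ x query, fun s t => out (s, t 0) (Fin.tail t), fun i => ?_, ho.comp (hm n),
      fun V s => ?_⟩
    · cases i with
      | zero => exact hx.comp measurable_fst
      | succ i => exact (hq i).comp (hm i)
    · rw [h, he, trS_consQ]
      rfl

/-- Induction on `n` generalizing `S`: produce `query i s t`, `output s t`, jointly measurable,
with `Φ V s = output s (tr V s n)` for the `Fin.snoc` transcript `tr`.  In the step,
`query' 0 s _ = x s`, `query' (i+1) s t = query i (s, t 0) (Fin.tail t)`, and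
`tr' (i+1) = Fin.cons a (tr (s, a) i)` (`Fin.cons_snoc_eq_snoc_cons`). -/
theorem Comp.toAlg {n : ℕ} {Φ : Pot d → S → E d} (h : Comp n Φ) (μ : Measure S)
    [IsProbabilityMeasure μ] :
    ∃ A : QueryAlg d n, ∀ V : Pot d, outputLaw A V.1 = μ.map (Φ V) := by
  obtain ⟨query, out, hq, ho, he⟩ := h.strategy
  refine ⟨⟨S, inferInstance, μ, inferInstance, query, out, hq, ho⟩, fun V => ?_⟩
  have key : ∀ s i, transcript ⟨S, inferInstance, μ, inferInstance, query, out, hq, ho⟩ V.1 s i =
      trS query V.1 s i := by
    intro s i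
    induction i with
    | zero => rfl
    | succ i ih => rw [transcript, trS, ih]
  unfold outputLaw
  congr 1
  funext s
  rw [run, key, he]

end Crest.Agent.R285
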