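import Crest.Agent.R285.ExpFam
import Crest.Agent.R285.Poinc
import Crest.Agent.R285.OpB

/-! Row 285: dimension-free bounds on all flattenings of joint cumulant tensors under a Poincaré
inequality.

Notation: `M α = ∫ e^{⟪α,y⟫} dμ`, `tm μ φ α = ∫ φ e^{⟪α,y⟫} dμ / M α`, `K φ m = ∂^m (tm μ φ)(0)`,
Appell polynomials `A m y = ∂^m (e^{⟪α,y⟫}/M α)(0)` and
`B φ m y = ∂^m ((φ y - tm μ φ α) e^{⟪α,y⟫}/M α)(0)`. -/

set_option autoImplicit false

namespace Crest.Agent.R285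

open MeasureTheory ProbabilityTheory Crest.OracleSampling Set
open scoped ENNReal NNReal InnerProductSpace

noncomputable section

variable {d : ℕ}

def mgfE (μ : Measure (E d)) (α : E d) : ℝ := ∫ y, Real.exp ⟪α, y⟫_ℝ ∂μ

/-- Tilted mean. -/
def tm (μ : Measure (E d)) (φ : E d → ℝ) (α : E d) : ℝ :=
  (∫ y, φ y * Real.exp ⟪α, y⟫_ℝ ∂μ) / mgfE μ α

def cumK (μ : Measure (E d)) (φ : E d → ℝ) (m : Multiset (Fin d)) : ℝ :=
  DM (m.map ex) (tm μ φ) 0

def apA (μ : Measure (E d)) (m : Multiset (Fin d)) (y : E d) : ℝ :=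
  DM (m.map ex) (fun α => Real.exp ⟪α, y⟫_ℝ * (mgfE μ α)⁻¹) 0

def apB (μ : Measure (E d)) (φ : E d → ℝ) (m : Multiset (Fin d)) (y : E d) : ℝ :=
  DM (m.map ex) (fun α => (φ y - tm μ φ α) * (Real.exp ⟪α, y⟫_ℝ * (mgfE μ α)⁻¹)) 0

/-- `∫ Q e^{⟪α, y⟫}`. -/
def cumI (μ : Measure (E d)) (Q : E d → ℝ) (α : E d) : ℝ := ∫ y, Q y * Real.exp ⟪α, y⟫_ℝ ∂μ

theorem cum_meas (μ : Measure (E d)) :
    AEStronglyMeasurable (fun y : E d => (innerSL ℝ y : E d →L[ℝ] ℝ)) μ :=
  (innerSL ℝ (E := E d)).continuous.aestronglyMeasurable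

theorem cum_EI {c : ℝ} {μ : Measure (E d)} (hμ : PM c μ) {Q : E d → ℝ} (hQ : PG1 Q) :
    EI μ (fun y : E d => (innerSL ℝ y : E d →L[ℝ] ℝ)) univ Q := by
  obtain ⟨h1, C, N, h2⟩ := hQ
  have hc := h1.continuous
  refine ⟨hc.aestronglyMeasurable, fun p _ => ⟨1, one_pos, ((hμ.expm (N + (‖p‖ + 1))).const_mul
    |C|).mono' (Continuous.aestronglyMeasurable (by fun_prop)) (.of_forall fun y => ?_)⟩⟩
  have h3 : (1 + ‖y‖) ^ N ≤ Real.exp (N * ‖y‖) := by
    rw [Real.exp_nat_mul]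
    exact pow_le_pow_left₀ (by positivity) (by linarith [Real.add_one_le_exp ‖y‖]) N
  rw [norm_mul, Real.norm_of_nonneg (Real.exp_pos _).le, add_mul, Real.exp_add (N * ‖y‖),
    ← mul_assoc]
  refine mul_le_mul ((h2 y).1.trans (mul_le_mul (le_abs_self C) h3 (by positivity) (abs_nonneg C)))
    (Real.exp_le_exp.2 ?_) (Real.exp_pos _).le (by positivity)
  rw [innerSL_apply_apply, innerSL_apply_norm]
  nlinarith [real_inner_le_norm y p]

theorem cumI_eq (μ : Measure (E d)) (Q : E d → ℝ) :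
    cumI μ Q = fun p => ∫ y, Q y * Real.exp (innerSL ℝ y p) ∂μ := by
  funext p
  simp only [cumI, innerSL_apply_apply, real_inner_comm]

theorem cum_int {c : ℝ} {μ : Measure (E d)} (hμ : PM c μ) {Q : E d → ℝ} (hQ : PG1 Q) (α : E d) :
    Integrable (fun y => Q y * Real.exp ⟪α, y⟫_ℝ) μ := by
  simpa only [innerSL_apply_apply, real_inner_comm] using
    (cum_EI hμ hQ).integrable (cum_meas μ) (mem_univ α)

theorem cum_int0 {c : ℝ} {μ : Measure (E d)} (hμ : PM c μ) {Q : E d → ℝ} (hQ : PG1 Q) :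
    Integrable Q μ := by simpa using cum_int hμ hQ 0

theorem cum_sq {c : ℝ} {μ : Measure (E d)} (hμ : PM c μ) {Q : E d → ℝ} (hQ : PG1 Q) :
    Integrable (fun y => Q y ^ 2) μ := by simpa only [sq] using cum_int0 hμ (hQ.mul hQ)

theorem cum_memLp {c : ℝ} {μ : Measure (E d)} (hμ : PM c μ) {Q : E d → ℝ} (hQ : PG1 Q) :
    MemLp Q 2 μ := (memLp_two_iff_integrable_sq hQ.1.continuous.aestronglyMeasurable).2 (cum_sq hμ hQ)

theorem sm_cumI {c : ℝ} {μ : Measure (E d)} (hμ : PM c μ) {Q : E d → ℝ} (hQ : PG1 Q) :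
    Sm (cumI μ Q) := by
  rw [cumI_eq]
  exact contDiffOn_univ.1 ((cum_EI hμ hQ).contDiffOn (cum_meas μ) isOpen_univ)

theorem cum_ex (y : E d) (c : Fin d) : ⟪y, ex c⟫_ℝ = y c := by
  simp [ex, EuclideanSpace.inner_single_right]

theorem DM_cumI {c : ℝ} {μ : Measure (E d)} (hμ : PM c μ) {Q : E d → ℝ} (hQ : PG1 Q) {ι : Type*}
    (x : ι → Fin d) (t : Finset ι) (β : E d) : DM (t.val.map fun i => ex (x i)) (cumI μ Q) β =
      ∫ y, Q y * (∏ i ∈ t, y (x i)) * Real.exp ⟪β, y⟫_ℝ ∂μ := by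
  rw [cumI_eq, (cum_EI hμ hQ).DM_eq (cum_meas μ)]
  simp only [Multiset.map_map, Function.comp_def, innerSL_apply_apply, cum_ex, real_inner_comm β]
  rfl

theorem cum_pg1_const (a : ℝ) : PG1 fun _ : E d => a :=
  pg1_of_fderiv_le contDiff_const (L := 0) (by simp)

theorem mgfE_eq (μ : Measure (E d)) : mgfE μ = cumI μ fun _ => 1 := by
  funext α; simp [mgfE, cumI]

theorem mgfE_pos {c : ℝ} {μ : Measure (E d)} (hμ : PM c μ) (α : E d) : 0 < mgfE μ α := by
  have := hμ.prob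
  exact integral_exp_pos (by simpa using cum_int hμ (cum_pg1_const 1) α)

theorem tm_eq (μ : Measure (E d)) (Q : E d → ℝ) :
    tm μ Q = fun α => cumI μ Q α * (mgfE μ α)⁻¹ := rfl

theorem cum_sm_exp (y : E d) : Sm fun α : E d => Real.exp ⟪α, y⟫_ℝ :=
  (contDiff_id.inner ℝ contDiff_const).exp

theorem DM_exp (y : E d) (m : Multiset (E d)) : DM m (fun α => Real.exp ⟪α, y⟫_ℝ) =
    fun α => (m.map fun v => ⟪y, v⟫_ℝ).prod * Real.exp ⟪α, y⟫_ℝ := by
  induction m using Multiset.induction_on with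
  | empty => simp
  | cons v m ih =>
    rw [DM_cons (cum_sm_exp y), ih]
    funext α
    have h := ((innerSL ℝ y).hasFDerivAt (x := α)).exp.const_mul (m.map fun v => ⟪y, v⟫_ℝ).prod
    simp only [innerSL_apply_apply, real_inner_comm _ y] at h ⊢
    rw [D1, h.fderiv]
    simp only [Multiset.map_cons, Multiset.prod_cons, smul_apply,
      innerSL_apply_apply, smul_eq_mul, real_inner_comm _ y]
    ring

theorem tm_eq_tilted {c : ℝ} {μ : Measure (E d)} (hμ : PM c μ) (φ : E d → ℝ) (α : E d) :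
    tm μ φ α = ∫ y, φ y ∂μ.tilted fun y => ⟪α, y⟫_ℝ := by
  simp only [tm, mgfE, integral_tilted, smul_eq_mul, ← integral_div]
  exact integral_congr_ae (.of_forall fun y => by ring)

theorem sm_mgfE_inv {c : ℝ} {μ : Measure (E d)} (hμ : PM c μ) : Sm fun α => (mgfE μ α)⁻¹ := by
  refine ContDiff.inv ?_ fun α => (mgfE_pos hμ α).ne'
  rw [mgfE_eq]
  exact sm_cumI hμ (cum_pg1_const 1)

theorem sm_tm {c : ℝ} {μ : Measure (E d)} (hμ : PM c μ) {φ : E d → ℝ} (hφ : PG1 φ) :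
    Sm (tm μ φ) := by
  exact (sm_cumI hμ hφ).mul (sm_mgfE_inv hμ)

/-- Leibniz expansion: `A s y = ∑_{t ⊆ s} y^t · r (s \ t)`, `r = ∂ (1/M)(0)`. -/
theorem apA_eq {c : ℝ} {μ : Measure (E d)} (hμ : PM c μ) {ι : Type*} [DecidableEq ι]
    (x : ι → Fin d) (s : Finset ι) (y : E d) :
    apA μ (s.val.map x) y = ∑ t ∈ s.powerset, (∏ i ∈ t, y (x i)) *
      DM (((s \ t).val.map x).map ex) (fun α => (mgfE μ α)⁻¹) 0 := by
  simp only [apA, Multiset.map_map]
  rw [DM_mul (cum_sm_exp y) (sm_mgfE_inv hμ)]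
  simp [DM_exp, cum_ex]

theorem apB_eq {c : ℝ} {μ : Measure (E d)} (hμ : PM c μ) {φ : E d → ℝ} (hφ : PG1 φ) {ι : Type*}
    [DecidableEq ι] (x : ι → Fin d) (s : Finset ι) (y : E d) :
    apB μ φ (s.val.map x) y = φ y * apA μ (s.val.map x) y -
      ∑ t ∈ s.powerset, cumK μ φ (t.val.map x) * apA μ ((s \ t).val.map x) y := by
  have h := (cum_sm_exp y).mul (sm_mgfE_inv hμ)
  simp only [apB, apA, cumK, sub_mul, Multiset.map_map]
  rw [DM_sub (contDiff_const.mul h) ((sm_tm hμ hφ).mul h), DM_const_mul h]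
  simp only
  rw [DM_mul (sm_tm hμ hφ) h]

theorem apA_zero {c : ℝ} {μ : Measure (E d)} (hμ : PM c μ) (y : E d) : apA μ 0 y = 1 := by
  have := hμ.prob
  simp [apA, mgfE]

theorem cum_pg1_prod {ι : Type*} (x : ι → Fin d) (t : Finset ι) :
    PG1 fun y : E d => ∏ i ∈ t, y (x i) := by
  classical
  induction t using Finset.induction_on with
  | empty => simpa using cum_pg1_const 1
  | insert i t hi ih =>
    simp only [Finset.prod_insert hi]
    exact PG1.mul (pg1_of_fderiv_le (EuclideanSpace.proj (𝕜 := ℝ) (x i)).contDiff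
      fun p => (congrArg norm (EuclideanSpace.proj (𝕜 := ℝ) (x i)).fderiv).le) ih

theorem pg1_apA {c : ℝ} {μ : Measure (E d)} (hμ : PM c μ) (m : Multiset (Fin d)) :
    PG1 (apA μ m) := by
  obtain ⟨n, x, rfl⟩ := exists_ms m
  rw [ms, funext (apA_eq hμ x Finset.univ)]
  exact PG1.sum _ fun t _ => (cum_pg1_prod x t).mul (cum_pg1_const _)

theorem pg1_apB {c : ℝ} {μ : Measure (E d)} (hμ : PM c μ) {φ : E d → ℝ} (hφ : PG1 φ)
    (m : Multiset (Fin d)) : PG1 (apB μ φ m) := by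
  obtain ⟨n, x, rfl⟩ := exists_ms m
  rw [ms, funext (apB_eq hμ hφ x Finset.univ)]
  exact (hφ.mul (pg1_apA hμ _)).sub (PG1.sum _ fun t _ => (pg1_apA hμ _).const_mul _)

theorem cumI_mul_apA {c : ℝ} {μ : Measure (E d)} (hμ : PM c μ) {Q : E d → ℝ} (hQ : PG1 Q)
    (m : Multiset (Fin d)) (β : E d) : cumI μ (fun y => Q y * apA μ m y) β =
      DM (m.map ex) (fun α => cumI μ Q (β + α) * (mgfE μ α)⁻¹) 0 := by
  obtain ⟨n, x, rfl⟩ := exists_ms m
  rw [ms, Multiset.map_map, DM_mul (f := fun α => cumI μ Q (β + α))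
    ((sm_cumI hμ hQ).comp (contDiff_const.add contDiff_id)) (sm_mgfE_inv hμ), cumI]
  simp only [apA_eq hμ, Finset.mul_sum, Finset.sum_mul, ← mul_assoc]
  rw [integral_finsetSum _ fun t _ =>
    cum_int hμ ((hQ.mul (cum_pg1_prod x t)).mul (cum_pg1_const _)) β]
  refine Finset.sum_congr rfl fun t _ => ?_
  have := DM_comp_affine (sm_cumI hμ hQ) β (ContinuousLinearMap.id ℝ _) (t.val.map (ex ∘ x)) 0
  simp only [ContinuousLinearMap.id_apply, add_zero, Multiset.map_map, Function.comp_def] at this ⊢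
  rw [this, DM_cumI hμ hQ, ← integral_mul_const]
  simp only [mul_right_comm]

theorem integral_mul_apA {c : ℝ} {μ : Measure (E d)} (hμ : PM c μ) {Q : E d → ℝ} (hQ : PG1 Q)
    (m : Multiset (Fin d)) : ∫ y, Q y * apA μ m y ∂μ = cumK μ Q m := by
  have := cumI_mul_apA hμ hQ m 0
  simp only [zero_add] at this
  rw [cumK, tm_eq, ← this]
  simp [cumI]

theorem integral_apA {c : ℝ} {μ : Measure (E d)} (hμ : PM c μ) {m : Multiset (Fin d)} (hm : m ≠ 0) :
    ∫ y, apA μ m y ∂μ = 0 := by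
  have h1 := integral_mul_apA hμ (cum_pg1_const 1) m
  have h2 : tm μ (fun _ => 1) = fun _ => 1 := funext fun α => by
    rw [tm_eq, ← mgfE_eq]; exact mul_inv_cancel₀ (mgfE_pos hμ α).ne'
  rw [cumK, h2, DM_const 1 (by simpa using hm)] at h1
  simpa using h1

theorem integral_apB {c : ℝ} {μ : Measure (E d)} (hμ : PM c μ) {φ : E d → ℝ} (hφ : PG1 φ)
    (m : Multiset (Fin d)) : ∫ y, apB μ φ m y ∂μ = 0 := by
  have := hμ.prob
  obtain ⟨n, x, rfl⟩ := exists_ms m
  have hi := fun (a : ℝ) m => (cum_int0 hμ (pg1_apA hμ m)).const_mul a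
  simp only [ms, apB_eq hμ hφ]
  rw [integral_sub (cum_int0 hμ (hφ.mul (pg1_apA hμ _))) (integrable_finsetSum _ fun t _ => hi _ _),
    integral_finsetSum _ fun t _ => hi _ _, integral_mul_apA hμ hφ,
    Finset.sum_eq_single_of_mem Finset.univ (by simp)]
  · simp [apA_zero hμ]
  · intro t _ ht
    rw [integral_const_mul, integral_apA hμ (by
      rwa [Ne, Multiset.map_eq_zero, Finset.val_eq_zero, Finset.sdiff_eq_empty_iff_subset,
        Finset.univ_subset_iff]), mul_zero]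

/-- The Appell property. -/
def CumAp {ι : Type*} [DecidableEq ι] (x : ι → Fin d) (P : Finset ι → E d → ℝ) : Prop :=
  ∀ s y, HasFDerivAt (P s) (∑ i ∈ s, P (s.erase i) y • EuclideanSpace.proj (𝕜 := ℝ) (x i)) y

theorem CumAp.conv {ι : Type*} [DecidableEq ι] {x : ι → Fin d} {P : Finset ι → E d → ℝ}
    (h : CumAp x P) (K : Finset ι → ℝ) :
    CumAp x fun s y => ∑ t ∈ s.powerset, K t * P (s \ t) y := fun s y => by
  refine (HasFDerivAt.fun_sum fun t _ => (h (s \ t) y).const_mul (K t)).congr_fderiv ?_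
  simp only [Finset.smul_sum, Finset.sum_smul, smul_smul]
  rw [Finset.sum_comm' (t' := s) (s' := fun i => (s.erase i).powerset)
    (by simp only [Finset.mem_powerset, Finset.mem_sdiff, Finset.subset_erase]; tauto)]
  simp only [Finset.erase_sdiff_comm]

theorem cumAp_apA {c : ℝ} {μ : Measure (E d)} (hμ : PM c μ) {ι : Type*} [DecidableEq ι]
    (x : ι → Fin d) : CumAp x fun s => apA μ (s.val.map x) := by
  have h : CumAp x fun s y => ∏ i ∈ s, y (x i) := fun s y =>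
    HasFDerivAt.finsetProd fun i _ => (EuclideanSpace.proj (𝕜 := ℝ) (x i)).hasFDerivAt
  convert h.conv fun t => DM ((t.val.map x).map ex) (fun α => (mgfE μ α)⁻¹) 0 using 2 with s
  funext y
  simp only [apA, Multiset.map_map, mul_comm (Real.exp _)]
  rw [DM_mul (sm_mgfE_inv hμ) (cum_sm_exp y)]
  simp [DM_exp, cum_ex, -Finset.sdiff_val]

theorem hasFDerivAt_apB {c : ℝ} {μ : Measure (E d)} (hμ : PM c μ) {φ : E d → ℝ} (hφ : PG1 φ)
    {ι : Type*} [DecidableEq ι] (x : ι → Fin d) (s : Finset ι) (y : E d) :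
    HasFDerivAt (apB μ φ (s.val.map x)) (apA μ (s.val.map x) y • fderiv ℝ φ y +
      ∑ i ∈ s, apB μ φ ((s.erase i).val.map x) y • EuclideanSpace.proj (𝕜 := ℝ) (x i)) y := by
  rw [funext (apB_eq hμ hφ x s)]
  refine (((hφ.1.differentiable one_ne_zero y).hasFDerivAt.fun_mul (cumAp_apA hμ x s y)).fun_sub
    ((cumAp_apA hμ x).conv (fun t => cumK μ φ (t.val.map x)) s y)).congr_fderiv ?_
  simp only [apB_eq hμ hφ, sub_smul, Finset.sum_sub_distrib, Finset.smul_sum, smul_smul]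
  abel

theorem cum_split {κ ι : Type} [Fintype κ] [Fintype ι] [DecidableEq ι] (i : ι)
    (f : κ × (ι → Fin d) → ℝ) : ∑ z, f z = ∑ c, ∑ z : κ × ({j // j ≠ i} → Fin d),
      f (z.1, (Equiv.funSplitAt i (Fin d)).symm (c, z.2)) := by
  simp only [Fintype.sum_prod_type]
  rw [Finset.sum_comm (β := ℝ) (s := (Finset.univ : Finset (Fin d)))]
  refine Finset.sum_congr rfl fun k _ => ?_
  rw [← (Equiv.funSplitAt i (Fin d)).symm.sum_comp, Fintype.sum_prod_type]

theorem cum_poinc {c : ℝ} {μ : Measure (E d)} (hμ : PM c μ) {κ ι : Type} [Fintype κ] [Fintype ι]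
    [DecidableEq ι] {P : κ → Multiset (Fin d) → E d → ℝ} (hP : ∀ k m, PG1 (P k m))
    (h0 : ∀ k (x : ι → Fin d), ∫ y, P k (ms x) y ∂μ = 0) (a : κ × (ι → Fin d) → ℝ)
    {T : κ × (ι → Fin d) → E d → E d →L[ℝ] ℝ}
    (hD : ∀ z y, HasFDerivAt (P z.1 (ms z.2)) (T z y + ∑ i,
      P z.1 ((Finset.univ.erase i).val.map z.2) y • EuclideanSpace.proj (𝕜 := ℝ) (z.2 i)) y)
    {τ : E d → ℝ} (hτ : Integrable τ μ) (hT : ∀ y, ‖∑ z, a z • T z y‖ ^ 2 ≤ τ y) {K K' : ℝ}
    (hK' : ∫ y, τ y ∂μ ≤ K' * ∑ z, a z ^ 2)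
    (hK : ∀ (i : ι) (b : κ × ({j // j ≠ i} → Fin d) → ℝ),
      ∫ y, (∑ z, b z * P z.1 (ms z.2) y) ^ 2 ∂μ ≤ K * ∑ z, b z ^ 2) :
    ∫ y, (∑ z, a z * P z.1 (ms z.2) y) ^ 2 ∂μ ≤
      |c| * (2 * K' + 2 * Fintype.card ι ^ 2 * K) * ∑ z, a z ^ 2 := by
  set g : ι → Fin d → E d → ℝ := fun i c y => ∑ z : κ × ({j // j ≠ i} → Fin d),
    a (z.1, (Equiv.funSplitAt i (Fin d)).symm (c, z.2)) * P z.1 (ms z.2) y with hg
  have hgi : ∀ i c, Integrable (fun y => g i c y ^ 2) μ := fun i c =>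
    cum_sq hμ (PG1.sum _ fun z _ => (hP _ _).const_mul _)
  have h1 : ∀ y, ‖fderiv ℝ (fun y => ∑ z, a z * P z.1 (ms z.2) y) y‖ ^ 2 ≤
      2 * τ y + 2 * (Fintype.card ι * ∑ i, ∑ c, g i c y ^ 2) := fun y => by
    rw [(HasFDerivAt.fun_sum fun z _ => (hD z y).const_mul (a z)).fderiv]
    simp only [smul_add, Finset.sum_add_distrib, Finset.smul_sum]
    rw [Finset.sum_comm]
    have h2 : ∀ i, ‖∑ z, a z • P z.1 ((Finset.univ.erase i).val.map z.2) y •
        (EuclideanSpace.proj (𝕜 := ℝ) (z.2 i) : E d →L[ℝ] ℝ)‖ ^ 2 = ∑ c, g i c y ^ 2 := fun i => by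
      rw [(EuclideanSpace.basisFun (Fin d) ℝ).norm_dual]
      refine Finset.sum_congr rfl fun c _ => congrArg (· ^ 2) ?_
      rw [sum_apply, cum_split i, Finset.sum_eq_single_of_mem c (Finset.mem_univ _)]
      · refine Finset.sum_congr rfl fun z _ => ?_
        have h3 := ms_erase ((Equiv.funSplitAt i (Fin d)).symm (c, z.2)) i
        rw [ms, ← Finset.insert_erase (Finset.mem_univ i),
          Finset.insert_val_of_notMem (Finset.notMem_erase _ _), Multiset.map_cons,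
          Multiset.cons_inj_right] at h3
        have h4 : (fun j : {j // j ≠ i} => (Equiv.funSplitAt i (Fin d)).symm (c, z.2) j) = z.2 :=
          funext fun j => by simp [j.2]
        rw [h3, h4]
        simp
      · intro c' _ hc
        exact Finset.sum_eq_zero fun z _ => by simp [hc]
    simp only [← h2]
    refine (pow_le_pow_left₀ (norm_nonneg _) ((norm_add_le _ _).trans
      (add_le_add_right (norm_sum_le _ _) _)) 2).trans ((add_sq_le).trans ?_)
    rw [mul_add]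
    exact add_le_add (by linarith [hT y]) (mul_le_mul_of_nonneg_left sq_sum_le_card_mul_sum_sq
      (by norm_num))
  have hs : Integrable (fun y => ∑ i, ∑ c, g i c y ^ 2) μ :=
    integrable_finsetSum _ fun i _ => integrable_finsetSum _ fun c _ => hgi i c
  have h2 := integral_mono_of_nonneg (.of_forall fun y => sq_nonneg _)
    ((hτ.const_mul 2).add ((hs.const_mul _).const_mul 2)) (.of_forall h1)
  have h3 : ∫ y, ∑ i, ∑ c, g i c y ^ 2 ∂μ ≤ Fintype.card ι * (K * ∑ z, a z ^ 2) := by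
    rw [integral_finsetSum _ fun i _ => integrable_finsetSum _ fun c _ => hgi i c, ← nsmul_eq_mul,
      ← Finset.card_univ, ← Finset.sum_const]
    refine Finset.sum_le_sum fun i _ => ?_
    rw [integral_finsetSum _ fun c _ => hgi i c, cum_split i, Finset.mul_sum]
    exact Finset.sum_le_sum fun c _ => hK i _
  simp only [Pi.add_apply] at h2
  rw [integral_add (hτ.const_mul 2) ((hs.const_mul _).const_mul 2), integral_const_mul,
    integral_const_mul, integral_const_mul] at h2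
  refine (hμ.poinc _ (PG1.sum _ fun z _ => (hP _ _).const_mul _) ?_).trans ?_
  · rw [integral_finsetSum _ fun z _ => (cum_int0 hμ (hP _ _)).const_mul _]
    simp only [integral_const_mul, h0, mul_zero, Finset.sum_const_zero]
  · rw [mul_assoc]
    refine mul_le_mul (le_abs_self c) (h2.trans ?_) (integral_nonneg fun y => sq_nonneg _)
      (abs_nonneg c)
    nlinarith [mul_le_mul_of_nonneg_left h3 (Nat.cast_nonneg (α := ℝ) (Fintype.card ι))]

theorem cum_card {ι : Type} [Fintype ι] [DecidableEq ι] (i : ι) :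
    Fintype.card {j // j ≠ i} + 1 = Fintype.card ι := by
  have := Fintype.card_pos_iff.2 ⟨i⟩
  simp only [ne_eq, Fintype.card_subtype_compl, Fintype.card_unique]
  omega

theorem apA_L2' (n : ℕ) (c : ℝ) : ∃ K : ℝ, 1 ≤ K ∧ ∀ (ι : Type) [Fintype ι] [DecidableEq ι],
    Fintype.card ι ≤ n → ∀ (d : ℕ) (μ : Measure (E d)), PM c μ → ∀ b : Unit × (ι → Fin d) → ℝ,
      ∫ y, (∑ x, b x * apA μ (ms x.2) y) ^ 2 ∂μ ≤ K * ∑ x, b x ^ 2 := by
  have h0 : ∀ (ι : Type) [Fintype ι] [DecidableEq ι] [IsEmpty ι] (d : ℕ) (μ : Measure (E d)),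
      PM c μ → ∀ b : Unit × (ι → Fin d) → ℝ,
      ∫ y, (∑ x, b x * apA μ (ms x.2) y) ^ 2 ∂μ = ∑ x, b x ^ 2 := fun ι _ _ _ d μ hμ b => by
    have := hμ.prob
    simp [ms, apA_zero hμ, Fintype.sum_prod_type]
  induction n with
  | zero =>
    refine ⟨1, le_rfl, fun ι _ _ hι d μ hμ b => ?_⟩
    have := Fintype.card_eq_zero_iff.1 (Nat.le_zero.1 hι)
    rw [h0 ι d μ hμ, one_mul]
  | succ n ih =>
    obtain ⟨K, hK, ih⟩ := ih
    have h1 : 0 ≤ |c| * (2 * (n + 1 : ℕ) ^ 2 * K) := by positivity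
    refine ⟨1 + |c| * (2 * (n + 1 : ℕ) ^ 2 * K), by linarith, fun ι _ _ hι d μ hμ b => ?_⟩
    have h2 : 0 ≤ ∑ x, b x ^ 2 := by positivity
    rcases isEmpty_or_nonempty ι with h | h
    · rw [h0 ι d μ hμ]; nlinarith
    · refine (cum_poinc hμ (P := fun _ => apA μ) (fun _ => pg1_apA hμ)
        (fun _ x => integral_apA hμ (ms_ne_zero x)) b (T := 0)
        (fun z y => by simpa [ms] using cumAp_apA hμ z.2 Finset.univ y) (τ := 0)
        (integrable_zero _ _ _) (by simp) (K' := 0) (by simp)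
        fun i b => ih _ (by have := cum_card i; omega) d μ hμ b).trans ?_
      rw [mul_zero, zero_add]
      refine mul_le_mul_of_nonneg_right (le_add_of_nonneg_of_le zero_le_one ?_) h2
      gcongr

theorem cum_pg1_coord {φ : E d → E d} (hφ : ContDiff ℝ 1 φ) {L : ℝ} (hL : Lip L φ) :
    (∀ y, ‖fderiv ℝ φ y‖ ≤ |L|) ∧ (∀ k y, fderiv ℝ (fun y => φ y k) y =
      (EuclideanSpace.proj (𝕜 := ℝ) k).comp (fderiv ℝ φ y)) ∧ ∀ k, PG1 fun y => φ y k := by
  have h1 : ∀ y, ‖fderiv ℝ φ y‖ ≤ |L| := fun y => norm_fderiv_le_of_lip' ℝ (abs_nonneg L)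
    (.of_forall fun x => hL.mono (le_abs_self L) x y)
  have h2 : ∀ k y, fderiv ℝ (fun y => φ y k) y =
      (EuclideanSpace.proj (𝕜 := ℝ) k).comp (fderiv ℝ φ y) := fun k y =>
    ((EuclideanSpace.proj (𝕜 := ℝ) k).hasFDerivAt.comp y
      (hφ.differentiable one_ne_zero y).hasFDerivAt).fderiv
  refine ⟨h1, h2, fun k => pg1_of_fderiv_le ((EuclideanSpace.proj (𝕜 := ℝ) k).contDiff.comp hφ)
    (L := ‖(EuclideanSpace.proj (𝕜 := ℝ) k : E d →L[ℝ] ℝ)‖ * |L|) fun y => ?_⟩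
  rw [h2]
  exact (ContinuousLinearMap.opNorm_comp_le _ _).trans (by gcongr; exact h1 y)

/-- `L²` bound for `A`, by strong induction on `card ι`.  `A ∅ = 1`.  For `ι` nonempty,
`∫ A = ∂(M · M⁻¹) = 0` (`apA_eq`, `EI.DM_eq`, `DM_mul`, `DM_const`) and
`∂_{y_c} A(x) = ∑_i [x i = c] A(x off i)`, so by Poincaré
`∫ (∑ b A)² ≤ c · card ι · ∑_i ∑_c ∫ (∑_{x'} b(c at i, x') A x')²`
(`Equiv.funSplitAt`, `ms_erase`). -/
theorem apA_L2 (n : ℕ) (c : ℝ) : ∃ C : ℝ, ∀ (ι : Type) [Fintype ι] [DecidableEq ι],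
    Fintype.card ι ≤ n → ∀ (d : ℕ) (μ : Measure (E d)), PM c μ →
      (∀ x : ι → Fin d, PG1 (apA μ (ms x))) ∧ ∀ b : (ι → Fin d) → ℝ,
      ∫ y, (∑ x, b x * apA μ (ms x) y) ^ 2 ∂μ ≤ C ^ 2 * ∑ x, b x ^ 2 := by
  obtain ⟨K, hK, h⟩ := apA_L2' n c
  refine ⟨√K, fun ι _ _ hι d μ hμ => ⟨fun x => pg1_apA hμ _, fun b => ?_⟩⟩
  simpa [Fintype.sum_prod_type, Real.sq_sqrt (zero_le_one.trans hK)] using
    h ι hι d μ hμ fun z => b z.2

/-- `L²` bound for `B`: `∫ B = 0` always, and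
`∂_c B(k, x) = ∂_c φ_k · A x + ∑_i [x i = c] B(k, x off i)`; the first term is controlled by
`∑_c (∑_k a_k ∂_c φ_k)² ≤ L² ∑ a_k²` (`‖Dφ‖ ≤ L`) with `a_k = ∑_x a(k,x) A x`, and `apA_L2`. -/
theorem apB_L2 (n : ℕ) (c L : ℝ) : ∃ C : ℝ, ∀ (ι : Type) [Fintype ι] [DecidableEq ι],
    Fintype.card ι ≤ n → ∀ (d : ℕ) (μ : Measure (E d)), PM c μ → ∀ φ : E d → E d,
      ContDiff ℝ 1 φ → Lip L φ →
      (∀ (k : Fin d) (x : ι → Fin d), PG1 (apB μ (fun y => φ y k) (ms x))) ∧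
      ∀ a : Fin d × (ι → Fin d) → ℝ,
      ∫ y, (∑ x : Fin d × (ι → Fin d), a x * apB μ (fun y => φ y x.1) (ms x.2) y) ^ 2 ∂μ ≤
        C ^ 2 * ∑ x, a x ^ 2 := by
  obtain ⟨C, hC⟩ := apA_L2 n c
  suffices h : ∀ m ≤ n, ∃ K : ℝ, 0 ≤ K ∧ ∀ (ι : Type) [Fintype ι] [DecidableEq ι],
      Fintype.card ι ≤ m → ∀ (d : ℕ) (μ : Measure (E d)), PM c μ → ∀ φ : E d → E d,
      ContDiff ℝ 1 φ → Lip L φ → ∀ a : Fin d × (ι → Fin d) → ℝ,
      ∫ y, (∑ x : Fin d × (ι → Fin d), a x * apB μ (fun y => φ y x.1) (ms x.2) y) ^ 2 ∂μ ≤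
        K * ∑ x, a x ^ 2 by
    obtain ⟨K, hK, h⟩ := h n le_rfl
    refine ⟨√K, fun ι _ _ hι d μ hμ φ hφ hL =>
      ⟨fun k x => pg1_apB hμ ((cum_pg1_coord hφ hL).2.2 k) _, fun a => ?_⟩⟩
    rw [Real.sq_sqrt hK]
    exact h ι hι d μ hμ φ hφ hL a
  have step : ∀ (K : ℝ) (ι : Type) [Fintype ι] [DecidableEq ι], Fintype.card ι ≤ n →
      ∀ (d : ℕ) (μ : Measure (E d)), PM c μ → ∀ φ : E d → E d, ContDiff ℝ 1 φ → Lip L φ →
      (∀ (i : ι) (b : Fin d × ({j // j ≠ i} → Fin d) → ℝ), ∫ y, (∑ z, b z *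
        apB μ (fun y => φ y z.1) (ms z.2) y) ^ 2 ∂μ ≤ K * ∑ z, b z ^ 2) →
      ∀ a : Fin d × (ι → Fin d) → ℝ,
      ∫ y, (∑ x : Fin d × (ι → Fin d), a x * apB μ (fun y => φ y x.1) (ms x.2) y) ^ 2 ∂μ ≤
        |c| * (2 * (L ^ 2 * C ^ 2) + 2 * Fintype.card ι ^ 2 * K) * ∑ x, a x ^ 2 := by
    intro K ι _ _ hι d μ hμ φ hφ hL hK a
    obtain ⟨h1, h2, h3⟩ := cum_pg1_coord hφ hL
    have hi : ∀ k, Integrable (fun y => (∑ x, a (k, x) * apA μ (ms x) y) ^ 2) μ := fun k =>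
      cum_sq hμ (PG1.sum _ fun z _ => (pg1_apA hμ _).const_mul _)
    refine cum_poinc hμ (P := fun k => apB μ fun y => φ y k) (fun k => pg1_apB hμ (h3 k))
      (fun k x => integral_apB hμ (h3 k) _) a
      (fun z y => hasFDerivAt_apB hμ (h3 z.1) z.2 Finset.univ y)
      (τ := fun y => L ^ 2 * ∑ k, (∑ x, a (k, x) * apA μ (ms x) y) ^ 2)
      ((integrable_finsetSum _ fun k _ => hi k).const_mul _) (fun y => ?_) ?_ hK
    · have h4 : ∑ z : Fin d × (ι → Fin d), a z • apA μ (Finset.univ.val.map z.2) y •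
          fderiv ℝ (fun y => φ y z.1) y = (innerSL ℝ (WithLp.toLp 2 fun k =>
            ∑ x, a (k, x) * apA μ (ms x) y : E d)).comp (fderiv ℝ φ y) := by
        ext v
        simp [h2, Fintype.sum_prod_type, PiLp.inner_apply, Finset.mul_sum, ms, mul_comm,
          mul_left_comm, mul_assoc]
      rw [h4, mul_comm, ← sq_abs L]
      refine (pow_le_pow_left₀ (norm_nonneg _) ((ContinuousLinearMap.opNorm_comp_le _ _).trans
        (mul_le_mul_of_nonneg_left (h1 y) (norm_nonneg _))) 2).trans_eq ?_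
      rw [mul_pow, innerSL_apply_norm, EuclideanSpace.real_norm_sq_eq]
    · rw [integral_const_mul, integral_finsetSum _ fun k _ => hi k, mul_assoc,
        Fintype.sum_prod_type, Finset.mul_sum (a := C ^ 2)]
      exact mul_le_mul_of_nonneg_left
        (Finset.sum_le_sum fun k _ => (hC ι hι d μ hμ).2 fun x => a (k, x)) (sq_nonneg L)
  intro m
  induction m with
  | zero =>
    refine fun _ => ⟨|c| * (2 * (L ^ 2 * C ^ 2)), by positivity,
      fun ι _ _ hι d μ hμ φ hφ hL a => ?_⟩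
    have := Fintype.card_eq_zero_iff.1 (Nat.le_zero.1 hι)
    simpa using step 0 ι (by omega) d μ hμ φ hφ hL (fun i => isEmptyElim i) a
  | succ m ih =>
    intro hm
    obtain ⟨K, hK, ih⟩ := ih (by omega)
    refine ⟨|c| * (2 * (L ^ 2 * C ^ 2) + 2 * (m + 1 : ℕ) ^ 2 * K), by positivity,
      fun ι _ _ hι d μ hμ φ hφ hL a => (step K ι (by omega) d μ hμ φ hφ hL (fun i b =>
        ih _ (by have := cum_card i; omega) d μ hμ φ hφ hL b) a).trans ?_⟩
    gcongr

/-- The generating identity `E[(φ - m α) A_α A_β] = (m(α+β) - m α) E[A_α A_β]`, coefficientwise.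
Proof: in the subset-convolution algebra of functions on `Finset (ιO ⊕ ιJ)`, or by applying
`DM_mul` on `E d × E d` with directions `(ex (x i), 0)`, `(0, ex (z j))` to both sides of
`(N(α+β) - m α M(α+β)) / (M α M β) = (m(α+β) - m α) · (M(α+β) / (M α M β))`, after expanding the
integrals with `apA_eq`, `apB_eq`, `EI.DM_eq`. -/
theorem apB_apA {c : ℝ} {μ : Measure (E d)} (hμ : PM c μ) {φ : E d → ℝ} (hφ : PG1 φ)
    {ιO ιJ : Type*} [DecidableEq ιO] [DecidableEq ιJ] (x : ιO → Fin d) (z : ιJ → Fin d)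
    (s : Finset ιO) (s' : Finset ιJ) :
    ∫ y, apB μ φ (s.val.map x) y * apA μ (s'.val.map z) y ∂μ =
      ∑ t ∈ s.powerset, ∑ t' ∈ s'.powerset.erase ∅, cumK μ φ (t.val.map x + t'.val.map z) *
        ∫ y, apA μ ((s \ t).val.map x) y * apA μ ((s' \ t').val.map z) y ∂μ := by
  have hm := sm_tm hμ hφ
  have hA := fun m => pg1_apA hμ m
  have h1 : ∀ β, tm μ (fun y => φ y * apA μ (s.val.map x) y) β = ∑ t ∈ s.powerset,
      DM ((t.val.map x).map ex) (tm μ φ) β * tm μ (apA μ ((s \ t).val.map x)) β := fun β => by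
    have h2 : (fun α => cumI μ φ (β + α) * (mgfE μ α)⁻¹) = fun α => tm μ φ (β + α) *
        (cumI μ (fun _ => 1) (β + α) * (mgfE μ α)⁻¹) := funext fun α => by
      rw [tm_eq, ← mgfE_eq]
      have := (mgfE_pos hμ (β + α)).ne'
      field_simp
    rw [tm_eq]
    simp only
    rw [cumI_mul_apA hμ hφ, h2, Multiset.map_map, DM_mul (f := fun α => tm μ φ (β + α))
      (g := fun α => cumI μ (fun _ => 1) (β + α) * (mgfE μ α)⁻¹) (hm.comp (contDiff_const.add contDiff_id))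
      (((sm_cumI hμ (cum_pg1_const 1)).comp (contDiff_const.add contDiff_id)).mul (sm_mgfE_inv hμ)),
      Finset.sum_mul]
    refine Finset.sum_congr rfl fun t _ => ?_
    have h3 := DM_comp_affine hm β (ContinuousLinearMap.id ℝ _) (t.val.map (ex ∘ x)) 0
    have h4 := cumI_mul_apA hμ (cum_pg1_const 1) ((s \ t).val.map x) β
    simp only [ContinuousLinearMap.id_apply, add_zero, Multiset.map_map, Function.comp_def,
      one_mul] at h3 h4 ⊢
    rw [h3, ← h4, mul_assoc]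
    rfl
  have h2 : tm μ (apB μ φ (s.val.map x)) = fun β => ∑ t ∈ s.powerset,
      (DM ((t.val.map x).map ex) (tm μ φ) β - cumK μ φ (t.val.map x)) *
        tm μ (apA μ ((s \ t).val.map x)) β := funext fun β => by
    have hi := fun (a : ℝ) m => (cum_int hμ (hA m) β).const_mul a
    simp only [sub_mul, Finset.sum_sub_distrib, ← h1]
    simp only [tm, apB_eq hμ hφ, sub_mul, Finset.sum_mul, mul_assoc (cumK _ _ _)]
    rw [integral_sub (cum_int hμ (hφ.mul (hA _)) β) (integrable_finsetSum _ fun t _ => hi _ _),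
      integral_finsetSum _ fun t _ => hi _ _, sub_div, Finset.sum_div]
    simp only [integral_const_mul, mul_div_assoc]
  have h3 := fun (t : Finset ιO) => (hm.DM ((t.val.map x).map ex)).sub
    (contDiff_const (c := cumK μ φ (t.val.map x)))
  rw [integral_mul_apA hμ (pg1_apB hμ hφ _), cumK, h2,
    DM_sum _ fun t _ => (h3 t).mul (sm_tm hμ (hA _))]
  refine Finset.sum_congr rfl fun t _ => ?_
  rw [Multiset.map_map (f := z), DM_mul (h3 t) (sm_tm hμ (hA _)),
    ← Finset.add_sum_erase _ _ (Finset.empty_mem_powerset s')]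
  rw [show DM ((∅ : Finset ιJ).val.map (ex ∘ z)) (fun β => DM ((t.val.map x).map ex) (tm μ φ) β -
    cumK μ φ (t.val.map x)) 0 = 0 by simp [cumK], zero_mul, zero_add]
  refine Finset.sum_congr rfl fun t' ht' => ?_
  rw [integral_mul_apA hμ (hA _), DM_sub (hm.DM _) contDiff_const,
    DM_const _ (by simpa using (Finset.mem_erase.1 ht').1), ← DM_add_ms hm]
  simp only [cumK, sub_zero, Multiset.map_add, Multiset.map_map, add_comm]

/-- Main bound, by strong induction on `card ιO + card ιJ`: isolate the term `(t, t') = (univ, univ)`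
in `apB_apA` (`A ∅ = 1`); the left side is bounded by `opB_integral`, the other terms by
`OpB.kron` after `Equiv.piEquivPiSubtypeProd` (`ms_subtype`, `ms_subtype_compl`). -/
theorem cum_opB (n : ℕ) (c L : ℝ) : ∃ C : ℝ, ∀ (ιO ιJ : Type) [Fintype ιO] [DecidableEq ιO]
    [Fintype ιJ] [DecidableEq ιJ] [Nonempty ιJ], Fintype.card ιO + Fintype.card ιJ ≤ n →
    ∀ (d : ℕ) (μ : Measure (E d)), PM c μ → ∀ φ : E d → E d, ContDiff ℝ 1 φ → Lip L φ →
      OpB C fun (x : Fin d × (ιO → Fin d)) (z : ιJ → Fin d) =>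
        cumK μ (fun y => φ y x.1) (ms x.2 + ms z) := by
  induction n with
  | zero =>
    refine ⟨0, fun ιO ιJ _ _ _ _ _ h => ?_⟩
    have := Fintype.card_pos (α := ιJ)
    omega
  | succ n ih =>
    obtain ⟨C, hC⟩ := ih
    obtain ⟨CA, hA⟩ := apA_L2 (n + 1) c
    obtain ⟨CB, hB⟩ := apB_L2 (n + 1) c L
    refine ⟨|CB * CA| + 2 ^ (n + 1) * |C * (CA * CA)|, fun ιO ιJ _ _ _ _ _ h d μ hμ φ hφ hL => ?_⟩
    have := hμ.prob
    have h1 := opB_integral (X := Fin d × (ιO → Fin d))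
      (fun x => cum_memLp hμ ((hB ιO (by omega) d μ hμ φ hφ hL).1 x.1 x.2))
      (fun z => cum_memLp hμ ((hA ιJ (by omega) d μ hμ).1 z))
      (hB ιO (by omega) d μ hμ φ hφ hL).2 (hA ιJ (by omega) d μ hμ).2
    set S : Finset (Finset ιO × Finset ιJ) :=
      (Finset.univ.powerset ×ˢ Finset.univ.powerset.erase ∅).erase (Finset.univ, Finset.univ) with hS
    have h2 : ∀ p ∈ S, OpB (C * (CA * CA)) fun (x : Fin d × (ιO → Fin d)) (z : ιJ → Fin d) =>
        cumK μ (fun y => φ y x.1) (p.1.val.map x.2 + p.2.val.map z) *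
          ∫ y, apA μ ((Finset.univ \ p.1).val.map x.2) y *
            apA μ ((Finset.univ \ p.2).val.map z) y ∂μ := by
      rintro ⟨t, t'⟩ hp
      simp only [hS, Finset.mem_erase, Finset.mem_product, ne_eq, Prod.mk.injEq] at hp
      have : Nonempty {j // j ∈ t'} := (Finset.nonempty_iff_ne_empty.2 hp.2.2.1).to_subtype
      have k1 := Finset.card_le_univ t
      have k2 := Finset.card_le_univ t'
      have k3 := hC {i // i ∈ t} {j // j ∈ t'} (by
        have := t.card_eq_iff_eq_univ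
        have := t'.card_eq_iff_eq_univ
        simp only [Fintype.card_coe]
        grind) d μ hμ φ hφ hL
      have k4 := hA {i // ¬ i ∈ t} ((Fintype.card_subtype_le _).trans (by omega)) d μ hμ
      have k5 := hA {j // ¬ j ∈ t'} ((Fintype.card_subtype_le _).trans (by omega)) d μ hμ
      have k6 := (k3.kron (opB_integral (fun x => cum_memLp hμ (k4.1 x))
        (fun z => cum_memLp hμ (k5.1 z)) k4.2 k5.2)).reindex
        (((Equiv.refl (Fin d)).prodCongr (Equiv.piEquivPiSubtypeProd (· ∈ t) fun _ => Fin d)).trans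
          (Equiv.prodAssoc _ _ _).symm) (Equiv.piEquivPiSubtypeProd (· ∈ t') fun _ => Fin d)
      simp only [← Finset.compl_eq_univ_sdiff, ← ms_subtype_compl]
      simp only [← ms_subtype _ t, ← ms_subtype _ t']
      exact k6
    convert (h1.add ((OpB.sum S h2).const_mul (-1))).mono (add_le_add_right ?_ _ |>.trans'
      (le_of_eq (abs_of_nonneg (by positivity)))) using 3 with x z
    · simp only [ms]
      rw [apB_apA hμ ((cum_pg1_coord hφ hL).2.2 x.1), ← Finset.sum_product',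
        ← Finset.add_sum_erase _ _ (a := (Finset.univ, Finset.univ))
          (by simp [Finset.univ_nonempty.ne_empty])]
      simp [apA_zero hμ, hS]
    · rw [neg_one_mul, abs_neg, abs_of_nonneg (by positivity), Finset.sum_const, nsmul_eq_mul]
      refine mul_le_mul_of_nonneg_right ?_ (abs_nonneg _)
      have : S.card ≤ 2 ^ (n + 1) := (Finset.card_le_univ S).trans (by
        rw [Fintype.card_prod, Fintype.card_finset, Fintype.card_finset, ← pow_add]
        exact Nat.pow_le_pow_right two_pos h)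
      exact_mod_cast this

end

end Crest.Agent.R285
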