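import Crest.Agent.R285.Rec

/-! Row 285: the asymptotic recursion on the accuracy of score engines. -/

set_option autoImplicit false

namespace Crest.Agent.R285

open MeasureTheory ProbabilityTheory Crest.OracleSampling Set
open scoped ENNReal NNReal InnerProductSpace

/-- `f = O(N ^ x)` at infinity. -/
def Pw (x : ℝ) (f : ℝ → ℝ) : Prop := f =O[Filter.atTop] fun N : ℝ => N ^ x

namespace Pw
open Filter Asymptotics
variable {x y z c : ℝ} {f g : ℝ → ℝ}

theorem rpow (x : ℝ) : Pw x fun N => N ^ x := isBigO_refl _ _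

theorem mono (h : Pw x f) (hxy : x ≤ y) : Pw y f := by
  refine IsBigO.trans h (IsBigO.of_bound 1 ?_)
  filter_upwards [eventually_ge_atTop 1] with N hN
  rw [one_mul, Real.norm_of_nonneg (by positivity), Real.norm_of_nonneg (by positivity)]
  exact Real.rpow_le_rpow_of_exponent_le hN hxy

theorem const (c : ℝ) : Pw 0 fun _ => c := by
  simpa [Pw] using isBigO_const_const c (one_ne_zero (α := ℝ)) atTop

theorem mul (hf : Pw x f) (hg : Pw y g) : Pw (x + y) fun N => f N * g N := by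
  refine (IsBigO.mul hf hg).congr' EventuallyEq.rfl ?_
  filter_upwards [eventually_gt_atTop 0] with N hN
  rw [Real.rpow_add hN]

theorem cmul (c : ℝ) (hf : Pw x f) : Pw x fun N => c * f N := IsBigO.const_mul_left hf c

theorem add (hf : Pw x f) (hg : Pw x g) : Pw x fun N => f N + g N := IsBigO.add hf hg

theorem pow (hf : Pw x f) (n : ℕ) : Pw (n * x) fun N => f N ^ n := by
  refine (IsBigO.pow hf n).congr' EventuallyEq.rfl ?_
  filter_upwards [eventually_gt_atTop 0] with N hN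
  rw [mul_comm, Real.rpow_mul hN.le, Real.rpow_natCast]

theorem div (hf : Pw x f) (y : ℝ) : Pw (x - y) fun N => f N / N ^ y := by
  refine IsBigO.congr' (hf.mul (rpow (-y))) ?_ (by rw [sub_eq_add_neg])
  filter_upwards [eventually_gt_atTop 0] with N hN
  rw [Real.rpow_neg hN.le, div_eq_mul_inv]

theorem sqrt (hf : Pw x f) : Pw (x / 2) fun N => √(f N) := by
  refine (IsBigO.sqrt hf ?_).congr' EventuallyEq.rfl ?_
  · filter_upwards [eventually_gt_atTop 0] with N hN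
    exact Real.rpow_nonneg hN.le _
  · filter_upwards [eventually_gt_atTop 0] with N hN
    rw [Real.sqrt_eq_rpow, ← Real.rpow_mul hN.le, mul_one_div]

theorem of_le (hg : Pw x g) (h : ∀ᶠ N in atTop, 0 ≤ f N ∧ f N ≤ g N) : Pw x f := by
  refine IsBigO.trans (IsBigO.of_bound 1 ?_) hg
  filter_upwards [h] with N hN
  rw [one_mul, Real.norm_of_nonneg hN.1]
  exact hN.2.trans (le_abs_self _)

theorem ev (hf : Pw x f) (hxy : x < y) (hc : 0 < c) : ∀ᶠ N in atTop, f N ≤ c * N ^ y := by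
  have h1 : (fun N : ℝ => N ^ x) =o[atTop] fun N : ℝ => N ^ y := by
    refine (isLittleO_iff_tendsto' ?_).2 ((tendsto_rpow_neg_atTop (sub_pos.2 hxy)).congr' ?_)
    · filter_upwards [eventually_gt_atTop 0] with N hN h
      exact absurd h (Real.rpow_pos_of_pos hN _).ne'
    · filter_upwards [eventually_gt_atTop 0] with N hN
      rw [neg_sub, Real.rpow_sub hN]
  filter_upwards [(IsBigO.trans_isLittleO hf h1).bound hc, eventually_gt_atTop 0] with N h hN
  rw [Real.norm_of_nonneg (Real.rpow_nonneg hN.le _)] at h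
  exact (le_abs_self _).trans h

theorem ev1 (hf : Pw x f) (hxy : x < y) : ∀ᶠ N in atTop, f N ≤ N ^ y := by
  simpa using hf.ev hxy one_pos

theorem ev0 (hf : Pw x f) (hx : x < 0) (hc : 0 < c) : ∀ᶠ N in atTop, f N ≤ c := by
  simpa using hf.ev hx hc

theorem ev2 (hf : Pw x f) (h : x < y + z) : ∀ᶠ N in atTop, f N ≤ N ^ y * N ^ z := by
  filter_upwards [hf.ev1 h, eventually_gt_atTop 0] with N h hN
  rwa [Real.rpow_add hN] at h

theorem floor (hx : 0 ≤ x) : Pw x fun N => (⌊N ^ x⌋₊ : ℝ) + 1 := by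
  refine ((rpow x).add ((const 1).mono hx)).of_le ?_
  filter_upwards [eventually_gt_atTop 0] with N hN
  exact ⟨by positivity, add_le_add (Nat.floor_le (by positivity)) le_rfl⟩

theorem ceil (hx : 0 ≤ x) : Pw x fun N => (⌈N ^ x⌉₊ : ℝ) := by
  refine ((rpow x).add ((const 1).mono hx)).of_le ?_
  filter_upwards [eventually_gt_atTop 0] with N hN
  exact ⟨by positivity, (Nat.ceil_lt_add_one (by positivity)).le⟩

theorem exp_neg (hc : 0 < c) (hy : 0 < y) (x : ℝ) : Pw x fun N => Real.exp (-c * N ^ y) := by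
  refine ((isLittleO_exp_neg_mul_rpow_atTop hc (x / y)).isBigO.comp_tendsto
    (tendsto_rpow_atTop hy)).congr' EventuallyEq.rfl ?_
  filter_upwards [eventually_gt_atTop 0] with N hN
  simp only [Function.comp_apply]
  rw [← Real.rpow_mul hN.le, mul_div_cancel₀ _ hy.ne']

/-- `(1 - (K N^{-y})²)^{m N}` decays faster than any power if `m N ≥ N^{3y}`. -/
theorem decay (hy : 0 < y) {K : ℝ} (hK : 1 ≤ K) {m : ℝ → ℕ} (hm : ∀ N, N ^ (3 * y) ≤ m N) (x : ℝ) :
    Pw x fun N => (1 - (K * N ^ (-y)) ^ 2) ^ m N := by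
  refine (exp_neg one_pos hy x).of_le ?_
  filter_upwards [((rpow (-y)).cmul K).ev0 (by linarith) one_pos, eventually_gt_atTop 0]
    with N h hN
  have h0 : 0 < N ^ (-y) := Real.rpow_pos_of_pos hN _
  have h1 : (K * N ^ (-y)) ^ 2 ≤ 1 := pow_le_one₀ (by positivity) h
  refine ⟨pow_nonneg (by linarith) _, ?_⟩
  have h2 : 1 - (K * N ^ (-y)) ^ 2 ≤ Real.exp (-(N ^ (-y)) ^ 2) := by
    have h3 := Real.add_one_le_exp (-(N ^ (-y)) ^ 2)
    have h4 : (N ^ (-y)) ^ 2 ≤ (K * N ^ (-y)) ^ 2 := by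
      gcongr
      exact le_mul_of_one_le_left h0.le hK
    linarith
  refine (pow_le_pow_left₀ (by linarith) h2 _).trans ?_
  rw [← Real.exp_nat_mul]
  refine Real.exp_le_exp.2 ?_
  have h5 : N ^ (3 * y) * (N ^ (-y)) ^ 2 = N ^ y := by
    rw [sq, ← Real.rpow_add hN, ← Real.rpow_add hN]
    congr 1
    ring
  have h6 := mul_le_mul_of_nonneg_right (hm N) (sq_nonneg (N ^ (-y)))
  linarith

end Pw

theorem UE.mono {d : ℕ} {N vmax r ρ ρ' M M' η : ℝ} (h : UE d N vmax r ρ M η) (hρ0 : 0 ≤ ρ')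
    (hρ : ρ' ≤ ρ) (hM0 : 0 ≤ M) (hM : M ≤ M') (hη : 0 ≤ η) : UE d N vmax r ρ' M' η := by
  intro v σ hv hv' hσ hr
  refine (h v σ hv hv' hσ hr).mono (abs_of_pos hσ).le ?_ hM0 hM (by positivity) (by gcongr)
  rw [abs_of_nonneg (by positivity)]
  gcongr

theorem PE.of_small {a₀ a L ε₀ : ℝ} (hε₀ : 0 < ε₀)
    (h : ∀ ε : ℝ, 0 < ε → ε ≤ ε₀ → ∀ᶠ N : ℝ in Filter.atTop, ∀ d : ℕ, (d : ℝ) ≤ N →
      UE d N (N ^ (-a₀)) (N ^ (-a)) (N ^ (-ε)) (N ^ ε) (N ^ (-L))) : PE a₀ a L := by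
  intro ε hε
  filter_upwards [h (min ε ε₀) (lt_min hε hε₀) (min_le_right _ _), Filter.eventually_ge_atTop 1]
    with N h1 hN d hd
  exact (h1 d hd).mono (by positivity)
    (Real.rpow_le_rpow_of_exponent_le hN (neg_le_neg (min_le_left _ _))) (by positivity)
    (Real.rpow_le_rpow_of_exponent_le hN (min_le_left _ _)) (by positivity)

theorem PE.mono {a₀ a L L' : ℝ} (h : PE a₀ a L) (hL : L' ≤ L) : PE a₀ a L' := by
  intro ε hε
  filter_upwards [h ε hε, Filter.eventually_ge_atTop 1] with N h1 hN d hd v σ hv hv' hσ hr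
  refine (h1 d hd v σ hv hv' hσ hr).mono (abs_of_pos hσ).le (abs_of_nonneg (by positivity)).le
    (by positivity) le_rfl (by positivity) ?_
  have := Real.rpow_le_rpow_of_exponent_le hN (neg_le_neg hL)
  gcongr

theorem pe_base {a₀ a L : ℝ} (ha₀ : 0 < a₀) (hL : L ≤ a) : PE a₀ a L := by
  intro ε hε
  filter_upwards [(Pw.rpow (-a₀)).ev0 (by linarith) (show (0 : ℝ) < 1 / 4 by norm_num),
    (Pw.const 8).ev1 hε, Filter.eventually_ge_atTop 1] with N h1 h2 hN d hd
  exact ue_base hd h1 (by positivity) (Real.rpow_le_one_of_one_le_of_nonpos hN (by linarith))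
    (Real.rpow_le_rpow_of_exponent_le hN (neg_le_neg hL)) h2

/-- WLOG `ε ≤ a₀/2` (`UE.mono`).  Take `n ≥ L / (a' + α/2)`, `Dn` from `ue_step n`, `ε' > 0` with
`(Dn + 5) ε' ≤ ε`, `8 ε' ≤ α`, `8 ε' ≤ a₀`, then `K ≥ max 1 (L / ε')`, `C`, and for large `N`:
`τ = ρ = N^{-ε'}`, `M = N^{ε'}`, `m = ⌊N^{3ε'}⌋₊`, `r₁ = N^{-a'}`, `r₂ = N^{-(a + α/2)}`,
`κ' = N^{-a+α}`, `κb = N^{-a'-α/2}`, `ρ' = N^{-ε}`, `M' = N^ε`;
`(1 - K²τ²)^{m+1} ≤ exp(-N^{ε'}) ≤ N^{-2L}`.  Every condition has the form `c N^x ≤ N^y`, `x < y`,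
eventually. -/
theorem pe_step {a₀ a a' α L L' : ℝ} (ha₀ : 0 < a₀) (hα : 0 < α) (ha' : 0 < a')
    (h1 : a' + 3 * α / 2 ≤ a) (h2 : a' + α / 2 ≤ a₀) (h3 : L ≤ L' + a) (h4 : a ≤ L)
    (H1 : PE a₀ a' L') (H2 : PE a₀ (a + α / 2) L) : PE a₀ a L := by
  refine PE.of_small (ε₀ := a₀ / 4) (by positivity) fun ε hε hε' => ?_
  have hb : 0 < a' + α / 2 := by positivity
  obtain ⟨n, hn⟩ := exists_nat_ge (L / (a' + α / 2))
  rw [div_le_iff₀ hb] at hn
  obtain ⟨Dn, hD⟩ := ue_step n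
  obtain ⟨e, he, e1, e2, e3⟩ : ∃ e : ℝ, 0 < e ∧ (Dn + 5) * e ≤ ε ∧ 8 * e ≤ α ∧ 8 * e ≤ a₀ := by
    refine ⟨min (ε / (Dn + 5)) (min (α / 8) (a₀ / 8)), by positivity, ?_, ?_, ?_⟩
    · rw [mul_comm, ← le_div_iff₀ (by positivity)]
      exact min_le_left _ _
    · linarith [(min_le_right (ε / (Dn + 5)) _).trans (min_le_left (α / 8) (a₀ / 8))]
    · linarith [(min_le_right (ε / (Dn + 5)) _).trans (min_le_right (α / 8) (a₀ / 8))]
  have hDe : 0 ≤ Dn * e := by positivity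
  obtain ⟨K, hK⟩ := exists_nat_ge (max 1 (L / e))
  have hK1 : (1 : ℝ) ≤ K := (le_max_left _ _).trans hK
  have hK2 : L ≤ K * e := by
    rw [← div_le_iff₀ he]
    exact (le_max_right _ _).trans hK
  obtain ⟨C, -, hC⟩ := hD K (by exact_mod_cast hK1)
  have pm := Pw.floor (x := 3 * e) (by positivity)
  have pA := (((Pw.rpow e).cmul C).pow Dn).div (-e)
  have pδ : Pw (-L) fun N => N ^ (-a) * (N ^ (-L') + (N ^ (-(a' + α / 2))) ^ n + (N ^ (-e)) ^ K) +
      N ^ (-L) :=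
    (((Pw.rpow (-a)).mul ((((Pw.rpow (-L')).mono (y := a - L) (by linarith)).add
      (((Pw.rpow _).pow n).mono (by linarith))).add
      (((Pw.rpow _).pow K).mono (by linarith)))).mono (by linarith)).add (Pw.rpow _)
  have pd := Pw.decay he hK1 (m := fun N => ⌊N ^ (3 * e)⌋₊ + 1)
    (fun N => by push_cast; exact (Nat.lt_floor_add_one _).le) (2 * (a - L))
  filter_upwards [H1 e he, H2 e he, Filter.eventually_ge_atTop 1,
    (Pw.rpow (-a₀)).ev0 (by linarith) (show (0 : ℝ) < 1 / 4 by norm_num),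
    ((Pw.rpow (-(a' + α / 2))).cmul C).ev0 (by linarith) one_pos,
    (((Pw.rpow (-e)).cmul K).cmul 8).ev0 (by linarith) one_pos,
    ((Pw.rpow (-(a' + α / 2))).cmul (2 * C)).ev2 (y := -e) (z := -a') (by linarith),
    ((Pw.rpow (-ε)).cmul (2 * C)).ev1 (y := -e) (by linarith),
    ((Pw.rpow (-a)).mul (pm.cmul 2).sqrt).ev1 (y := -a + α) (by linarith),
    ((pm.cmul (2 * C)).mul ((Pw.rpow (-a)).pow 2)).ev2 (y := -a + α) (z := -(a + α / 2))
      (by push_cast; linarith),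
    (((Pw.rpow (-a₀)).sqrt.cmul 3).mul pm).ev0 (by linarith) one_pos,
    ((pm.mul pA).add ((Pw.const 1).mono (by linarith))).ev1 (y := ε) (by linarith),
    ((((pm.cmul 3).mul pA).mul pδ).add ((((Pw.rpow (-a)).cmul 18).mul pd.sqrt).mono
      (by linarith))).ev2 (y := ε) (z := -L) (by linarith),
    (((Pw.rpow (-a₀)).sqrt.div (-a)).mul ((Pw.rpow ε).mul (Pw.rpow (-L)))).ev0 (by linarith)
      one_pos] with N u1 u2 hN c1 c2 c3 c4 c5 c6 c7 c8 c9 c10 c11 d hd
  have hN0 : 0 < N := by linarith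
  exact hC d ⌊N ^ (3 * e)⌋₊ N _ _ _ _ _ _ _ _ (N ^ (-e)) (N ^ (-(a' + α / 2))) (N ^ (-a + α)) _ _ _
    hd c1 (Real.rpow_le_rpow_of_exponent_le hN (by linarith)) c2 (by positivity) c3
    (Real.one_le_rpow hN he.le) (by positivity) (by positivity) (by positivity) (by positivity)
    (by positivity) (by positivity) le_rfl c4 (by positivity) c5 c6
    (Real.rpow_le_rpow_of_exponent_le hN (by linarith)) c7 c8 c9 c10 c11 (u1 d hd) (u2 d hd)

/-- Let `J ≥ 1` with `J a₀/2 ≥ L`, `α = a₀/(8J)`, `a_j = a₀/2 + 2 α j`, `L_j = j a₀/2`.  By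
induction on `j ≤ J`: `∀ a ≥ a_j, PE a₀ a L_j` (inner induction on `k` with `L_j - a ≤ k α/2`);
finally lower `L_J` to `L` (monotonicity of `PE` in `L` via `Eng.mono`). -/
theorem pe_all {a₀ : ℝ} (ha₀ : 0 < a₀) (L : ℝ) : PE a₀ (3 * a₀ / 4) L := by
  obtain ⟨J, hJ⟩ := exists_nat_ge (max 1 (L / (a₀ / 2)))
  have hJ1 : (1 : ℝ) ≤ J := (le_max_left _ _).trans hJ
  have hJ2 : L ≤ J * (a₀ / 2) := by
    rw [← div_le_iff₀ (by positivity)]
    exact (le_max_right _ _).trans hJ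
  obtain ⟨α, hα, hαJ⟩ : ∃ α : ℝ, 0 < α ∧ J * α = a₀ / 8 :=
    ⟨a₀ / 8 / J, by positivity, by field_simp⟩
  have key : ∀ j : ℕ, j ≤ J → ∀ a, a₀ / 2 + 2 * (j * α) ≤ a → PE a₀ a (j * (a₀ / 2)) := by
    intro j
    induction j with
    | zero => exact fun _ a ha => pe_base ha₀ (by push_cast at *; linarith)
    | succ j ih =>
      intro hj
      have hj' : ((j : ℝ) + 1) * α ≤ J * α := by
        gcongr
        exact_mod_cast hj
      have hjα : 0 ≤ j * α := by positivity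
      have inner : ∀ k : ℕ, ∀ a, a₀ / 2 + 2 * ((j + 1) * α) ≤ a →
          (j + 1) * (a₀ / 2) - a ≤ k * (α / 2) → PE a₀ a ((j + 1) * (a₀ / 2)) := by
        intro k
        induction k with
        | zero => exact fun a _ ha => pe_base ha₀ (by push_cast at *; linarith)
        | succ k ihk =>
          intro a ha hk
          rcases le_total ((j + 1) * (a₀ / 2)) a with h | h
          · exact pe_base ha₀ h
          · push_cast at hk
            exact pe_step ha₀ hα (a' := a₀ / 2 + 2 * (j * α)) (by positivity) (by linarith)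
              (by linarith) (by linarith) h (ih (by omega) _ le_rfl)
              (ihk _ (by linarith) (by linarith))
      intro a ha
      push_cast at ha ⊢
      obtain ⟨k, hk⟩ := exists_nat_ge (((j + 1) * (a₀ / 2) - a) / (α / 2))
      rw [div_le_iff₀ (by positivity)] at hk
      exact inner k a ha hk
  exact (key J le_rfl _ (by linarith)).mono hJ2

end Crest.Agent.R285
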