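import Crest.Agent.R285.Engine
import Crest.Agent.R285.Chain

/-! Row 285: choice of the parameters. -/

set_option autoImplicit false

namespace Crest.Agent.R285

open MeasureTheory ProbabilityTheory Crest.OracleSampling Set
open scoped ENNReal NNReal InnerProductSpace

/-- WLOG `ε ≤ 1`.  `a₀ = ε/2`, `L = 4`, `n ≥ L/a₀`, `Dn` from `samp n`, `ε' > 0` with
`(Dn + 4) ε' ≤ ε/4`, `8 ε' ≤ a₀`, `K ≥ max 1 (L/ε')`; engine `pe_all a₀ L` at `ε'`.  For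
`v ≤ v₀ = N^{-a₀}` apply `samp` to the known point (`acc_known`, `ρ₀ = 0`) with `κb = N^{-a₀}`,
`τ = N^{-ε'}`, `σ = √v N^{3a₀/4}`, `ρ = N^{-ε'} √v / 2` (`Eng.mono`), `M = N^{ε'}`,
`ζ = σ N^{-L}`: `Aq = (C M)^Dn`, `δ = 3 Aq N^{-L}`.  Then `chain` with `t = K τ`,
`m₁ = ⌈N^{a₀ + 3ε'}⌉₊`, `m₂ = ⌈N^{3ε'}⌉₊`, `r = 1/(C N)`. -/
theorem final_eventually {ε : ℝ} (hε : 0 < ε) : ∀ᶠ N : ℝ in Filter.atTop, ∀ d : ℕ, (d : ℝ) ≤ N →
    ∃ (q : ℕ) (A : QueryAlg d q), (q : ℝ) ≤ N ^ ε ∧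
      ∀ V : E d → ℝ, Admissible d V → Succeeds A V := by
  obtain ⟨a₀, ha₀, rfl⟩ : ∃ a₀ : ℝ, 0 < a₀ ∧ ε = 2 * a₀ := ⟨ε / 2, by positivity, by ring⟩
  obtain ⟨L, hL⟩ : ∃ L : ℝ, L = 2 * a₀ + 4 := ⟨_, rfl⟩
  obtain ⟨n, hn⟩ := exists_nat_ge (L / a₀)
  rw [div_le_iff₀ ha₀] at hn
  obtain ⟨Dn, hD⟩ := samp n
  obtain ⟨e, he, e1⟩ : ∃ e : ℝ, 0 < e ∧ (Dn + 8) * e ≤ a₀ :=
    ⟨a₀ / (Dn + 8), by positivity, le_of_eq (by field_simp)⟩
  have hDe : 0 ≤ Dn * e := by positivity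
  obtain ⟨K, hK⟩ := exists_nat_ge (max 1 (L / e))
  have hK1 : (1 : ℝ) ≤ K := (le_max_left _ _).trans hK
  have hK2 : L ≤ K * e := by
    rw [← div_le_iff₀ he]
    exact (le_max_right _ _).trans hK
  obtain ⟨C, hC1, hC⟩ := hD K (by exact_mod_cast hK1)
  obtain ⟨C₂, hC₂, hch⟩ := chain
  have p1 := Pw.ceil (x := a₀ + 3 * e) (by positivity)
  have p2 := Pw.ceil (x := 3 * e) (by positivity)
  have p12 := p1.add (p2.mono (by linarith))
  have pA := ((Pw.rpow e).cmul C).pow Dn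
  have pδ : Pw (Dn * e - L) fun N => (C * N ^ e) ^ Dn *
      (N ^ (-a₀) * (N ^ (3 * a₀ / 4) * N ^ (-L)) + ((N ^ (-a₀)) ^ n + (N ^ (-e)) ^ K)) :=
    (pA.mul ((((Pw.rpow (-a₀)).mul ((Pw.rpow (3 * a₀ / 4)).mul (Pw.rpow (-L)))).mono (y := -L)
      (by linarith)).add ((((Pw.rpow _).pow n).mono (by linarith)).add
        (((Pw.rpow _).pow K).mono (by linarith))))).mono (by linarith)
  have pd := Pw.decay he hK1 (m := fun N => ⌈N ^ (3 * e)⌉₊) (fun N => Nat.le_ceil _) (-3)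
  have key : ∀ N : ℝ, 0 < N → N ^ (-a₀) * N ^ (-e) * N ^ (-e) ≤ N ^ (-a₀) * (K * N ^ (-e)) ^ 2 :=
    fun N hN => by
      rw [mul_assoc, ← sq]
      gcongr
      exact le_mul_of_one_le_left (by positivity) hK1
  have pe : Pw (-2) fun N =>
      Real.exp (-(N ^ (-a₀) * (K * N ^ (-e)) ^ 2 * (⌈N ^ (a₀ + 3 * e)⌉₊ : ℝ) / 8)) := by
    refine (Pw.exp_neg (c := 1 / 8) (by norm_num) he (-2)).of_le ?_
    filter_upwards [Filter.eventually_gt_atTop 0] with N hN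
    refine ⟨(Real.exp_pos _).le, Real.exp_le_exp.2 ?_⟩
    have h1 := mul_le_mul (key N hN) (Nat.le_ceil (N ^ (a₀ + 3 * e))) (by positivity)
      (by positivity)
    have h2 : N ^ (-a₀) * N ^ (-e) * N ^ (-e) * N ^ (a₀ + 3 * e) = N ^ e := by
      rw [← Real.rpow_add hN, ← Real.rpow_add hN, ← Real.rpow_add hN]
      congr 1
      ring
    linarith
  have ps : Pw (1 / 2) fun N => √N := by simpa using (Pw.rpow 1).sqrt
  filter_upwards [pe_all ha₀ L e he, Filter.eventually_ge_atTop 1,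
    (Pw.rpow (-a₀)).ev0 (by linarith) (show (0 : ℝ) < 1 / 4 by norm_num),
    ((Pw.rpow (-a₀)).cmul C).ev0 (by linarith) one_pos,
    (((Pw.rpow (-e)).cmul K).cmul 8).ev0 (by linarith) one_pos,
    (((Pw.rpow (-a₀)).mul (Pw.rpow (3 * a₀ / 4))).cmul C).ev (y := -e) (c := 1 / 2) (by linarith)
      (by norm_num),
    ((Pw.rpow (-a₀)).mul ((Pw.rpow (3 * a₀ / 4)).mul (Pw.rpow (-L)))).ev0 (by linarith) one_pos,
    (pδ.cmul 8).ev1 (y := -a₀ + -e + -e) (by linarith),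
    (p2.mul pδ).ev0 (by linarith) one_pos,
    ((Pw.rpow (-a₀)).mul pd).ev (y := -2) (c := C₂⁻¹ ^ 2) (by linarith) (by positivity),
    ((ps.cmul C₂).mul (pe.add ((p12.mul pδ).mono (by linarith)))).ev (y := -1) (c := C₂⁻¹)
      (by linarith) (by positivity),
    (p12.mul pA).ev1 (y := 2 * a₀) (by linarith)]
    with N u1 hN c1 c2 c3 c4 c5 c6 c7 c8 c9 c10 d hd
  have hN0 : 0 < N := by linarith
  have hC0 : 0 < C₂ := by linarith
  have hτ : 0 < N ^ (-e) := by positivity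
  refine Exists.imp (fun q => Exists.imp fun A h => ⟨h.1.trans c10, h.2⟩) <|
    hch d ⌈N ^ (a₀ + 3 * e)⌉₊ ⌈N ^ (3 * e)⌉₊ N (N ^ (-a₀)) (K * N ^ (-e)) ((C * N ^ e) ^ Dn)
    ((C * N ^ e) ^ Dn *
      (N ^ (-a₀) * (N ^ (3 * a₀ / 4) * N ^ (-L)) + ((N ^ (-a₀)) ^ n + (N ^ (-e)) ^ K)))
    (C₂⁻¹ * N ^ (-1 : ℝ)) hd hN (by positivity) c1 (by positivity)
    (by linarith) (by positivity) (by positivity) (fun v hv hv' => ?_) (c6.trans ?_) c7
    (c8.trans (le_of_eq ?_)) (le_of_eq ?_) c9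
  · have hv1 : √v ≤ 1 := Real.sqrt_le_one.2 (by linarith)
    have hv0 : 0 < √v := Real.sqrt_pos.2 hv
    have hζ : N ^ (-a₀) * (√v * N ^ (3 * a₀ / 4) * N ^ (-L)) ≤
        N ^ (-a₀) * (N ^ (3 * a₀ / 4) * N ^ (-L)) := by
      gcongr
      exact mul_le_of_le_one_left (by positivity) hv1
    have := hC d N v (N ^ (-e)) (N ^ (-a₀)) (√v * N ^ (3 * a₀ / 4)) (N ^ (-e) * √v / 2) 0 (N ^ e)
      (√v * N ^ (3 * a₀ / 4) * N ^ (-L)) hd hv (hv'.trans c1) hv' c2 hτ c3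
      (Real.one_le_rpow hN he.le) (by positivity) (by positivity) le_rfl
      (by linarith [mul_le_mul_of_nonneg_right c4 hv0.le]) (by rw [mul_zero]; positivity)
      (by linarith [mul_pos hτ hv0]) (hζ.trans c5)
      (fun v' h1 h2 => by
        have hv'0 : 0 < v' := by linarith
        refine (u1 d hd v' (√v * N ^ (3 * a₀ / 4)) hv'0 (h2.trans hv') (by positivity) ?_).mono
          (abs_of_pos (by positivity)).le ?_ (by positivity) le_rfl (by positivity) le_rfl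
        · rw [mul_left_comm, ← Real.rpow_add hN0, neg_add_cancel, Real.rpow_zero, mul_one]
          exact Real.sqrt_le_sqrt h2
        · have h3 : √v / 2 ≤ √v' := Real.le_sqrt_of_sq_le (by
            rw [div_pow, Real.sq_sqrt hv.le]; linarith)
          rw [abs_of_pos (by positivity), mul_div_assoc]
          gcongr)
      (E d) 0 (fun _ _ => 0) (fun _ a => a) (acc_known measurable_id 0)
    refine this.mono (by simp) fun V a => ?_
    rw [zero_add, ← mul_assoc]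
    have h1 : √v * ((N ^ (-a₀)) ^ n + (N ^ (-e)) ^ K) ≤ (N ^ (-a₀)) ^ n + (N ^ (-e)) ^ K :=
      mul_le_of_le_one_left (by positivity) hv1
    gcongr ?_ * _
    exact mul_le_mul_of_nonneg_left (add_le_add hζ h1) (by positivity)
  · rw [Real.rpow_add hN0, Real.rpow_add hN0]
    exact key N hN0
  · rw [mul_pow, ← Real.rpow_natCast (N ^ (-1 : ℝ)), ← Real.rpow_mul hN0.le]
    norm_num
  · rw [Real.rpow_neg_one]
    field_simp

theorem final : ∀ ε : ℝ, 0 < ε → ∃ C : ℝ, ∀ d : ℕ, 2 ≤ d →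
    ∃ (q : ℕ) (A : QueryAlg d q), (q : ℝ) ≤ C * (d : ℝ) ^ ε ∧
      ∀ V : E d → ℝ, Admissible d V → Succeeds A V := by
  intro ε hε
  obtain ⟨N₀, hN₀⟩ := Filter.eventually_atTop.1 (final_eventually hε)
  refine ⟨(max N₀ 1) ^ ε, fun d hd => ?_⟩
  have hd1 : (1 : ℝ) ≤ d := by exact_mod_cast (by omega : 1 ≤ d)
  obtain ⟨q, A, hq, hA⟩ := hN₀ (max N₀ 1 * d)
    ((le_max_left _ _).trans (le_mul_of_one_le_right (by positivity) hd1)) d
    (le_mul_of_one_le_left (by positivity) (le_max_right _ _))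
  refine ⟨q, A, ?_, hA⟩
  rwa [Real.mul_rpow (by positivity) (by positivity)] at hq

end Crest.Agent.R285
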