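import Crest.Agent.R285.TG
import Crest.Agent.R215.GW
import Crest.Agent.R215.CapAux

/-! Row 285: facts on the standard Gaussian.  Useful: `Crest.Agent.R215` files `Polar`
(`stdGaussian_eq_withDensity`, `integral_stdGaussian`, `integrable_stdGaussian_iff`), `GW`
(`integral_abs_inner`, `map_neg_stdGaussian`), `CapAux` (`integrable_norm_sq`), Mathlib
`charFun_stdGaussian`, `Measure.ext_of_charFun`, `IsGaussian.map_rotation_eq_self`. -/

set_option autoImplicit false

namespace Crest.Agent.R285

open MeasureTheory ProbabilityTheory Crest.OracleSampling Set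
open scoped ENNReal NNReal InnerProductSpace

variable {d : ℕ}

theorem gam_eq_gib : gam d = gib fun x : E d => ‖x‖ ^ 2 / 2 := by
  have h1 := R215.integral_stdGaussian (V := E d) fun _ => 1
  simp only [integral_const, probReal_univ, smul_eq_mul, mul_one, one_mul] at h1
  rw [gam, R215.stdGaussian_eq_withDensity, gib, Measure.tilted]
  congr 1
  funext x
  congr 1
  simp only [neg_div] at h1 ⊢
  rw [eq_div_iff (right_ne_zero_of_mul_eq_one h1.symm), mul_right_comm, ← h1, one_mul]

theorem integrable_exp_norm_gam (a : ℝ) : Integrable (fun ξ : E d => Real.exp (a * ‖ξ‖)) (gam d) := by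
  obtain ⟨C, hC, hi⟩ := IsGaussian.exists_integrable_exp_sq (gam d)
  refine (hi.const_mul (Real.exp (a ^ 2 / (4 * C)))).mono' (by fun_prop)
    (Filter.Eventually.of_forall fun ξ => ?_)
  rw [Real.norm_eq_abs, Real.abs_exp, ← Real.exp_add, Real.exp_le_exp, ← sub_nonneg]
  have : a ^ 2 / (4 * C) + C * ‖ξ‖ ^ 2 - a * ‖ξ‖ = (a - 2 * C * ‖ξ‖) ^ 2 / (4 * C) := by
    field_simp
    ring
  rw [this]
  positivity

theorem integrable_gam_of_le {Y : Type*} [NormedAddCommGroup Y] {f : E d → Y}
    (hf : AEStronglyMeasurable f (gam d)) {C a : ℝ} (h : ∀ ξ, ‖f ξ‖ ≤ C * Real.exp (a * ‖ξ‖)) :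
    Integrable f (gam d) :=
  ((integrable_exp_norm_gam a).const_mul C).mono' hf (Filter.Eventually.of_forall h)

theorem Lip.integrable_gam {Y : Type*} [NormedAddCommGroup Y] {L : ℝ} {f : E d → Y} (hf : Lip L f)
    (x : E d) (σ : ℝ) : Integrable (fun ξ => f (x + σ • ξ)) (gam d) := by
  refine ((integrable_const ‖f x‖).add
    ((R215.integrable_norm_gauss (V := E d)).const_mul (L * |σ|))).mono'
    (hf.continuous.comp (by fun_prop)).aestronglyMeasurable
    (Filter.Eventually.of_forall fun ξ => ?_)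
  have := hf.norm_le (x + σ • ξ) x
  rwa [add_sub_cancel_left, norm_smul, Real.norm_eq_abs, ← mul_assoc] at this

theorem integral_norm_sq_gam : ∫ ξ, ‖ξ‖ ^ 2 ∂gam d = d := by
  rcases Nat.eq_zero_or_pos d with rfl | hd
  · simp [EuclideanSpace.norm_eq]
  · have h := R215.gauss_norm_sq_mul (V := E d) (by rw [finrank_euclideanSpace_fin]; exact hd) (f := fun _ => 1)
      measurable_const (C := 1) (fun x _ => by simp) (fun t _ x => by simp)
    simpa using h

theorem integral_norm_gam_le : ∫ ξ, ‖ξ‖ ∂gam d ≤ √d := by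
  have hm : MemLp (fun ξ : E d => ‖ξ‖) 2 (gam d) := IsGaussian.memLp_two_id.norm
  have h := variance_nonneg (fun ξ : E d => ‖ξ‖) (gam d)
  rw [variance_eq_sub hm] at h
  simp only [Pi.pow_apply] at h
  rw [integral_norm_sq_gam] at h
  exact Real.le_sqrt_of_sq_le (by linarith)

theorem gam_rot' {a b : ℝ} (h : a ^ 2 + b ^ 2 = 1) :
    ((gam d).prod (gam d)).map (fun p => (a • p.1 + b • p.2, -b • p.1 + a • p.2)) =
      (gam d).prod (gam d) := by
  have hn : ‖(⟨a, b⟩ : ℂ)‖ = 1 := by
    rw [Complex.norm_eq_sqrt_sq_add_sq, h, Real.sqrt_one]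
  have h0 : (⟨a, b⟩ : ℂ) ≠ 0 := by
    intro h0
    rw [h0, norm_zero] at hn
    exact zero_ne_one hn
  have hc : Real.cos (Complex.arg ⟨a, b⟩) = a := by rw [Complex.cos_arg h0, hn, div_one]
  have hs : Real.sin (Complex.arg ⟨a, b⟩) = b := by rw [Complex.sin_arg, hn, div_one]
  have := IsGaussian.map_rotation_eq_self (μ := gam d) integral_id_stdGaussian (Complex.arg ⟨a, b⟩)
  refine Eq.trans ?_ this
  congr 1
  funext p
  rw [ContinuousLinearMap.rotation_apply, hc, hs]

/-- Sum of independent Gaussians (characteristic functions). -/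
theorem gam_add {σ₁ σ₂ σ : ℝ} (h : σ ^ 2 = σ₁ ^ 2 + σ₂ ^ 2) :
    ((gam d).prod (gam d)).map (fun p => σ₁ • p.1 + σ₂ • p.2) = (gam d).map fun ξ => σ • ξ := by
  have hf : ((gam d).prod (gam d)).map (fun p => σ • p.1) = (gam d).map fun ξ => σ • ξ := by
    have := Measure.map_map (μ := (gam d).prod (gam d)) (g := fun ξ : E d => σ • ξ)
      (f := Prod.fst) (by fun_prop) measurable_fst
    rw [Measure.map_fst_prod, measure_univ, one_smul] at this
    exact this.symm
  rcases eq_or_ne σ 0 with rfl | hσ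
  · have h1 : σ₁ = 0 := by nlinarith [sq_nonneg σ₁, sq_nonneg σ₂]
    have h2 : σ₂ = 0 := by nlinarith [sq_nonneg σ₁, sq_nonneg σ₂]
    rw [← hf, h1, h2]
    simp
  · have hr := gam_rot' (d := d) (a := σ₁ / σ) (b := σ₂ / σ) (by field_simp; linarith)
    rw [← hf]
    conv_rhs => rw [← hr]
    rw [Measure.map_map (by fun_prop) (by fun_prop)]
    congr 1
    funext p
    simp only [Function.comp_apply, smul_add, smul_smul, mul_div_cancel₀ _ hσ]

theorem integral_gam_add {σ₁ σ₂ σ : ℝ} (h : σ ^ 2 = σ₁ ^ 2 + σ₂ ^ 2) {f : E d → ℝ}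
    (hf : Measurable f) (x : E d) (hi : Integrable (fun ξ => f (x + σ • ξ)) (gam d)) :
    ∫ ξ₁, ∫ ξ₂, f (x + σ₁ • ξ₁ + σ₂ • ξ₂) ∂gam d ∂gam d = ∫ ξ, f (x + σ • ξ) ∂gam d := by
  have hg : Measurable fun ξ : E d => f (x + ξ) := hf.comp (by fun_prop)
  have h1 : Integrable (fun ξ : E d => f (x + ξ)) ((gam d).map fun ξ => σ • ξ) :=
    (integrable_map_measure hg.aestronglyMeasurable (by fun_prop)).2 hi
  have h2 := integral_map (μ := gam d) (φ := fun ξ : E d => σ • ξ) (by fun_prop)
    hg.aestronglyMeasurable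
  rw [← gam_add h] at h1 h2
  rw [integrable_map_measure hg.aestronglyMeasurable (by fun_prop)] at h1
  rw [← h2, integral_map (by fun_prop) hg.aestronglyMeasurable]
  simp only [add_assoc]
  exact (integral_prod _ h1).symm

/-- Rotation invariance of the product of two standard Gaussians. -/
theorem gam_rot {a b : ℝ} (h : a ^ 2 + b ^ 2 = 1) :
    ((gam d).prod (gam d)).map (fun p => (a • p.1 + b • p.2, -b • p.1 + a • p.2)) =
      (gam d).prod (gam d) := by
  exact gam_rot' h

/-- The pair of coordinates of `Measure.pi` (`measurePreserving_finTwoArrow` / `piFinTwo`). -/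
theorem pi_gam_eq_map :
    (Measure.pi fun _ : Fin 2 => gam d) = ((gam d).prod (gam d)).map fun p => ![p.1, p.2] := by
  exact ((measurePreserving_finTwoArrow (gam d)).symm _).map_eq.symm

theorem integral_abs_shift_le {ρ g : E d → ℝ} (w : E d) (hρ : Integrable ρ)
    (hg : Continuous g) (hgi : Integrable g)
    (hd : ∀ (x : E d) (t : ℝ), HasDerivAt (fun t : ℝ => ρ (x - t • w)) (g (x - t • w)) t) :
    ∫ x, |ρ (x - w) - ρ x| ≤ ∫ x, |g x| := by
  have hI : Integrable (fun p : ℝ × E d => |g (p.2 - p.1 • w)|)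
      ((volume.restrict (Ioc (0 : ℝ) 1)).prod volume) := by
    rw [integrable_prod_iff (by fun_prop)]
    refine ⟨Filter.Eventually.of_forall fun t => (hgi.comp_sub_right (t • w)).abs, ?_⟩
    have : (fun t : ℝ => ∫ x : E d, ‖|g (x - t • w)|‖) = fun _ => ∫ x, ‖|g x|‖ := by
      funext t
      exact integral_sub_right_eq_self (fun x => ‖|g x|‖) _
    simp only [this]
    exact integrable_const _
  calc ∫ x, |ρ (x - w) - ρ x| ≤ ∫ x, ∫ t in Ioc (0 : ℝ) 1, |g (x - t • w)| := by
        refine integral_mono ((hρ.comp_sub_right w).sub hρ).abs hI.integral_prod_right fun x => ?_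
        have h1 := intervalIntegral.integral_eq_sub_of_hasDerivAt (a := 0) (b := 1)
          (fun t _ => hd x t) (Continuous.intervalIntegrable (by fun_prop) _ _)
        simp only [one_smul, zero_smul, sub_zero] at h1
        simp only [← h1, ← intervalIntegral.integral_of_le zero_le_one]
        exact intervalIntegral.abs_integral_le_integral_abs zero_le_one
    _ = ∫ t in Ioc (0 : ℝ) 1, ∫ x, |g (x - t • w)| :=
        (integral_integral_swap (f := fun (t : ℝ) (x : E d) => |g (x - t • w)|) hI).symm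
    _ = ∫ x, |g x| := by
        have : (fun t : ℝ => ∫ x : E d, |g (x - t • w)|) = fun _ => ∫ x, |g x| := by
          funext t
          exact integral_sub_right_eq_self (fun x => |g x|) _
        simp [this]

theorem gib_real {U : E d → ℝ} {A : Set (E d)} (hA : MeasurableSet A) :
    (gib U).real A = (∫ x, A.indicator (fun _ => (1 : ℝ)) x * Real.exp (-U x)) /
      ∫ x, Real.exp (-U x) := by
  rw [← integral_indicator_one hA, gib, integral_tilted, ← integral_div]
  congr 1
  funext x
  simp only [smul_eq_mul, Pi.one_def]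
  ring

/-- Total variation under a shift.  With `ρ = e^{-U}`: the left side is
`|∫_B (ρ(x - w) - ρ x)| / ∫ρ`, and `|ρ(x - w) - ρ x| ≤ ∫₀¹ |⟪∇U (x - t w), w⟫| ρ(x - t w) dt`;
use Tonelli (`lintegral`) and translation invariance. -/
theorem shift_tv {U : E d → ℝ} (hU : ContDiff ℝ 1 U) (hi : Integrable fun x => Real.exp (-U x))
    (w : E d) (hw : Integrable (fun x => ⟪gradient U x, w⟫_ℝ) (gib U)) {B : Set (E d)}
    (hB : MeasurableSet B) :
    |(gib U).real {x | x + w ∈ B} - (gib U).real B| ≤ ∫ x, |⟪gradient U x, w⟫_ℝ| ∂gib U := by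
  have hZ : 0 < ∫ x, Real.exp (-U x) := integral_exp_pos hi
  have hB' : MeasurableSet {x | x + w ∈ B} := (measurable_add_const w) hB
  have hgc : Continuous fun x => ⟪gradient U x, w⟫_ℝ := by
    have : (fun x => ⟪gradient U x, w⟫_ℝ) = fun x => fderiv ℝ U x w := by
      funext x
      simp [gradient]
    rw [this]
    exact (hU.continuous_fderiv one_ne_zero).clm_apply continuous_const
  have hUc := hU.continuous
  have hgi : Integrable fun x => Real.exp (-U x) * ⟪gradient U x, w⟫_ℝ :=
    (integrable_tilted_iff hi _).1 hw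
  have key := integral_abs_shift_le (ρ := fun x => Real.exp (-U x))
    (g := fun x => Real.exp (-U x) * ⟪gradient U x, w⟫_ℝ) w hi (by fun_prop) hgi (fun x t => by
      have h1 : HasDerivAt (fun t : ℝ => x - t • w) (-w) t := by
        simpa using ((hasDerivAt_id' t).smul_const w).const_sub x
      have h2 := ((hU.differentiable one_ne_zero (x - t • w)).hasFDerivAt.comp_hasDerivAt t h1).neg.exp
      refine h2.congr_deriv ?_
      simp [gradient])
  have e1 : ∫ x, {x | x + w ∈ B}.indicator (fun _ => (1 : ℝ)) x * Real.exp (-U x) =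
      ∫ x, B.indicator (fun _ => (1 : ℝ)) x * Real.exp (-U (x - w)) := by
    rw [← integral_sub_right_eq_self _ w]
    congr 1
    funext x
    have : x - w ∈ {x | x + w ∈ B} ↔ x ∈ B := by rw [mem_ofPred_eq, sub_add_cancel]
    by_cases hx : x ∈ B
    · rw [indicator_of_mem hx, indicator_of_mem (this.2 hx)]
    · rw [indicator_of_notMem hx, indicator_of_notMem (mt this.1 hx)]
  have hb : ∀ {φ : E d → ℝ}, Integrable φ →
      Integrable fun x => B.indicator (fun _ => (1 : ℝ)) x * φ x := fun hφ =>
    hφ.bdd_mul (c := 1) (measurable_const.indicator hB).aestronglyMeasurable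
      (Filter.Eventually.of_forall fun x => R215.abs_indicator_one_le B x)
  have hi' : Integrable fun x => Real.exp (-U (x - w)) := hi.comp_sub_right w
  rw [gib_real hB', gib_real hB, e1, ← sub_div, abs_div, abs_of_pos hZ, gib, integral_tilted,
    ← integral_sub (hb hi') (hb hi)]
  simp only [smul_eq_mul, div_mul_eq_mul_div, integral_div]
  refine div_le_div_of_nonneg_right ((abs_integral_le_integral_abs).trans ?_) hZ.le
  refine le_trans (integral_mono ((hb hi').sub (hb hi)).abs (hi'.sub hi).abs fun x => ?_)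
    (key.trans (le_of_eq ?_))
  · simp only [← mul_sub, abs_mul, Pi.sub_apply]
    exact mul_le_of_le_one_left (abs_nonneg _) (R215.abs_indicator_one_le B x)
  · simp only [abs_mul, Real.abs_exp]

/-- Gaussian smoothing of an indicator is Lipschitz: `shift_tv` for `U = ‖·‖²/2`, the set
`{ξ | y + r ξ ∈ B}`, `w = r⁻¹ (x - y)`, and `integral_abs_inner`. -/
theorem lip_smooth_ind {B : Set (E d)} (hB : MeasurableSet B) {r : ℝ} (hr : 0 < r) :
    Lip r⁻¹ fun x => (gam d).real {ξ | x + r • ξ ∈ B} := by
  intro x y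
  have hU : ContDiff ℝ 1 fun x : E d => ‖x‖ ^ 2 / 2 := (contDiff_norm_sq ℝ).div_const 2
  have hg : ∀ z : E d, gradient (fun x : E d => ‖x‖ ^ 2 / 2) z = z := by
    intro z
    refine HasGradientAt.gradient ?_
    rw [hasGradientAt_iff_hasFDerivAt]
    have := (hasStrictFDerivAt_norm_sq z).hasFDerivAt.const_mul (1 / 2 : ℝ)
    refine (this.congr_fderiv ?_).congr_of_eventuallyEq (Filter.Eventually.of_forall fun v => ?_)
    · ext v
      simp
    · ring
  have hi : Integrable fun x : E d => Real.exp (-(‖x‖ ^ 2 / 2)) := by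
    simpa only [neg_div] using R215.integrable_gauss_weight (V := E d)
  have h := shift_tv hU hi (r⁻¹ • (x - y)) (B := {ξ | y + r • ξ ∈ B}) (by
    rw [← gam_eq_gib]
    simp only [hg]
    exact (IsGaussian.integrable_id (μ := gam d)).inner_const _)
    ((by fun_prop : Measurable fun ξ : E d => y + r • ξ) hB)
  rw [← gam_eq_gib] at h
  simp only [hg, R215.integral_abs_inner, mem_ofPred_eq, smul_add, smul_smul,
    mul_inv_cancel₀ hr.ne', one_smul] at h
  have e : ∀ ξ : E d, y + (r • ξ + (x - y)) = x + r • ξ := fun ξ => by abel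
  simp only [e] at h
  refine h.trans ?_
  rw [norm_smul, Real.norm_eq_abs, abs_of_pos (inv_pos.2 hr)]
  refine mul_le_of_le_one_left (by positivity) (Real.sqrt_le_one.2 ?_)
  rw [div_le_one Real.pi_pos]
  exact Real.two_le_pi

end Crest.Agent.R285
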