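import Crest.Agent.R285.Sob

/-! Row 285: closure properties of the classes `Good j` and the resulting `L¹` bounds on iterated
derivatives along `XD`.  All closure statements are proved by induction on `j` (generalizing the
index families): the case `0` is `Sob.lean`, and `BF` of the constructed family is rewritten with
the rules (R4)-(R6). -/

set_option autoImplicit false

namespace Crest.Agent.R285

open MeasureTheory ProbabilityTheory Crest.OracleSampling Set
open scoped ENNReal NNReal InnerProductSpace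

section
variable {I I' : Dat → Type} [∀ D, Fintype (I D)] [∀ D, Fintype (I' D)]

theorem Good.g0 {j : ℕ} {S : Fam I} (h : Good j S) : G0 S := by
  cases j with
  | zero => exact h
  | succ j => exact h.1

theorem Good.tg {j : ℕ} {S : Fam I} (h : Good j S) (D : Dat) (i : I D) : TG (S D i) :=
  h.g0.tg D i

theorem Good.of_eq {j : ℕ} {S S' : Fam I} (h : Good j S) (e : ∀ D i p, S' D i p = S D i p) :
    Good j S' := by
  obtain rfl : S' = S := by funext D i p; exact e D i p
  exact h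

lemma good_e_le (k : Fin 2) (D : Dat) : |D.e k| ≤ 1 := (norm_le_pi_norm D.e k).trans D.he

lemma good_h_le (D : Dat) : |D.h| ≤ 1 := by rw [abs_of_pos D.hpos]; exact D.hle

theorem Good.pred {j : ℕ} {S : Fam I} (h : Good (j + 1) S) : Good j S := by
  induction j generalizing S with
  | zero => exact h.1
  | succ j ih => exact ⟨h.1, ih h.2⟩

theorem Good.congr {j : ℕ} {S S' : Fam I} (h : Good j S) (hS' : ∀ D i, TG (S' D i))
    (e : ∀ D i (p : Pt D.d), ‖p.1‖ < 1 / 2 → S' D i p = S D i p) : Good j S' := by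
  induction j generalizing S S' with
  | zero => exact G0.congr h hS' e
  | succ j ih =>
    exact ⟨h.1.congr hS' e, ih h.2 (fun D i => TG.BD D (hS' D i))
      fun D i p hp => BD_congr D (e D i) p hp⟩

theorem Good.reidx {j : ℕ} {S : Fam I} (h : Good j S) (e : ∀ D, I' D ≃ I D) :
    Good (I := I') j fun D i => S D (e D i) := by
  induction j generalizing S with
  | zero => exact G0.reidx h e
  | succ j ih => exact ⟨h.1.reidx e, ih h.2⟩

theorem Good.zero (j : ℕ) : Good (I := I) j fun _ _ _ => 0 := by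
  induction j with
  | zero => exact G0.zero
  | succ j ih => exact ⟨G0.zero, ih.of_eq fun D i p => congrFun (BD_const D 0) p⟩

theorem Good.add {j : ℕ} {S S' : Fam I} (h : Good j S) (h' : Good j S') :
    Good (I := I) j fun D i p => S D i p + S' D i p := by
  induction j generalizing S S' with
  | zero => exact G0.add h h'
  | succ j ih =>
    exact ⟨h.1.add h'.1, (ih h.2 h'.2).of_eq fun D i p =>
      congrFun (BD_add D (h.tg D i) (h'.tg D i)) p⟩

theorem Good.const_mul {j : ℕ} {S : Fam I} (h : Good j S) (c : Dat → ℝ) {C : ℝ}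
    (hc : ∀ D, |c D| ≤ C) : Good (I := I) j fun D i p => c D * S D i p := by
  induction j generalizing S with
  | zero => exact G0.const_mul h c hc
  | succ j ih =>
    refine ⟨h.1.const_mul c hc, (ih h.2).of_eq fun D i p => ?_⟩
    have := congrFun (BD_mul D (f := fun _ => c D) (Function.HasTemperateGrowth.const _)
      (h.tg D i)) p
    rw [BD_const, zero_mul, zero_add] at this
    exact this

theorem Good.theta_mul {j : ℕ} {S : Fam I} (h : Good j S) (k : Fin 2) :
    Good (I := I) j fun D i p => p.1 k * S D i p := by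
  induction j generalizing S with
  | zero => exact G0.theta_mul h k
  | succ j ih =>
    refine ⟨h.1.theta_mul k, ((h.pred.const_mul (fun D => D.e k) (good_e_le k)).add
      (ih h.2)).of_eq fun D i p => ?_⟩
    have := congrFun (BD_mul D (tg_theta D.d k) (h.tg D i)) p
    rw [BD_theta] at this
    exact this

theorem Good.sum {j : ℕ} {ι : Type*} (s : Finset ι) {S : ι → Fam I}
    (h : ∀ a ∈ s, Good j (S a)) : Good (I := I) j fun D i p => ∑ a ∈ s, S a D i p := by
  classical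
  induction s using Finset.induction_on with
  | empty => exact (Good.zero j).of_eq fun D i p => by simp
  | insert a s ha ih =>
    exact ((h a (Finset.mem_insert_self _ _)).add
      (ih fun b hb => h b (Finset.mem_insert_of_mem hb))).of_eq fun D i p => Finset.sum_insert ha

end

/-- The closure properties at level `j`. -/
structure Clo (j : ℕ) : Prop where
  mul : ∀ (ιO ιJ : Type) [Fintype ιO] [DecidableEq ιO] [Nonempty ιO] [Fintype ιJ]
    [DecidableEq ιJ] [Nonempty ιJ] {P : Dat → Type} [∀ D, Fintype (P D)]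
    {S : Fam fun D => (ιJ → Fin D.d) × P D}, Good j S → Good j (mulF (TK ιO ιJ) S)
  par : ∀ {I : Dat → Type} [∀ D, Fintype (I D)] {S : Fam I}, Good j S → ∀ l, Good j (parF l S)
  del : ∀ {I : Dat → Type} [∀ D, Fintype (I D)] {S : Fam fun D => Fin D.d × I D}, Good j S →
    ∀ k, Good j (delF k S)
  root : ∀ (ι : Type) [Fintype ι] [DecidableEq ι] [Nontrivial ι], Good j (TR ι)

theorem clo_zero : Clo 0 :=
  ⟨fun ιO ιJ _ _ _ _ _ _ _ _ _ h => G0.mul ιO ιJ h, fun h l => G0.par h l,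
    fun h k => G0.del h k, fun ι _ _ _ => G0.root ι⟩

/-- Splitting off the value at `none`. -/
def goodOpt (ι α : Type) : (Option ι → α) ≃ α × (ι → α) :=
  Equiv.piOptionEquivProd (β := fun _ => α)

lemma good_ms_opt {ι α : Type} [Fintype ι] (x : α × (ι → α)) :
    ms ((goodOpt ι α).symm x) = x.1 ::ₘ ms x.2 := ms_option _

lemma good_del_sum (D : Dat) {ι : Type*} (s : Finset ι) {f : ι → Pt D.d → ℝ}
    (hf : ∀ i ∈ s, TG (f i)) (k : Fin 2) (c : Fin D.d) (p : Pt D.d) :
    del D k c (fun p => ∑ i ∈ s, f i p) p = ∑ i ∈ s, del D k c (f i) p := by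
  simp only [del, par_sum s hf, Finset.mul_sum, Finset.sum_sub_distrib]

lemma good_ms_sum {α β γ : Type} [Fintype α] [DecidableEq α] [Fintype β] [DecidableEq β]
    (t : Finset (α ⊕ β)) (x : α → γ) (y : β → γ) :
    t.val.map (Sum.elim x y) = t.toLeft.val.map x + t.toRight.val.map y := by
  conv_lhs => rw [← Finset.toLeft_disjSum_toRight (u := t)]
  rw [Finset.val_disjSum, Multiset.disjSum, Multiset.map_add, Multiset.map_map, Multiset.map_map]
  rfl

theorem Clo.mulO {j : ℕ} (hj : Clo j) (O J : Type) [Fintype O] [DecidableEq O] [Fintype J]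
    [DecidableEq J] [Nonempty J] {Q : Dat → Type} [∀ D, Fintype (Q D)]
    {S : Fam fun D => (J → Fin D.d) × Q D} (h : Good j S) :
    Good (I := fun D => (Fin D.d × (O → Fin D.d)) × Q D) j fun D x p =>
      ∑ y, TT D (x.1.1 ::ₘ (ms x.1.2 + ms y)) p * S D (y, x.2) p := by
  refine ((hj.mul (Option O) J h).reidx fun D =>
    ((goodOpt O (Fin D.d)).symm.prodCongr (Equiv.refl (Q D)))).of_eq fun D x p => ?_
  simp only [mulF, TK, Equiv.prodCongr_apply, Prod.map_fst, Prod.map_snd, Equiv.refl_apply,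
    good_ms_opt, Multiset.cons_add]

theorem Clo.mulJ {j : ℕ} (hj : Clo j) (O J : Type) [Fintype O] [DecidableEq O] [Nonempty O]
    [Fintype J] [DecidableEq J] {Q : Dat → Type} [∀ D, Fintype (Q D)]
    {S : Fam fun D => (Fin D.d × (J → Fin D.d)) × Q D} (h : Good j S) :
    Good (I := fun D => (O → Fin D.d) × Q D) j fun D x p =>
      ∑ c, ∑ y, TT D (c ::ₘ (ms x.1 + ms y)) p * S D ((c, y), x.2) p := by
  refine (hj.mul O (Option J) (h.reidx fun D =>
    ((goodOpt J (Fin D.d)).prodCongr (Equiv.refl (Q D))))).of_eq fun D x p => ?_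
  simp only [mulF, TK]
  rw [← (goodOpt J (Fin D.d)).symm.sum_comp, Fintype.sum_prod_type]
  simp only [Equiv.prodCongr_apply, Prod.map_apply, Equiv.apply_symm_apply, Equiv.refl_apply,
    good_ms_opt, Multiset.add_cons]

theorem Clo.mulU {j : ℕ} (hj : Clo j) (O : Type) [Fintype O] [DecidableEq O] [Nonempty O]
    {Q : Dat → Type} [∀ D, Fintype (Q D)] {S : Fam fun D => Fin D.d × Q D} (h : Good j S) :
    Good (I := fun D => (O → Fin D.d) × Q D) j fun D x p =>
      ∑ c, TT D (c ::ₘ ms x.1) p * S D (c, x.2) p := by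
  refine (hj.mul O Unit (h.reidx fun D =>
    ((Equiv.funUnique Unit (Fin D.d)).prodCongr (Equiv.refl (Q D))))).of_eq fun D x p => ?_
  simp only [mulF, TK]
  rw [← (Equiv.funUnique Unit (Fin D.d)).symm.sum_comp]
  refine Finset.sum_congr rfl fun c _ => ?_
  rw [ms_unique ((Equiv.funUnique Unit (Fin D.d)).symm c), add_comm, Multiset.singleton_add]
  rfl

theorem Clo.rootO {j : ℕ} (hj : Clo j) (ι : Type) [Fintype ι] [DecidableEq ι] [Nonempty ι] :
    Good (I := fun D => Fin D.d × (ι → Fin D.d)) j fun D x => TT D (x.1 ::ₘ ms x.2) := by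
  refine ((hj.root (Option ι)).reidx fun D => (goodOpt ι (Fin D.d)).symm).of_eq fun D x p => ?_
  simp only [TR, good_ms_opt]

theorem Clo.mul_prod_aux {j : ℕ} (hj : Clo j) (O₁ O₂ J₁ J₂ : Type) [Fintype O₁] [DecidableEq O₁]
    [Fintype O₂] [DecidableEq O₂] [Nonempty O₂] [Fintype J₁] [DecidableEq J₁] [Nonempty J₁]
    [Fintype J₂] [DecidableEq J₂] {P : Dat → Type} [∀ D, Fintype (P D)]
    {S : Fam fun D => ((J₁ → Fin D.d) × (J₂ → Fin D.d)) × P D} (h : Good j S) :
    Good (I := fun D => ((O₁ → Fin D.d) × (O₂ → Fin D.d)) × P D) j fun D x p =>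
      ∑ y : (J₁ → Fin D.d) × (J₂ → Fin D.d), (∑ c, TT D (c ::ₘ (ms x.1.1 + ms y.1)) p *
        TT D (c ::ₘ (ms x.1.2 + ms y.2)) p) * S D (y, x.2) p := by
  have h1 := hj.mulO O₁ J₁ (h.reidx fun D => (Equiv.prodAssoc _ _ _).symm)
  have h2 := hj.mulJ O₂ J₂ (h1.reidx (I' := fun D => (Fin D.d × (J₂ → Fin D.d)) ×
    ((O₁ → Fin D.d) × P D)) fun D => ⟨fun x => ((x.1.1, x.2.1), (x.1.2, x.2.2)),
      fun x => ((x.1.1, x.2.1), (x.1.2, x.2.2)), fun _ => rfl, fun _ => rfl⟩)
  refine (h2.reidx (I' := fun D => ((O₁ → Fin D.d) × (O₂ → Fin D.d)) × P D) fun D =>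
    ⟨fun x => (x.1.2, (x.1.1, x.2)), fun x => ((x.2.1, x.1), x.2.2), fun _ => rfl,
      fun _ => rfl⟩).of_eq fun D x p => ?_
  simp only [Equiv.coe_fn_mk, Equiv.prodAssoc_symm_apply, Finset.mul_sum, Finset.sum_mul]
  rw [Finset.sum_comm]
  refine Finset.sum_congr rfl fun c _ => ?_
  rw [Fintype.sum_prod_type_right]
  refine Finset.sum_congr rfl fun y₂ _ => Finset.sum_congr rfl fun y₁ _ => ?_
  ring

theorem Clo.mul_prod_one {j : ℕ} (hj : Clo j) (ιO ιJ : Type) [Fintype ιO] [DecidableEq ιO]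
    [Fintype ιJ] [DecidableEq ιJ] (t : Finset (ιO ⊕ ιJ))
    (ht : ∃ i, Sum.inr i ∈ t) (ht' : ∃ i, Sum.inl i ∉ t) {P : Dat → Type} [∀ D, Fintype (P D)]
    {S : Fam fun D => (ιJ → Fin D.d) × P D} (h : Good j S) :
    Good j (mulF (O := fun D => ιO → Fin D.d) (fun D x y p => ∑ c,
      TT D (c ::ₘ t.val.map (Sum.elim x y)) p * TT D (c ::ₘ tᶜ.val.map (Sum.elim x y)) p) S) := by
  have : Nonempty {i // i ∈ t.toRight} := by
    obtain ⟨i, hi⟩ := ht
    exact ⟨⟨i, by simpa using hi⟩⟩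
  have : Nonempty {i // ¬ i ∈ t.toLeft} := by
    obtain ⟨i, hi⟩ := ht'
    exact ⟨⟨i, by simpa using hi⟩⟩
  have h1 := hj.mul_prod_aux {i // i ∈ t.toLeft} {i // ¬ i ∈ t.toLeft} {i // i ∈ t.toRight}
    {i // ¬ i ∈ t.toRight} (h.reidx fun D =>
      (Equiv.piEquivPiSubtypeProd (fun i => i ∈ t.toRight) fun _ => Fin D.d).symm.prodCongr
        (Equiv.refl (P D)))
  refine (h1.reidx fun D => (Equiv.piEquivPiSubtypeProd (fun i => i ∈ t.toLeft)
    fun _ => Fin D.d).prodCongr (Equiv.refl (P D))).of_eq fun D x p => ?_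
  have eL : tᶜ.toLeft = t.toLeftᶜ := by ext; simp
  have eR : tᶜ.toRight = t.toRightᶜ := by ext; simp
  simp only [mulF]
  rw [← (Equiv.piEquivPiSubtypeProd (fun i => i ∈ t.toRight) fun _ => Fin D.d).sum_comp]
  refine Finset.sum_congr rfl fun y _ => ?_
  rw [good_ms_sum t, good_ms_sum tᶜ, eL, eR, ← ms_subtype_compl x.1, ← ms_subtype_compl y,
    ← ms_subtype x.1, ← ms_subtype y]
  simp only [Equiv.prodCongr_apply, Prod.map_apply, Equiv.symm_apply_apply, Equiv.refl_apply,
    Prod.map_snd]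
  rfl

theorem Clo.mul2 {j : ℕ} (hj : Clo j) {P : Dat → Type} [∀ D, Fintype (P D)]
    {S : Fam fun D => Fin D.d × P D} (h : Good j S) :
    Good j (mulF (O := fun D => Fin D.d) (fun D b c => TT D {b, c}) S) := by
  refine ((hj.mulU Unit h).reidx fun D =>
    ((Equiv.funUnique Unit (Fin D.d)).symm.prodCongr (Equiv.refl (P D)))).of_eq fun D x p => ?_
  simp only [mulF]
  refine Finset.sum_congr rfl fun c _ => ?_
  rw [ms_unique, Multiset.pair_comm]
  rfl

/-- Product kernels `∑_c T(c, t) T(c, tᶜ)`, `t, tᶜ ⊆ ιO ⊕ ιJ` nonempty.  Split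
`ιO = O₁ ⊔ O₂`, `ιJ = J₁ ⊔ J₂` along `t` (`Equiv.piEquivPiSubtypeProd`).  If `J₁` and `O₂` are
nonempty, multiply first by `TK (Option O₁) J₁`, then by `TK O₂ (Option J₂)`; otherwise `J₂` and
`O₁` are nonempty, exchange the roles of `t` and `tᶜ`. -/
theorem Clo.mul_prod {j : ℕ} (hj : Clo j) (ιO ιJ : Type) [Fintype ιO] [DecidableEq ιO]
    [Nonempty ιO] [Fintype ιJ] [DecidableEq ιJ] [Nonempty ιJ] (t : Finset (ιO ⊕ ιJ))
    (ht : t ≠ ∅) (ht' : t ≠ Finset.univ) {P : Dat → Type} [∀ D, Fintype (P D)]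
    {S : Fam fun D => (ιJ → Fin D.d) × P D} (h : Good j S) :
    Good j (mulF (O := fun D => ιO → Fin D.d) (fun D x y p => ∑ c,
      TT D (c ::ₘ t.val.map (Sum.elim x y)) p * TT D (c ::ₘ tᶜ.val.map (Sum.elim x y)) p) S) := by
  by_cases h1 : (∃ i, Sum.inr i ∈ t) ∧ ∃ i, Sum.inl i ∉ t
  · exact hj.mul_prod_one ιO ιJ t h1.1 h1.2 h
  · have h2 : (∃ i, Sum.inr i ∈ tᶜ) ∧ ∃ i, Sum.inl i ∉ tᶜ := by
      simp only [Finset.mem_compl, not_not]
      rcases not_and_or.1 h1 with h1 | h1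
      · push Not at h1
        refine ⟨⟨Classical.arbitrary _, h1 _⟩, ?_⟩
        obtain ⟨a | a, ha⟩ := Finset.nonempty_iff_ne_empty.2 ht
        · exact ⟨a, ha⟩
        · exact absurd ha (h1 a)
      · push Not at h1
        refine ⟨?_, ⟨Classical.arbitrary _, h1 _⟩⟩
        by_contra h3
        push Not at h3
        exact ht' (Finset.eq_univ_of_forall fun a => by cases a <;> simp [h1, h3])
    refine (hj.mul_prod_one ιO ιJ tᶜ h2.1 h2.2 h).of_eq fun D x p => ?_
    simp only [mulF, compl_compl]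
    exact Finset.sum_congr rfl fun y _ => by simp only [mul_comm]

lemma good_alg {K C Y T : Type*} [Fintype K] [Fintype C] [Fintype Y] (F : Finset T) (e θ : K → ℝ)
    (h : ℝ) (dT r : K → C → Y → ℝ) (W : T → Y → ℝ) (s a : Y → ℝ) :
    ∑ y, ((∑ k, e k * ∑ c, dT k c y + h * (∑ k, e k * θ k) * ∑ t ∈ F, W t y) * s y + a y) =
      ∑ y, a y + ∑ k, e k * (∑ c, ∑ y, (dT k c y * s y - r k c y) + ∑ c, ∑ y, r k c y) +
        h * ∑ k, e k * (θ k * ∑ t ∈ F, ∑ y, W t y * s y) := by
  have e1 : ∀ k, ∑ c, ∑ y, (dT k c y * s y - r k c y) + ∑ c, ∑ y, r k c y =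
      ∑ y, (∑ c, dT k c y) * s y := fun k => by
    simp only [← Finset.sum_add_distrib, sub_add_cancel, Finset.sum_mul]
    exact Finset.sum_comm
  have e2 : ∑ t ∈ F, ∑ y, W t y * s y = ∑ y, (∑ t ∈ F, W t y) * s y := by
    simp only [Finset.sum_mul]
    exact Finset.sum_comm
  have e3 : ∑ k, e k * ∑ y, (∑ c, dT k c y) * s y = ∑ y, (∑ k, e k * ∑ c, dT k c y) * s y := by
    simp only [Finset.mul_sum _ _ (e _), Finset.sum_mul _ _ (s _)]
    rw [Finset.sum_comm]
    refine Finset.sum_congr rfl fun y _ => Finset.sum_congr rfl fun k _ =>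
      Finset.sum_congr rfl fun c _ => by ring
  simp only [e1, e2, e3, ← mul_assoc, ← Finset.sum_mul _ _ (∑ y, (∑ t ∈ F, W t y) * s y)]
  simp only [add_mul, Finset.sum_add_distrib, mul_assoc (h * _), ← Finset.mul_sum]
  ring

/-- `B (T S) = T (B S) + ∑ e_k [δ^k_c (T(c,·) S) + T(c,·) ∂^k_c S] + h (e·θ) ∑_t (T T) S`
(`BD_TT` for `Sum.elim x y`, `ms_sum_elim`, `del_mul`). -/
theorem Clo.succ_mul {j : ℕ} (hj : Clo j) (ιO ιJ : Type) [Fintype ιO] [DecidableEq ιO]
    [Nonempty ιO] [Fintype ιJ] [DecidableEq ιJ] [Nonempty ιJ] {P : Dat → Type}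
    [∀ D, Fintype (P D)] {S : Fam fun D => (ιJ → Fin D.d) × P D} (h : Good (j + 1) S) :
    Good (j + 1) (mulF (TK ιO ιJ) S) := by
  have h0 := G0.mul ιO ιJ h.1
  have hA : ∀ k : Fin 2, Good j (delF k (I := fun D => (ιO → Fin D.d) × P D) fun D x p =>
      ∑ y, TT D (x.1 ::ₘ (ms x.2.1 + ms y)) p * S D (y, x.2.2) p) := fun k =>
    hj.del ((hj.mulO ιO ιJ h.pred).reidx fun D => (Equiv.prodAssoc _ _ _).symm) k
  have hB := fun k : Fin 2 =>
    hj.mulJ ιO ιJ ((hj.par h.pred k).reidx fun D => Equiv.prodAssoc _ _ _)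
  have hC := Good.sum (Finset.univ.filter fun t : Finset (ιO ⊕ ιJ) => t ≠ ∅ ∧ t ≠ Finset.univ)
    fun t ht => hj.mul_prod ιO ιJ t (Finset.mem_filter.1 ht).2.1 (Finset.mem_filter.1 ht).2.2 h.pred
  refine ⟨h0, (((hj.mul ιO ιJ h.2).add (Good.sum Finset.univ fun k _ =>
    ((hA k).add (hB k)).const_mul (fun D => D.e k) (good_e_le k))).add
    ((Good.sum Finset.univ fun k _ => (hC.theta_mul k).const_mul (fun D => D.e k)
      (good_e_le k)).const_mul (fun D => D.h) good_h_le)).congr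
    (fun D i => TG.BD D (h0.tg D i)) fun D x p hp => ?_⟩
  have t1 : ∀ y : ιJ → Fin D.d, TG (TT D (ms x.1 + ms y)) := fun y =>
    tg_TT D (by rw [← ms_sum_elim]; exact ms_ne_zero _)
  have t2 : ∀ (c : Fin D.d) (m : Multiset (Fin D.d)), TG (TT D (c ::ₘ m)) := fun c m =>
    tg_TT D Multiset.cons_ne_zero
  have e1 : ∀ y : ιJ → Fin D.d, _ := fun y => BD_TT D (Sum.elim x.1 y) p hp
  simp only [ms_sum_elim] at e1
  have e2 : BF (mulF (TK ιO ιJ) S) D x p = ∑ y, (BD D (TT D (ms x.1 + ms y)) p * S D (y, x.2) p +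
      TT D (ms x.1 + ms y) p * BD D (S D (y, x.2)) p) := by
    refine (congrFun (BD_sum D Finset.univ
      (f := fun y p => TT D (ms x.1 + ms y) p * S D (y, x.2) p)
      fun y _ => (t1 y).mul (h.tg D _)) p).trans ?_
    exact Finset.sum_congr rfl fun y _ => congrFun (BD_mul D (t1 y) (h.tg D _)) p
  have e3 : ∀ (k : Fin 2) (c : Fin D.d),
      R285.del D k c (fun p => ∑ y, TT D (c ::ₘ (ms x.1 + ms y)) p * S D (y, x.2) p) p =
      ∑ y, (R285.del D k c (TT D (c ::ₘ (ms x.1 + ms y))) p * S D (y, x.2) p -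
        TT D (c ::ₘ (ms x.1 + ms y)) p * R285.par k c (S D (y, x.2)) p) := fun k c => by
    refine (good_del_sum D Finset.univ
      (f := fun y p => TT D (c ::ₘ (ms x.1 + ms y)) p * S D (y, x.2) p)
      (fun y _ => (t2 _ _).mul (h.tg D _)) k c p).trans ?_
    exact Finset.sum_congr rfl fun y _ => del_mul D (t2 _ _) (h.tg D _) k c p
  rw [e2]
  simp only [e1, delF, e3]
  exact good_alg _ _ _ _ _ _ _ _ _

/-- `par_BD`. -/
theorem Clo.succ_par {j : ℕ} (hj : Clo j) {I : Dat → Type} [∀ D, Fintype (I D)] {S : Fam I}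
    (h : Good (j + 1) S) (l : Fin 2) : Good (j + 1) (parF l S) := by
  refine ⟨h.1.par l, ((hj.par h.2 l).add (((Good.sum Finset.univ fun k _ =>
    (hj.mul2 (hj.par h.pred k)).const_mul (fun D => D.e k) (good_e_le k)).theta_mul l).const_mul
    (fun D => D.h) good_h_le)).of_eq fun D x p => ?_⟩
  rw [← mul_assoc]
  exact par_BD D (h.tg D x.2) l x.1 p

/-- `BD_del`. -/
theorem Clo.succ_del {j : ℕ} (hj : Clo j) {I : Dat → Type} [∀ D, Fintype (I D)]
    {S : Fam fun D => Fin D.d × I D} (h : Good (j + 1) S) (k : Fin 2) :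
    Good (j + 1) (delF k S) := by
  have h0 := G0.del h.1 k
  refine ⟨h0, ((hj.del h.2 k).add (((Good.sum Finset.univ fun l _ =>
    (hj.del (hj.mul2 h.pred) l).const_mul (fun D => D.e l) (good_e_le l)).theta_mul k).const_mul
    (fun D => D.h) good_h_le)).congr (fun D i => TG.BD D (h0.tg D i)) fun D i p hp => ?_⟩
  have e1 : BF (delF k S) D i p = ∑ c, BD D (R285.del D k c (S D (c, i))) p :=
    congrFun (BD_sum D Finset.univ (f := fun c => R285.del D k c (S D (c, i)))
      fun c _ => TG.del D (h.tg D _) k c) p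
  have e2 : ∀ (l : Fin 2) (b : Fin D.d),
      R285.del D l b (mulF (O := fun D => Fin D.d) (fun D b c => TT D {b, c}) S D (b, i)) p =
      ∑ c, R285.del D l b (fun p => TT D {b, c} p * S D (c, i) p) p := fun l b =>
    good_del_sum D Finset.univ (f := fun c p => TT D {b, c} p * S D (c, i) p)
      (fun c _ => (tg_TT D Multiset.cons_ne_zero).mul (h.tg D _)) l b p
  rw [e1]
  simp only [BD_del D (h.tg D _) k _ p hp, delF, e2, Finset.sum_add_distrib, ← Finset.mul_sum,
    mul_assoc]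
  congr 3
  rw [Finset.sum_comm]
  refine Finset.sum_congr rfl fun l _ => ?_
  rw [← Finset.mul_sum, Finset.sum_comm]

/-- `BD_TT`: `delF k (TR (Option ι))`, and the product terms are `mulF (TK t Unit)` of
`TR (Option tᶜ)`. -/
theorem Clo.succ_root {j : ℕ} (hj : Clo j) (ι : Type) [Fintype ι] [DecidableEq ι]
    [Nontrivial ι] : Good (j + 1) (TR ι) := by
  have h0 := G0.root ι
  have hC : ∀ t ∈ Finset.univ.filter fun t : Finset ι => t ≠ ∅ ∧ t ≠ Finset.univ,
      Good (I := fun D => ι → Fin D.d) j fun D x p =>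
        ∑ c, TT D (c ::ₘ t.val.map x) p * TT D (c ::ₘ tᶜ.val.map x) p := fun t ht => by
    obtain ⟨-, ht1, ht2⟩ := Finset.mem_filter.1 ht
    have : Nonempty {i // i ∈ t} := by
      obtain ⟨i, hi⟩ := Finset.nonempty_iff_ne_empty.2 ht1
      exact ⟨⟨i, hi⟩⟩
    have : Nonempty {i // ¬ i ∈ t} := by
      by_contra h
      exact ht2 (Finset.eq_univ_of_forall fun i => by_contra fun hi => h ⟨⟨i, hi⟩⟩)
    refine ((hj.mulU {i // i ∈ t} (hj.rootO {i // ¬ i ∈ t})).reidx fun D =>
      Equiv.piEquivPiSubtypeProd (fun i => i ∈ t) fun _ => Fin D.d).of_eq fun D x p => ?_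
    rw [← ms_subtype_compl x, ← ms_subtype x]
    rfl
  refine ⟨h0, ((Good.sum Finset.univ fun k _ => (hj.del (hj.rootO ι) k).const_mul
    (fun D => D.e k) (good_e_le k)).add ((Good.sum Finset.univ fun k _ =>
      ((Good.sum _ hC).theta_mul k).const_mul (fun D => D.e k) (good_e_le k)).const_mul
      (fun D => D.h) good_h_le)).congr (fun D i => TG.BD D (h0.tg D i)) fun D x p hp => ?_⟩
  refine (BD_TT D x p hp).trans ?_
  simp only [delF, ← mul_assoc, ← Finset.sum_mul]

theorem clo (j : ℕ) : Clo j := by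
  induction j with
  | zero => exact clo_zero
  | succ j ih =>
    exact ⟨fun ιO ιJ _ _ _ _ _ _ _ _ _ h => ih.succ_mul ιO ιJ h, fun h l => ih.succ_par h l,
      fun h k => ih.succ_del h k, fun ι _ _ _ => ih.succ_root ι⟩

end Crest.Agent.R285
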