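import Crest.Agent.R285.Gauss
import Crest.Agent.Lib.PrekopaLeindler.Basic

/-! Row 285: heat smoothing of log-concave functions, elementary facts and Prékopa's theorem. -/

set_option autoImplicit false

namespace Crest.Agent.R285

open MeasureTheory ProbabilityTheory Crest.OracleSampling Set
open scoped ENNReal NNReal InnerProductSpace

variable {d : ℕ} {W : E d → ℝ}

theorem cvx_continuous (hW : ConvexOn ℝ univ W) : Continuous W := by
  exact continuousOn_univ.1 (hW.continuousOn isOpen_univ)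

/-- A convex function is bounded below by `-C (1 + ‖y‖)`: it is bounded by some `M` on the unit
ball, and for `‖y‖ ≥ 1` convexity on the segment from `0` to `y` through `y/‖y‖` gives
`W y ≥ W 0 - 2M‖y‖`. -/
theorem cvx_lower (hW : ConvexOn ℝ univ W) : ∃ C, 0 ≤ C ∧ ∀ y, -(C * (1 + ‖y‖)) ≤ W y := by
  obtain ⟨M, hM⟩ := (isCompact_closedBall (0 : E d) 1).exists_bound_of_continuousOn
    (cvx_continuous hW).continuousOn
  have h0 := hM 0 (by simp)
  have hM0 : 0 ≤ M := (norm_nonneg _).trans h0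
  refine ⟨2 * M, by positivity, fun y => ?_⟩
  have hy := norm_nonneg y
  rcases le_or_gt ‖y‖ 1 with h | h
  · have := (abs_le.1 (hM y (by simpa using h))).1
    nlinarith [mul_nonneg hM0 hy]
  · have hpos : 0 < ‖y‖ := by linarith
    have ht0 : 0 ≤ ‖y‖⁻¹ := by positivity
    have ht1 : ‖y‖⁻¹ ≤ 1 := inv_le_one_of_one_le₀ h.le
    have h1 := hW.2 (mem_univ 0) (mem_univ y) (sub_nonneg.2 ht1) ht0 (sub_add_cancel _ _)
    rw [smul_zero, zero_add, smul_eq_mul, smul_eq_mul] at h1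
    have h2 := (abs_le.1 (hM (‖y‖⁻¹ • y) (by
      simp [norm_smul, inv_mul_cancel₀ hpos.ne']))).1
    have h3 := (abs_le.1 h0).2
    have h4 : (1 - ‖y‖⁻¹) * W 0 ≤ M := by nlinarith
    have h5 : -(2 * M) ≤ ‖y‖⁻¹ * W y := by linarith
    rw [le_inv_mul_iff₀ hpos] at h5
    nlinarith

lemma h1_sq_cvx {k : ℝ} (hk : 0 ≤ k) : ConvexOn ℝ univ fun y : E d => k * ‖y‖ ^ 2 :=
  (convexOn_univ_norm.pow (fun _ _ => norm_nonneg _) 2).smul hk

lemma h1_aff_cvx (v : E d) (b : ℝ) : ConvexOn ℝ univ fun y : E d => ⟪y, v⟫_ℝ + b := by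
  refine ⟨convex_univ, fun x _ y _ p q _ _ hpq => le_of_eq ?_⟩
  simp only [inner_add_left, real_inner_smul_left, smul_eq_mul]
  linear_combination (-b) * hpq

lemma h1_cvx_congr {f g : E d → ℝ} (hf : ConvexOn ℝ univ f) (h : ∀ x, g x = f x) :
    ConvexOn ℝ univ g := by
  obtain rfl : g = f := funext h
  exact hf

lemma h1_gauss {k : ℝ} (hk : 0 < k) : Integrable fun y : E d => Real.exp (-k * ‖y‖ ^ 2) := by
  have h := (GaussianFourier.integrable_cexp_neg_mul_sq_norm_add (V := E d) (b := k)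
    (by simpa using hk) 0 0).norm
  refine h.congr (Filter.Eventually.of_forall fun x => ?_)
  simp only [zero_mul, add_zero, Complex.norm_exp]
  congr 1
  norm_cast

theorem SC.cvx {c : ℝ} (hc : 0 < c) (hW : SC c W) : ConvexOn ℝ univ W := by
  refine h1_cvx_congr (ConvexOn.add hW (h1_sq_cvx (k := (2 * c)⁻¹) (by positivity))) fun x => ?_
  simp only [Pi.add_apply]
  ring

theorem SC.mono {c c' : ℝ} (hc : 0 < c) (hcc : c ≤ c') (hW : SC c W) : SC c' W := by
  have hk : 0 ≤ (2 * c)⁻¹ - (2 * c')⁻¹ :=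
    sub_nonneg.2 (inv_anti₀ (by positivity) (by linarith))
  refine h1_cvx_congr (ConvexOn.add hW (h1_sq_cvx hk)) fun x => ?_
  simp only [Pi.add_apply]
  ring

theorem SC.integrable_exp {c : ℝ} (hc : 0 < c) (hW : SC c W) (a : ℝ) :
    Integrable fun y => Real.exp (a * ‖y‖) * Real.exp (-W y) := by
  obtain ⟨C, -, hC⟩ := cvx_lower hW
  have hc' := cvx_continuous (hW.cvx hc)
  refine ((h1_gauss (k := (4 * c)⁻¹) (by positivity)).const_mul
    (Real.exp (C + c * (a + C) ^ 2))).mono' (by fun_prop) (Filter.Eventually.of_forall fun y => ?_)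
  rw [Real.norm_of_nonneg (by positivity), ← Real.exp_add, ← Real.exp_add, Real.exp_le_exp]
  have h1 := hC y
  have h2 : 0 ≤ (4 * c)⁻¹ * (‖y‖ - 2 * c * (a + C)) ^ 2 := by positivity
  have h3 : (4 * c)⁻¹ * (‖y‖ - 2 * c * (a + C)) ^ 2 =
      (4 * c)⁻¹ * ‖y‖ ^ 2 - (a + C) * ‖y‖ + c * (a + C) ^ 2 := by field_simp; ring
  have h4 : ‖y‖ ^ 2 / (2 * c) = 2 * ((4 * c)⁻¹ * ‖y‖ ^ 2) := by field_simp; ring
  nlinarith

lemma SC.h1_int {c : ℝ} (hc : 0 < c) (hW : SC c W) : Integrable fun y => Real.exp (-W y) := by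
  simpa using hW.integrable_exp hc 0

theorem SC.prob {c : ℝ} (hc : 0 < c) (hW : SC c W) : IsProbabilityMeasure (gib W) := by
  exact isProbabilityMeasure_tilted (hW.h1_int hc)

theorem SC.expm {c : ℝ} (hc : 0 < c) (hW : SC c W) (a : ℝ) :
    Integrable (fun y => Real.exp (a * ‖y‖)) (gib W) := by
  rw [gib, integrable_tilted_iff (hW.h1_int hc)]
  simpa [mul_comm] using hW.integrable_exp hc a

theorem sc_nu (hW : ConvexOn ℝ univ W) {s : ℝ} (hs : 0 < s) (x : E d) :
    SC s fun y => W y + ‖y - x‖ ^ 2 / (2 * s) := by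
  refine h1_cvx_congr (hW.add (h1_aff_cvx (-(s⁻¹ • x)) (‖x‖ ^ 2 / (2 * s)))) fun y => ?_
  simp only [Pi.add_apply, inner_neg_right, real_inner_smul_right, norm_sub_sq_real]
  field_simp
  ring

theorem SC.sc_nu {c s : ℝ} (hc : 0 < c) (hW : SC c W) (hs : 0 < s) (x : E d) :
    SC (c * s / (c + s)) fun y => W y + ‖y - x‖ ^ 2 / (2 * s) := by
  refine h1_cvx_congr (R285.sc_nu hW hs x) fun y => ?_
  field_simp
  ring

theorem nu_prob (hW : ConvexOn ℝ univ W) {s : ℝ} (hs : 0 < s) (x : E d) :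
    IsProbabilityMeasure (nu W s x) := (sc_nu hW hs x).prob hs

lemma h1_bound {C : ℝ} (hC0 : 0 ≤ C) (hC : ∀ y, -(C * (1 + ‖y‖)) ≤ W y) {r ρ R : ℝ} {x : E d}
    (hr : |r| ≤ ρ) (hx : ‖x‖ ≤ R) (ξ : E d) :
    ‖Real.exp (-W (x + r • ξ))‖ ≤ Real.exp (C * (1 + R)) * Real.exp (C * ρ * ‖ξ‖) := by
  rw [Real.norm_of_nonneg (Real.exp_pos _).le, ← Real.exp_add, Real.exp_le_exp]
  have h1 := hC (x + r • ξ)
  have h2 : ‖x + r • ξ‖ ≤ R + ρ * ‖ξ‖ := by
    refine (norm_add_le _ _).trans (add_le_add hx ?_)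
    rw [norm_smul, Real.norm_eq_abs]
    exact mul_le_mul_of_nonneg_right hr (norm_nonneg _)
  nlinarith [mul_le_mul_of_nonneg_left h2 hC0]

theorem Z_integrable (hW : ConvexOn ℝ univ W) (r : ℝ) (x : E d) :
    Integrable (fun ξ => Real.exp (-W (x + r • ξ))) (gam d) := by
  obtain ⟨C, hC0, hC⟩ := cvx_lower hW
  have hc := cvx_continuous hW
  exact integrable_gam_of_le (by fun_prop) (h1_bound hC0 hC le_rfl le_rfl)

theorem Z_pos (hW : ConvexOn ℝ univ W) (s : ℝ) (x : E d) : 0 < Z W s x := by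
  exact integral_exp_pos (Z_integrable hW _ x)

theorem exp_neg_Phi (hW : ConvexOn ℝ univ W) (s : ℝ) (x : E d) :
    Real.exp (-Phi W s x) = Z W s x := by
  rw [Phi, neg_neg, Real.exp_log (Z_pos hW s x)]

theorem Z_le (hW : ConvexOn ℝ univ W) :
    ∃ C, 0 ≤ C ∧ ∀ s ≤ 4, ∀ x, Z W s x ≤ C * Real.exp (C * ‖x‖) := by
  obtain ⟨C, hC0, hC⟩ := cvx_lower hW
  set K := ∫ ξ : E d, Real.exp (C * 2 * ‖ξ‖) ∂gam d with hK
  have hK0 : 0 ≤ K := integral_nonneg fun _ => (Real.exp_pos _).le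
  refine ⟨C + Real.exp C * K, by positivity, fun s hs x => ?_⟩
  have hr : |√s| ≤ 2 := by
    rw [abs_of_nonneg (Real.sqrt_nonneg _)]
    exact Real.sqrt_le_iff.2 ⟨by norm_num, by linarith⟩
  have h1 : Z W s x ≤ Real.exp (C * (1 + ‖x‖)) * K := by
    rw [hK, ← integral_const_mul]
    exact integral_mono (Z_integrable hW _ x) ((integrable_exp_norm_gam _).const_mul _) fun ξ =>
      (le_abs_self _).trans (h1_bound hC0 hC hr le_rfl ξ)
  have h2 : 0 ≤ Real.exp C * K := by positivity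
  have h3 : Real.exp (C * ‖x‖) ≤ Real.exp ((C + Real.exp C * K) * ‖x‖) :=
    Real.exp_le_exp.2 (mul_le_mul_of_nonneg_right (by linarith) (norm_nonneg _))
  calc Z W s x ≤ Real.exp C * K * Real.exp (C * ‖x‖) := by
        rw [mul_add, mul_one, Real.exp_add] at h1
        linarith
    _ ≤ _ := mul_le_mul (by linarith) h3 (Real.exp_pos _).le (by positivity)

theorem Phi_zero (W : E d → ℝ) : Phi W 0 = W := by
  funext x; simp [Phi, Z]

/-- Joint continuity (dominated convergence). -/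
theorem continuous_Z (hW : ConvexOn ℝ univ W) : Continuous fun p : ℝ × E d => Z W p.1 p.2 := by
  obtain ⟨C, hC0, hC⟩ := cvx_lower hW
  have hc := cvx_continuous hW
  refine continuous_iff_continuousAt.2 fun p₀ => ?_
  refine continuousAt_of_dominated (bound := fun ξ => Real.exp (C * (1 + (‖p₀.2‖ + 1))) *
    Real.exp (C * (|√p₀.1| + 1) * ‖ξ‖)) (Filter.Eventually.of_forall fun p => by fun_prop) ?_
    ((integrable_exp_norm_gam _).const_mul _)
    (Filter.Eventually.of_forall fun ξ => Continuous.continuousAt (by fun_prop))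
  have e1 : ∀ᶠ p : ℝ × E d in nhds p₀, |√p.1| < |√p₀.1| + 1 :=
    (Continuous.continuousAt (by fun_prop)).eventually_lt continuousAt_const (by simp)
  have e2 : ∀ᶠ p : ℝ × E d in nhds p₀, ‖p.2‖ < ‖p₀.2‖ + 1 :=
    (Continuous.continuousAt (by fun_prop)).eventually_lt continuousAt_const (by simp)
  filter_upwards [e1, e2] with p h1 h2
  exact Filter.Eventually.of_forall (h1_bound hC0 hC h1.le h2.le)

theorem continuous_Phi (hW : ConvexOn ℝ univ W) :
    Continuous fun p : ℝ × E d => Phi W p.1 p.2 := by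
  exact ((continuous_Z hW).log fun p => (Z_pos hW _ _).ne').neg

theorem Z_semigroup (hW : ConvexOn ℝ univ W) {s : ℝ} (hs : 0 ≤ s) (r : ℝ) (x : E d) :
    ∫ ξ, Z W s (x + r • ξ) ∂gam d = Z W (s + r ^ 2) x := by
  have hc := cvx_continuous hW
  exact integral_gam_add (σ₁ := r) (σ₂ := √s) (σ := √(s + r ^ 2))
    (by rw [Real.sq_sqrt (by positivity), Real.sq_sqrt hs, add_comm])
    (f := fun y => Real.exp (-W y)) (by fun_prop) x (Z_integrable hW _ x)

theorem Phi_Phi (hW : ConvexOn ℝ univ W) {s r : ℝ} (hs : 0 ≤ s) (hr : 0 ≤ r) :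
    Phi (Phi W s) r = Phi W (s + r) := by
  funext x
  have h := Z_semigroup hW hs √r x
  rw [Real.sq_sqrt hr] at h
  rw [Phi, Phi, ← h, Z]
  simp only [exp_neg_Phi hW]

lemma h1_cov (g : E d → ℝ) {s : ℝ} (hs : 0 < s) (x : E d) :
    ∫ ξ, g (x + √s • ξ) ∂gam d = (2 * Real.pi * s) ^ (-(d : ℝ) / 2) *
      ∫ y, g y * Real.exp (-(‖y - x‖ ^ 2 / (2 * s))) := by
  have hs' : 0 < √s := Real.sqrt_pos.2 hs
  have h1 : ∀ ξ : E d, g (x + √s • ξ) * Real.exp (-‖ξ‖ ^ 2 / 2) =
      (fun y => (fun y => g y * Real.exp (-(‖y - x‖ ^ 2 / (2 * s)))) (x + y)) (√s • ξ) := by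
    intro ξ
    simp only [add_sub_cancel_left, norm_smul, mul_pow, Real.norm_eq_abs, sq_abs,
      Real.sq_sqrt hs.le]
    congr 2
    field_simp
  rw [gam, R215.integral_stdGaussian]
  simp_rw [h1]
  rw [Measure.integral_comp_smul volume
    (fun y => (fun y => g y * Real.exp (-(‖y - x‖ ^ 2 / (2 * s)))) (x + y)) √s,
    integral_add_left_eq_self (fun y => g y * Real.exp (-(‖y - x‖ ^ 2 / (2 * s)))) x,
    finrank_euclideanSpace_fin, smul_eq_mul, ← mul_assoc, abs_of_nonneg (by positivity)]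
  congr 1
  have h2 : -(d : ℝ) / 2 = (1 / 2) * (-1) * d := by ring
  rw [h2, Real.rpow_mul (by positivity), Real.rpow_mul (by positivity), Real.rpow_natCast,
    Real.rpow_neg_one, ← Real.sqrt_eq_rpow, Real.sqrt_mul (by positivity) s, mul_inv, mul_pow,
    inv_pow (√s)]

lemma h1_Z (W : E d → ℝ) {s : ℝ} (hs : 0 < s) (x : E d) :
    Z W s x = (2 * Real.pi * s) ^ (-(d : ℝ) / 2) *
      ∫ y, Real.exp (-(W y + ‖y - x‖ ^ 2 / (2 * s))) := by
  rw [Z, h1_cov (fun y => Real.exp (-W y)) hs x]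
  simp only [neg_add, Real.exp_add]

/-- Change of variables `y = x + √s ξ` (`gam_eq_gib`, `tilted_tilted`, `Measure.map_addHaar_smul`
or `integral_comp_smul`). -/
theorem nu_eq_map (hW : ConvexOn ℝ univ W) {s : ℝ} (hs : 0 < s) (x : E d) :
    nu W s x = ((gam d).tilted fun ξ => -W (x + √s • ξ)).map fun ξ => x + √s • ξ := by
  have hm : Measurable fun ξ : E d => x + √s • ξ := by fun_prop
  have hK : 0 < (2 * Real.pi * s) ^ (-(d : ℝ) / 2) := by positivity
  ext A hA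
  rw [Measure.map_apply hm hA, tilted_apply_eq_ofReal_integral' _ (hm hA), nu, gib,
    tilted_apply_eq_ofReal_integral' _ hA]
  congr 1
  have h1 := h1_cov (A.indicator fun y => Real.exp (-W y) / Z W s x) hs x
  have h2 : ∀ ξ, (A.indicator fun y => Real.exp (-W y) / Z W s x) (x + √s • ξ) =
      ((fun ξ : E d => x + √s • ξ) ⁻¹' A).indicator
        (fun ξ => Real.exp (-W (x + √s • ξ)) / Z W s x) ξ := fun ξ => rfl
  simp_rw [h2] at h1
  rw [integral_indicator (hm hA)] at h1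
  refine Eq.trans ?_ h1.symm
  rw [← integral_indicator hA, ← integral_const_mul]
  refine integral_congr_ae (Filter.Eventually.of_forall fun y => ?_)
  by_cases hy : y ∈ A
  · simp only [indicator_of_mem hy]
    rw [h1_Z W hs x, neg_add, Real.exp_add]
    generalize (∫ y, Real.exp (-(W y + ‖y - x‖ ^ 2 / (2 * s)))) = I
    rcases eq_or_ne I 0 with rfl | hI
    · simp
    · field_simp
  · simp only [indicator_of_notMem hy, zero_mul, mul_zero]

theorem integral_nu {Y : Type*} [NormedAddCommGroup Y] [NormedSpace ℝ Y]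
    (hW : ConvexOn ℝ univ W) {s : ℝ} (hs : 0 < s) (x : E d) {f : E d → Y}
    (hf : StronglyMeasurable f) :
    ∫ y, f y ∂nu W s x =
      (Z W s x)⁻¹ • ∫ ξ, Real.exp (-W (x + √s • ξ)) • f (x + √s • ξ) ∂gam d := by
  rw [nu_eq_map hW hs, integral_map_of_stronglyMeasurable (by fun_prop) hf, integral_tilted,
    ← integral_smul]
  refine integral_congr_ae (Filter.Eventually.of_forall fun ξ => ?_)
  simp only [smul_smul, Z]
  rw [div_eq_inv_mul]

/-- The Lebesgue form of `Z`. -/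
theorem Z_eq_integral (W : E d → ℝ) {s : ℝ} (hs : 0 < s) (x : E d) :
    Z W s x = (2 * Real.pi * s) ^ (-(d : ℝ) / 2) *
      ∫ y, Real.exp (-W y) * Real.exp (-(‖y - x‖ ^ 2 / (2 * s))) := by
  exact h1_cov (fun y => Real.exp (-W y)) hs x

lemma h1_tilted_add_const {α : Type*} [MeasurableSpace α] (μ : Measure α) (f : α → ℝ) (c : ℝ) :
    μ.tilted (fun x => f x + c) = μ.tilted f := by
  simp only [Measure.tilted, Real.exp_add, integral_mul_const]
  congr 1
  funext x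
  rw [mul_div_mul_right _ _ (Real.exp_pos c).ne']

theorem nu_tilt (hW : ConvexOn ℝ univ W) {s : ℝ} (hs : 0 < s) (x z : E d) :
    nu W s (x + z) = (nu W s x).tilted fun y => ⟪s⁻¹ • z, y⟫_ℝ := by
  rw [nu, nu, gib, gib, tilted_tilted ((sc_nu hW hs x).h1_int hs),
    ← h1_tilted_add_const _ _ (s⁻¹ * ⟪x, z⟫_ℝ + ‖z‖ ^ 2 / (2 * s))]
  congr 1
  funext y
  simp only [Pi.add_apply]
  rw [← sub_sub, norm_sub_sq_real (y - x) z, inner_sub_left, real_inner_smul_left,
    real_inner_comm y z]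
  field_simp
  ring

theorem Z_resc (V : E d → ℝ) (u : E d) {v : ℝ} (hv : 0 ≤ v) (s : ℝ) (x : E d) :
    Z (resc V u v) s x = Z V (v * s) (u + √v • x) := by
  simp only [Z, resc, Real.sqrt_mul hv, smul_add, smul_smul, add_assoc]

theorem Phi_resc (V : E d → ℝ) (u : E d) {v : ℝ} (hv : 0 ≤ v) (s : ℝ) (x : E d) :
    Phi (resc V u v) s x = Phi V (v * s) (u + √v • x) := by
  simp [Phi, Z_resc V u hv]

/-- Prékopa's theorem for `W y + k ‖y - l x‖²`. -/
lemma h1_prek (hW : ConvexOn ℝ univ W) {k : ℝ} (hk : 0 < k) (l : ℝ) :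
    ConvexOn ℝ univ fun x : E d =>
      -Real.log (∫ y, Real.exp (-(W y + k * ‖y - l • x‖ ^ 2))) := by
  have hc := cvx_continuous hW
  have hi : ∀ x : E d, Integrable fun y => Real.exp (-(W y + k * ‖y - l • x‖ ^ 2)) := fun x => by
    have h := (sc_nu hW (s := (2 * k)⁻¹) (by positivity) (l • x)).h1_int (by positivity)
    refine h.congr (Filter.Eventually.of_forall fun y => ?_)
    simp only
    congr 3
    field_simp
  have hp : ∀ x : E d, 0 < ∫ y, Real.exp (-(W y + k * ‖y - l • x‖ ^ 2)) := fun x =>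
    integral_exp_pos (hi x)
  have hl : ∀ x : E d, ∫⁻ y, ENNReal.ofReal (Real.exp (-(W y + k * ‖y - l • x‖ ^ 2))) =
      ENNReal.ofReal (∫ y, Real.exp (-(W y + k * ‖y - l • x‖ ^ 2))) := fun x =>
    (ofReal_integral_eq_lintegral_ofReal (hi x)
      (Filter.Eventually.of_forall fun _ => (Real.exp_pos _).le)).symm
  refine ⟨convex_univ, fun x₁ _ x₂ _ a t ha ht hat => ?_⟩
  obtain rfl : a = 1 - t := by linarith
  rcases ht.eq_or_lt with rfl | ht0
  · simp
  rcases ha.eq_or_lt with h | ht1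
  · obtain rfl : t = 1 := by linarith
    simp
  have key := Lib.PL.prekopa_leindler ht0 (by linarith)
    (fun y => ENNReal.ofReal (Real.exp (-(W y + k * ‖y - l • x₁‖ ^ 2))))
    (fun y => ENNReal.ofReal (Real.exp (-(W y + k * ‖y - l • x₂‖ ^ 2))))
    (fun y => ENNReal.ofReal (Real.exp (-(W y + k * ‖y - l • ((1 - t) • x₁ + t • x₂)‖ ^ 2))))
    (by fun_prop) (by fun_prop) (by fun_prop) (fun y₁ y₂ => by
      rw [ENNReal.ofReal_rpow_of_pos (Real.exp_pos _), ENNReal.ofReal_rpow_of_pos (Real.exp_pos _),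
        ← ENNReal.ofReal_mul (by positivity), ← Real.exp_mul, ← Real.exp_mul, ← Real.exp_add]
      refine ENNReal.ofReal_le_ofReal (Real.exp_le_exp.2 ?_)
      have h1 := hW.2 (mem_univ y₁) (mem_univ y₂) ha ht hat
      have h2 := (h1_sq_cvx (d := d) hk.le).2 (mem_univ (y₁ - l • x₁)) (mem_univ (y₂ - l • x₂))
        ha ht hat
      have e : (1 - t) • (y₁ - l • x₁) + t • (y₂ - l • x₂) =
          (1 - t) • y₁ + t • y₂ - l • ((1 - t) • x₁ + t • x₂) := by module
      simp only [e, smul_eq_mul] at h1 h2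
      linarith)
  rw [hl, hl, hl, ENNReal.ofReal_rpow_of_pos (hp _), ENNReal.ofReal_rpow_of_pos (hp _),
    ← ENNReal.ofReal_mul (Real.rpow_pos_of_pos (hp _) _).le,
    ENNReal.ofReal_le_ofReal_iff (hp _).le] at key
  have h3 := Real.log_le_log (mul_pos (Real.rpow_pos_of_pos (hp _) _)
    (Real.rpow_pos_of_pos (hp _) _)) key
  rw [Real.log_mul (Real.rpow_pos_of_pos (hp _) _).ne' (Real.rpow_pos_of_pos (hp _) _).ne',
    Real.log_rpow (hp _), Real.log_rpow (hp _)] at h3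
  simp only [smul_eq_mul]
  linarith

lemma h1_Phi (hW : ConvexOn ℝ univ W) {s : ℝ} (hs : 0 < s) (x : E d) :
    Phi W s x = -Real.log (∫ y, Real.exp (-(W y + ‖y - x‖ ^ 2 / (2 * s)))) +
      -Real.log ((2 * Real.pi * s) ^ (-(d : ℝ) / 2)) := by
  have hK : 0 < (2 * Real.pi * s) ^ (-(d : ℝ) / 2) := by positivity
  rw [Phi, h1_Z W hs, Real.log_mul hK.ne' (integral_exp_pos ((sc_nu hW hs x).h1_int hs)).ne']
  ring

/-- Prékopa: apply `Lib.PL.prekopa_leindler` to the integrands in `Z_eq_integral` (jointly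
log-concave in `(x, y)`); `s ≤ 0` is trivial. -/
theorem Phi_cvx (hW : ConvexOn ℝ univ W) (s : ℝ) : ConvexOn ℝ univ (Phi W s) := by
  rcases le_or_gt s 0 with hs | hs
  · refine h1_cvx_congr hW fun x => ?_
    simp [Phi, Z, Real.sqrt_eq_zero_of_nonpos hs]
  · refine h1_cvx_congr ((h1_prek hW (k := (2 * s)⁻¹) (by positivity) 1).add_const
      (-Real.log ((2 * Real.pi * s) ^ (-(d : ℝ) / 2)))) fun x => ?_
    rw [h1_Phi hW hs]
    simp only [one_smul, div_eq_inv_mul, Pi.add_apply]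

/-- With `W = W₀ + ‖·‖²/(2c)`: `‖y‖²/(2c) + ‖y - x‖²/(2s) - ‖x‖²/(2(c+s))` equals
`((c+s)/(2cs)) ‖y - (c/(c+s)) x‖²`, jointly convex in `(x, y)`; Prékopa–Leindler again. -/
theorem Phi_sc {c s : ℝ} (hc : 0 < c) (hW : SC c W) (hs : 0 ≤ s) : SC (c + s) (Phi W s) := by
  rcases hs.eq_or_lt with rfl | hs
  · rwa [Phi_zero, add_zero]
  refine h1_cvx_congr ((h1_prek hW (k := (c + s) / (2 * c * s)) (by positivity)
    (c / (c + s))).add_const (-Real.log ((2 * Real.pi * s) ^ (-(d : ℝ) / 2)))) fun x => ?_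
  have h1 : ∀ y : E d, Real.exp (-(W y - ‖y‖ ^ 2 / (2 * c) +
      (c + s) / (2 * c * s) * ‖y - (c / (c + s)) • x‖ ^ 2)) =
      Real.exp (‖x‖ ^ 2 / (2 * (c + s))) * Real.exp (-(W y + ‖y - x‖ ^ 2 / (2 * s))) := fun y => by
    rw [← Real.exp_add, norm_sub_sq_real, norm_sub_sq_real, real_inner_smul_right, norm_smul,
      mul_pow, Real.norm_eq_abs, sq_abs]
    congr 1
    field_simp
    ring
  simp only [Pi.add_apply, h1]
  rw [h1_Phi (hW.cvx hc) hs, integral_const_mul, Real.log_mul (Real.exp_pos _).ne'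
    (integral_exp_pos ((sc_nu (hW.cvx hc) hs x).h1_int hs)).ne', Real.log_exp]
  ring

end Crest.Agent.R285
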