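import Crest.Agent.R285.Heat1
import Crest.Agent.R285.ExpFam

/-! Row 285: smoothness of the smoothed potential, formulas for the score, the heat equation.

By `Z_eq_integral`, for `s > 0`,
`Z W s x = (2πs)^{-d/2} e^{-‖x‖²/(2s)} I(1/(2s), x/s)` with
`I(λ, β) = ∫ e^{-W y} e^{-λ‖y‖² + ⟪β, y⟫} dy`, an exponential family (`ExpFam.lean`) on the open set
`λ > 0` of `ℝ × E d`. -/

set_option autoImplicit false

namespace Crest.Agent.R285

open MeasureTheory ProbabilityTheory Crest.OracleSampling Set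
open scoped ENNReal NNReal InnerProductSpace

variable {d : ℕ} {W : E d → ℝ}

namespace Heat2

/-- The sufficient statistic `(-‖y‖², y)`. -/
noncomputable def ell (y : E d) : ℝ × E d →L[ℝ] ℝ :=
  (-‖y‖ ^ 2) • ContinuousLinearMap.fst ℝ ℝ (E d) +
    (innerSL ℝ y).comp (ContinuousLinearMap.snd ℝ ℝ (E d))

theorem ell_apply (y : E d) (p : ℝ × E d) : ell y p = -‖y‖ ^ 2 * p.1 + ⟪y, p.2⟫_ℝ := by
  simp [ell]

theorem continuous_ell : Continuous (ell : E d → _) := by
  unfold ell
  refine Continuous.add (by fun_prop) ((innerSL ℝ).continuous.clm_comp continuous_const)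

theorem meas_ell : AEStronglyMeasurable (ell : E d → _) volume :=
  continuous_ell.aestronglyMeasurable

theorem norm_ell_le (y : E d) : ‖ell y‖ ≤ ‖y‖ ^ 2 + ‖y‖ := by
  refine ContinuousLinearMap.opNorm_le_bound _ (by positivity) fun p => ?_
  rw [ell_apply, add_mul]
  refine (norm_add_le _ _).trans (add_le_add ?_ ?_)
  · rw [norm_mul, norm_neg, norm_pow, norm_norm]
    gcongr
    exact norm_fst_le p
  · refine (norm_inner_le_norm _ _).trans ?_
    gcongr
    exact norm_snd_le p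

theorem ell_ex (y : E d) (c : Fin d) : ell y (0, ex c) = y c := by
  simp [ell_apply, ex, EuclideanSpace.inner_single_right]

/-- The parameter set. -/
abbrev OO (d : ℕ) : Set (ℝ × E d) := {p | 0 < p.1}

theorem isOpen_OO : IsOpen (OO d) := isOpen_lt continuous_const continuous_fst

theorem ei_exp (hW : ConvexOn ℝ univ W) : EI volume ell (OO d) fun y => Real.exp (-W y) := by
  have hc := cvx_continuous hW
  refine ⟨by fun_prop, fun p hp => ?_⟩
  have hp' : 0 < p.1 := hp
  refine ⟨p.1 / 2, by positivity, ?_⟩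
  have hs : 0 < p.1⁻¹ := inv_pos.2 hp'
  have hce := continuous_ell (d := d)
  refine ((sc_nu hW hs 0).integrable_exp hs (‖p.2‖ + p.1 / 2)).mono' ?_
    (Filter.Eventually.of_forall fun y => ?_)
  · exact (Continuous.mul (by fun_prop) (Real.continuous_exp.comp
      ((hce.clm_apply continuous_const).add (by fun_prop)))).aestronglyMeasurable
  · rw [Real.norm_of_nonneg (by positivity), ← Real.exp_add, ← Real.exp_add]
    refine Real.exp_le_exp.2 ?_
    have h1 := norm_ell_le y
    have h2 := real_inner_le_norm y p.2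
    have h3 : ‖y - 0‖ ^ 2 / (2 * p.1⁻¹) = p.1 / 2 * ‖y‖ ^ 2 := by
      rw [sub_zero]; field_simp
    rw [ell_apply, h3]
    nlinarith [mul_le_mul_of_nonneg_left h1 (show 0 ≤ p.1 / 2 by positivity)]

/-- The exponential family. -/
noncomputable def KK (Q : E d → ℝ) (p : ℝ × E d) : ℝ := ∫ y, Q y * Real.exp (ell y p)

/-- The natural parameter. -/
noncomputable def tau (s : ℝ) (x : E d) : ℝ × E d := ((2 * s)⁻¹, s⁻¹ • x)

theorem tau_mem {s : ℝ} (hs : 0 < s) (x : E d) : tau s x ∈ OO d := by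
  show 0 < (2 * s)⁻¹
  positivity

theorem exp_tau {s : ℝ} (hs : 0 < s) (x y : E d) :
    Real.exp (-(‖y - x‖ ^ 2 / (2 * s))) =
      Real.exp (-(‖x‖ ^ 2 / (2 * s))) * Real.exp (ell y (tau s x)) := by
  rw [← Real.exp_add, ell_apply, norm_sub_sq_real]
  congr 1
  simp only [tau, inner_smul_right]
  field_simp
  ring

theorem Z_eq (W : E d → ℝ) {s : ℝ} (hs : 0 < s) (x : E d) :
    Z W s x = (2 * Real.pi * s) ^ (-(d : ℝ) / 2) * (Real.exp (-(‖x‖ ^ 2 / (2 * s))) *
      KK (fun y => Real.exp (-W y)) (tau s x)) := by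
  rw [Z_eq_integral W hs, KK, ← integral_const_mul (Real.exp _)]
  congr 2
  funext y
  rw [exp_tau hs]
  ring

theorem KK_pos (hW : ConvexOn ℝ univ W) {s : ℝ} (hs : 0 < s) (x : E d) :
    0 < KK (fun y => Real.exp (-W y)) (tau s x) := by
  have h := Z_pos hW s x
  rw [Z_eq W hs] at h
  have := Real.pi_pos
  exact (pos_iff_pos_of_mul_pos ((pos_iff_pos_of_mul_pos h).1 (by positivity))).1 (Real.exp_pos _)

theorem Phi_eq (hW : ConvexOn ℝ univ W) {s : ℝ} (hs : 0 < s) (x : E d) :
    Phi W s x = d / 2 * Real.log (2 * Real.pi * s) + ‖x‖ ^ 2 / (2 * s) -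
      Real.log (KK (fun y => Real.exp (-W y)) (tau s x)) := by
  have := Real.pi_pos
  have h := KK_pos hW hs x
  rw [Phi, Z_eq W hs, Real.log_mul (by positivity) (by positivity),
    Real.log_mul (by positivity) h.ne', Real.log_exp, Real.log_rpow (by positivity)]
  ring

theorem hasDerivAt_KK {Q : E d → ℝ} (hQ : EI volume ell (OO d) Q) {γ : ℝ → ℝ × E d} {v : ℝ × E d}
    {t : ℝ} (hγ : HasDerivAt γ v t) (h : γ t ∈ OO d) :
    HasDerivAt (fun t => KK Q (γ t)) (KK (fun y => Q y * ell y v) (γ t)) t := by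
  obtain ⟨h1, h2⟩ := hQ.fderiv_apply meas_ell h
  have := h1.hasFDerivAt.comp_hasDerivAt t hγ
  rw [h2] at this
  exact this

theorem KK_smul (Q : E d → ℝ) (a : ℝ) (v p : ℝ × E d) :
    KK (fun y => Q y * ell y (a • v)) p = a * KK (fun y => Q y * ell y v) p := by
  rw [KK, KK, ← integral_const_mul]
  congr 1
  funext y
  rw [map_smul, smul_eq_mul]
  ring

theorem hasDerivAt_KK_x {Q : E d → ℝ} (hQ : EI volume ell (OO d) Q) {s : ℝ} (hs : 0 < s)
    (x v : E d) : HasDerivAt (fun t : ℝ => KK Q (tau s (x + t • v)))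
      (s⁻¹ * KK (fun y => Q y * ell y (0, v)) (tau s x)) 0 := by
  have h1 : HasDerivAt (fun t : ℝ => tau s (x + t • v)) (s⁻¹ • ((0 : ℝ), v)) 0 := by
    have h2 := (((hasDerivAt_id (0 : ℝ)).smul_const v).const_add x).const_smul s⁻¹
    exact ((hasDerivAt_const (0 : ℝ) (2 * s)⁻¹).prodMk h2).congr_deriv (by simp)
  have := hasDerivAt_KK hQ h1 (tau_mem hs _)
  rwa [KK_smul, zero_smul, add_zero] at this

theorem hasDerivAt_line {P : Type*} [NormedAddCommGroup P] [NormedSpace ℝ P] {f : P → ℝ} {p : P}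
    (hf : DifferentiableAt ℝ f p) (v : P) : HasDerivAt (fun t : ℝ => f (p + t • v)) (D1 v f p) 0 :=
  hf.hasFDerivAt.hasLineDerivAt v

theorem hasDerivAt_Phi_x (hW : ConvexOn ℝ univ W) {s : ℝ} (hs : 0 < s) (x v : E d) :
    HasDerivAt (fun t : ℝ => Phi W s (x + t • v))
      (s⁻¹ * (⟪x, v⟫_ℝ - KK (fun y => Real.exp (-W y) * ell y (0, v)) (tau s x) /
        KK (fun y => Real.exp (-W y)) (tau s x))) 0 := by
  simp only [Phi_eq hW hs]
  have h1 := (hasDerivAt_KK_x (ei_exp hW) hs x v).log (KK_pos hW hs _).ne'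
  have h2 : HasDerivAt (fun t : ℝ => ‖x + t • v‖ ^ 2) (2 * ⟪x, v⟫_ℝ) 0 := by
    simpa using (((hasDerivAt_id (0 : ℝ)).smul_const v).const_add x).norm_sq
  refine (((h2.div_const (2 * s)).const_add (d / 2 * Real.log (2 * Real.pi * s))).sub
    h1).congr_deriv ?_
  rw [zero_smul, add_zero]
  field_simp

theorem integral_nu_eq {s : ℝ} (hs : 0 < s) (x : E d) (g : E d → ℝ) :
    ∫ y, g y ∂nu W s x = KK (fun y => Real.exp (-W y) * g y) (tau s x) /
      KK (fun y => Real.exp (-W y)) (tau s x) := by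
  have h1 : ∀ y, Real.exp (-(W y + ‖y - x‖ ^ 2 / (2 * s))) = Real.exp (-(‖x‖ ^ 2 / (2 * s))) *
      (Real.exp (-W y) * Real.exp (ell y (tau s x))) := fun y => by
    rw [neg_add, Real.exp_add, exp_tau hs]; ring
  rw [nu, gib, integral_tilted]
  simp only [h1]
  rw [integral_const_mul, KK, KK, ← integral_div]
  congr 1
  funext y
  rw [mul_div_mul_left _ _ (Real.exp_pos _).ne', smul_eq_mul]
  ring

theorem integrable_nu (hW : ConvexOn ℝ univ W) {s : ℝ} (hs : 0 < s) (x : E d) {g : E d → E d}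
    {L : ℝ} (hg : Lip L g) : Integrable g (nu W s x) := by
  refine (((sc_nu hW hs x).expm hs 1).const_mul (‖g 0‖ + |L|)).mono'
    hg.continuous.aestronglyMeasurable (Filter.Eventually.of_forall fun y => ?_)
  have h1 := hg.norm_le y 0
  have h2 := Real.add_one_le_exp ‖y‖
  rw [sub_zero] at h1
  rw [one_mul]
  nlinarith [norm_nonneg y, norm_nonneg (g 0), abs_nonneg L, le_abs_self L]

theorem KK_time (hW : ConvexOn ℝ univ W) {s : ℝ} (hs : 0 < s) (x : E d) :
    KK (fun y => Real.exp (-W y) * ell y (-(2 * s ^ 2)⁻¹, -(s ^ 2)⁻¹ • x)) (tau s x) =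
      ∑ c, ((2 * s ^ 2)⁻¹ * KK (fun y => Real.exp (-W y) * ell y (0, ex c) * ell y (0, ex c)) (tau s x)
        - (s ^ 2)⁻¹ * x c * KK (fun y => Real.exp (-W y) * ell y (0, ex c)) (tau s x)) := by
  have i1 := fun c : Fin d =>
    ((ei_exp hW).mul_apply meas_ell (0, ex c)).integrable meas_ell (tau_mem hs x)
  have i2 := fun c : Fin d => (((ei_exp hW).mul_apply meas_ell (0, ex c)).mul_apply meas_ell
    (0, ex c)).integrable meas_ell (tau_mem hs x)
  simp only [KK, ← integral_const_mul]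
  rw [Finset.sum_congr rfl fun c _ => (integral_sub ((i2 c).const_mul _) ((i1 c).const_mul _)).symm,
    ← integral_finsetSum _ fun c _ => by exact ((i2 c).const_mul _).sub ((i1 c).const_mul _)]
  congr 1
  funext y
  simp only [ell_ex]
  rw [ell_apply, inner_smul_right, EuclideanSpace.real_norm_sq_eq, PiLp.inner_apply]
  simp only [Finset.mul_sum, Finset.sum_mul, ← Finset.sum_neg_distrib, ← Finset.sum_add_distrib]
  refine Finset.sum_congr rfl fun c _ => ?_
  simp only [RCLike.inner_apply, conj_trivial]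
  ring

theorem hasDerivAt_Phi_s (hW : ConvexOn ℝ univ W) {s : ℝ} (hs : 0 < s) (x : E d) :
    HasDerivAt (fun s : ℝ => Phi W s x) (d / (2 * s) - ‖x‖ ^ 2 / (2 * s ^ 2) -
      KK (fun y => Real.exp (-W y) * ell y (-(2 * s ^ 2)⁻¹, -(s ^ 2)⁻¹ • x)) (tau s x) /
        KK (fun y => Real.exp (-W y)) (tau s x)) s := by
  have := Real.pi_pos
  have h0 : HasDerivAt (fun s : ℝ => (2 * s)⁻¹) (-(2 * s ^ 2)⁻¹) s :=
    (((hasDerivAt_id s).const_mul 2).inv (by positivity)).congr_deriv (by simp; field_simp)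
  have h1 : HasDerivAt (fun s : ℝ => tau s x) (-(2 * s ^ 2)⁻¹, -(s ^ 2)⁻¹ • x) s :=
    h0.prodMk ((hasDerivAt_inv hs.ne').smul_const x)
  have h2 := (hasDerivAt_KK (ei_exp hW) h1 (tau_mem hs x)).log (KK_pos hW hs x).ne'
  have h3 : HasDerivAt (fun s : ℝ => Real.log (2 * Real.pi * s)) s⁻¹ s :=
    (((hasDerivAt_id s).const_mul (2 * Real.pi)).log (by positivity)).congr_deriv
      (by simp; field_simp)
  refine ((((h3.const_mul ((d : ℝ) / 2)).add (h0.const_mul (‖x‖ ^ 2))).sub
    h2).congr_of_eventuallyEq ?_).congr_deriv (by field_simp; ring)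
  filter_upwards [lt_mem_nhds hs] with t ht
  rw [Phi_eq hW ht, div_eq_mul_inv (‖x‖ ^ 2)]
  rfl

theorem psi_pos (s : ℝ) : 0 < psi s := lt_of_lt_of_le (by norm_num) (psi_mem s).1

end Heat2

open Heat2

theorem contDiffOn_Phi (hW : ConvexOn ℝ univ W) :
    ContDiffOn ℝ ((⊤ : ℕ∞) : WithTop ℕ∞) (fun p : ℝ × E d => Phi W p.1 p.2) {p | 0 < p.1} := by
  intro p hp
  have hp' : 0 < p.1 := hp
  have := Real.pi_pos
  have h1 : ContDiffAt ℝ ((⊤ : ℕ∞) : WithTop ℕ∞) (fun p : ℝ × E d => tau p.1 p.2) p :=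
    ((contDiffAt_const.mul contDiffAt_fst).inv (by positivity)).prodMk
      ((contDiffAt_fst.inv hp'.ne').smul contDiffAt_snd)
  have h2 : ContDiffAt ℝ ((⊤ : ℕ∞) : WithTop ℕ∞)
      (fun p : ℝ × E d => KK (fun y => Real.exp (-W y)) (tau p.1 p.2)) p :=
    ContDiffAt.comp (g := KK fun y => Real.exp (-W y)) p
      (((ei_exp hW).contDiffOn meas_ell isOpen_OO).contDiffAt
        (isOpen_OO.mem_nhds (tau_mem hp' p.2))) h1
  have h3 : ContDiffAt ℝ ((⊤ : ℕ∞) : WithTop ℕ∞) (fun p : ℝ × E d =>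
      d / 2 * Real.log (2 * Real.pi * p.1) + ‖p.2‖ ^ 2 / (2 * p.1) -
        Real.log (KK (fun y => Real.exp (-W y)) (tau p.1 p.2))) p :=
    ((contDiffAt_const.mul ((contDiffAt_const.mul contDiffAt_fst).log (by positivity))).add
      ((contDiffAt_snd.norm_sq ℝ).div (contDiffAt_const.mul contDiffAt_fst) (by positivity))).sub
      (h2.log (KK_pos hW hp' p.2).ne')
  exact h3.contDiffWithinAt.congr (fun q hq => Phi_eq hW hq q.2) (Phi_eq hW hp' p.2)

theorem sm_PhT (hW : ConvexOn ℝ univ W) : Sm (PhT W) := by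
  exact (contDiffOn_Phi hW).comp_contDiff (f := fun p : ℝ × E d => (psi p.1, p.2))
    ((tg_psi.sm.comp contDiff_fst).prodMk contDiff_snd) fun p => psi_pos p.1

theorem sm_Phi (hW : ConvexOn ℝ univ W) {s : ℝ} (hs : 0 < s) : Sm (Phi W s) := by
  exact (contDiffOn_Phi hW).comp_contDiff (f := fun x : E d => (s, x))
    (contDiff_const.prodMk contDiff_id) fun _ => hs

/-- Differentiate the Lebesgue form in `x`. -/
theorem F_eq_mean (hW : ConvexOn ℝ univ W) {s : ℝ} (hs : 0 < s) (x : E d) :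
    F W s x = s⁻¹ • (x - ∫ y, y ∂nu W s x) := by
  have := nu_prob hW hs x
  refine ext_inner_right ℝ fun v => ?_
  have h1 := (hasDerivAt_line ((sm_Phi hW hs).differentiable (by simp) x) v).unique
    (hasDerivAt_Phi_x hW hs x v)
  rw [F, inner_gradient_left, inner_smul_left, inner_sub_left, real_inner_comm v (∫ y, y ∂_),
    ← integral_inner (integrable_nu hW hs x lip_id), integral_nu_eq hs]
  refine h1.trans ?_
  simp [ell_apply, real_inner_comm]

/-- Differentiate `Z U s x = ∫ e^{-U(x + √s ξ)} dγ` under the integral; then `integral_nu`. -/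
theorem F_eq_grad {U : E d → ℝ} {h : ℝ} (hU : Nice h U) {s : ℝ} (hs : 0 < s) (x : E d) :
    F U s x = ∫ y, gradient U y ∂nu U s x := by
  have := nu_prob hU.cvx hs x
  have hg : Lip s⁻¹ fun y : E d => s⁻¹ • (y - x) := fun y z => by
    rw [← smul_sub, sub_sub_sub_cancel_right, norm_smul, Real.norm_of_nonneg (by positivity)]
  have i1 := integrable_nu hU.cvx hs x hU.lip
  have i2 := integrable_nu hU.cvx hs x hg
  have i3 := integrable_nu hU.cvx hs x (lip_id (X := E d))
  have i0 : Integrable fun y => Real.exp (-(U y + ‖y - x‖ ^ 2 / (2 * s))) := by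
    simpa using (sc_nu hU.cvx hs x).integrable_exp hs 0
  have key : ∫ y, (gradient U y + s⁻¹ • (y - x)) ∂nu U s x = 0 := by
    refine ext_inner_left ℝ fun v => ?_
    have hd : ∀ y, HasFDerivAt (fun y => Real.exp (-(U y + ‖y - x‖ ^ 2 / (2 * s))))
        (Real.exp (-(U y + ‖y - x‖ ^ 2 / (2 * s))) • -(fderiv ℝ U y +
          (2 * s)⁻¹ • (2 • (innerSL ℝ (y - x)).comp (ContinuousLinearMap.id ℝ (E d))))) y := by
      intro y
      simp only [div_eq_inv_mul]
      exact ((hU.smooth.differentiable (by simp) y).hasFDerivAt.add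
        (((hasFDerivAt_id y).sub_const x).norm_sq.const_mul (2 * s)⁻¹)).neg.exp
    have hd' : ∀ y, fderiv ℝ (fun y => Real.exp (-(U y + ‖y - x‖ ^ 2 / (2 * s)))) y v =
        -(Real.exp (-(U y + ‖y - x‖ ^ 2 / (2 * s))) * ⟪v, gradient U y + s⁻¹ • (y - x)⟫_ℝ) := by
      intro y
      rw [(hd y).fderiv, inner_add_right, real_inner_comm _ v, inner_gradient_left,
        inner_smul_right, real_inner_comm _ v]
      simp only [smul_apply, neg_apply, add_apply, ContinuousLinearMap.comp_apply,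
        ContinuousLinearMap.id_apply, innerSL_apply_apply, smul_eq_mul, nsmul_eq_mul]
      push_cast
      field_simp
    have i4 : Integrable fun y => Real.exp (-(U y + ‖y - x‖ ^ 2 / (2 * s))) *
        ⟪v, gradient U y + s⁻¹ • (y - x)⟫_ℝ :=
      (integrable_tilted_iff i0 _).1 ((i1.add i2).const_inner v)
    have h1 := integral_mul_fderiv_eq_neg_fderiv_mul_of_integrable (μ := volume) (v := v)
      (f := fun _ : E d => (1 : ℝ)) (g := fun y => Real.exp (-(U y + ‖y - x‖ ^ 2 / (2 * s))))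
      (by simp) (by simp only [one_mul, hd']; exact i4.neg) (by simpa only [one_mul] using i0)
      (fun _ _ => differentiableAt_const _) (fun y _ => (hd y).differentiableAt)
    simp only [one_mul, hd', integral_neg, fderiv_fun_const, Pi.zero_apply,
      zero_apply, zero_mul, integral_zero, neg_inj] at h1
    rw [← integral_inner (by exact i1.add i2), inner_zero_right, nu, gib, integral_tilted]
    simp only [smul_eq_mul, div_mul_eq_mul_div]
    rw [integral_div, h1, zero_div]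
  rw [integral_add i1 i2, integral_smul, integral_sub i3 (integrable_const _)] at key
  rw [F_eq_mean hU.cvx hs, eq_neg_of_add_eq_zero_left key, ← smul_neg, neg_sub]
  simp

theorem D1_PhT (hW : ConvexOn ℝ univ W) (c : Fin d) (p : ℝ × E d) :
    D1 ((0 : ℝ), ex c) (PhT W) p = F W (psi p.1) p.2 c := by
  have h1 := hasDerivAt_line ((sm_PhT hW).differentiable (by simp) p) ((0 : ℝ), ex c)
  have h2 := hasDerivAt_line ((sm_Phi hW (psi_pos p.1)).differentiable (by simp) p.2) (ex c)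
  have h3 : D1 ((0 : ℝ), ex c) (PhT W) p = D1 (ex c) (Phi W (psi p.1)) p.2 :=
    h1.unique (by simpa [PhT] using h2)
  rw [h3, D1, ← inner_gradient_left, F, ex, EuclideanSpace.inner_single_right]
  simp

/-- The heat equation `∂ₛ Z = ½ Δ Z` in logarithmic form, after the cutoff.  With
`J_Q(s, x) = ∫ Q y e^{-W y} e^{-‖y - x‖²/(2s)} dy`: `∂ₛ J₁ = J_{‖y-x‖²}/(2s²)`,
`∂_c J₁ = J_{(y-x)_c}/s`, `∂_c² J₁ = J_{(y-x)_c²}/s² - J₁/s`. -/
theorem PhT_heat (hW : ConvexOn ℝ univ W) (p : ℝ × E d) :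
    D1 ((1 : ℝ), (0 : E d)) (PhT W) p = deriv psi p.1 *
      (1 / 2 * ∑ c, D1 ((0 : ℝ), ex c) (D1 ((0 : ℝ), ex c) (PhT W)) p -
        1 / 2 * ∑ c, D1 ((0 : ℝ), ex c) (PhT W) p ^ 2) := by
  have hs := psi_pos p.1
  have hK := KK_pos hW hs p.2
  have h1 : ∀ (c : Fin d) (q : ℝ × E d), D1 ((0 : ℝ), ex c) (PhT W) q = (psi q.1)⁻¹ * (q.2 c -
      KK (fun y => Real.exp (-W y) * ell y (0, ex c)) (tau (psi q.1) q.2) /
        KK (fun y => Real.exp (-W y)) (tau (psi q.1) q.2)) := by
    intro c q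
    refine (hasDerivAt_line ((sm_PhT hW).differentiable (by simp) q) ((0 : ℝ), ex c)).unique ?_
    simpa [PhT, ex, EuclideanSpace.inner_single_right] using
      hasDerivAt_Phi_x hW (psi_pos q.1) q.2 (ex c)
  have h2 : ∀ c : Fin d, D1 ((0 : ℝ), ex c) (D1 ((0 : ℝ), ex c) (PhT W)) p = (psi p.1)⁻¹ * (1 -
      ((psi p.1)⁻¹ * KK (fun y => Real.exp (-W y) * ell y (0, ex c) * ell y (0, ex c))
          (tau (psi p.1) p.2) * KK (fun y => Real.exp (-W y)) (tau (psi p.1) p.2) -
        KK (fun y => Real.exp (-W y) * ell y (0, ex c)) (tau (psi p.1) p.2) * ((psi p.1)⁻¹ *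
          KK (fun y => Real.exp (-W y) * ell y (0, ex c)) (tau (psi p.1) p.2))) /
        KK (fun y => Real.exp (-W y)) (tau (psi p.1) p.2) ^ 2) := by
    intro c
    refine (hasDerivAt_line (((sm_PhT hW).D1 _).differentiable (by simp) p)
      ((0 : ℝ), ex c)).unique ?_
    have h3 : HasDerivAt (fun t : ℝ => (p.2 + t • ex c) c) 1 0 := by
      simpa [ex] using (hasDerivAt_id (0 : ℝ)).const_add (p.2 c)
    have h4 := (h3.sub ((hasDerivAt_KK_x ((ei_exp hW).mul_apply meas_ell (0, ex c)) hs p.2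
      (ex c)).div (hasDerivAt_KK_x (ei_exp hW) hs p.2 (ex c)) (KK_pos hW hs _).ne')).const_mul
      (psi p.1)⁻¹
    simp only [zero_smul, add_zero] at h4
    simp only [h1, Prod.fst_add, Prod.smul_mk, smul_zero, add_zero, Prod.snd_add]
    exact h4
  have h0 : HasDerivAt (fun t : ℝ => psi (p.1 + t)) (deriv psi p.1) 0 :=
    HasDerivAt.comp_const_add p.1 0
      (by simpa using (tg_psi.sm.differentiable (by simp) p.1).hasDerivAt)
  have h3 := (hasDerivAt_Phi_s hW hs p.2).comp_of_eq (0 : ℝ) h0 (by simp)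
  rw [KK_time hW hs] at h3
  have h4 := (hasDerivAt_line ((sm_PhT hW).differentiable (by simp) p) ((1 : ℝ), (0 : E d))).unique
    (by simpa only [PhT, Function.comp_def, Prod.smul_mk, smul_eq_mul, mul_one, smul_zero,
      Prod.fst_add, Prod.snd_add, add_zero] using h3)
  rw [h4, mul_comm]
  congr 1
  have h5 : (d : ℝ) = ∑ _c : Fin d, (1 : ℝ) := by simp
  simp only [h2]
  simp only [h1]
  rw [EuclideanSpace.real_norm_sq_eq, h5]
  simp only [Finset.sum_div, Finset.mul_sum, ← Finset.sum_sub_distrib]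
  refine Finset.sum_congr rfl fun c _ => ?_
  field_simp
  ring

theorem F_resc {V : E d → ℝ} (hV : ConvexOn ℝ univ V) (u : E d) {v s : ℝ} (hv : 0 < v)
    (hs : 0 < s) (x : E d) : F (resc V u v) s x = √v • F V (v * s) (u + √v • x) := by
  refine ext_inner_right ℝ fun w => ?_
  have h1 := hasDerivAt_line ((sm_Phi hV (mul_pos hv hs)).differentiable (by simp) (u + √v • x))
    (√v • w)
  have h0 : Phi (resc V u v) s = fun x => Phi V (v * s) (u + √v • x) :=
    funext fun x => Phi_resc V u hv.le s x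
  have hd : DifferentiableAt ℝ (Phi (resc V u v) s) x := by
    rw [h0]
    exact ((sm_Phi hV (mul_pos hv hs)).differentiable (by simp) _).comp x
      (f := fun x => u + √v • x) (by fun_prop)
  have h2 := hasDerivAt_line hd w
  have h3 : D1 w (Phi (resc V u v) s) x = D1 (√v • w) (Phi V (v * s)) (u + √v • x) := by
    refine h2.unique ?_
    simp only [h0, smul_add, ← add_assoc, smul_comm √v _ w]
    exact h1
  rw [F, F, inner_smul_left, inner_gradient_left, inner_gradient_left]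
  refine h3.trans ?_
  simp [D1]

end Crest.Agent.R285
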