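import Crest.Agent.R285.Meas

/-! Row 285: Taylor polynomials in time transport the laws `pm` up to high order. -/

set_option autoImplicit false

namespace Crest.Agent.R285

open MeasureTheory ProbabilityTheory Crest.OracleSampling Set
open scoped ENNReal NNReal InnerProductSpace

section aux
variable {Y : Type*} [NormedAddCommGroup Y] [NormedSpace ℝ Y]

theorem Tay_zero (D : Dat) (K : ℕ) (ψ : Pt D.d → Y) (p : Pt D.d) : Tay D K ψ 0 p = ψ p := by
  simp [Tay, Finset.sum_range_succ']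

theorem tg_TayT (D : Dat) {ψ : Pt D.d → Y} (hψ : TG ψ) (K : ℕ) (t : ℝ) :
    TG fun q : ℝ × Pt D.d => Tay D K ψ (t - q.1) q.2 := by
  refine Function.HasTemperateGrowth.sum fun k _ => ?_
  have h1 : TG fun q : ℝ × Pt D.d => q.1 := (ContinuousLinearMap.fst ℝ ℝ (Pt D.d)).hasTemperateGrowth
  have h2 : TG fun q : ℝ × Pt D.d => (XD D)^[k] ψ q.2 :=
    (TG.XD_iter D hψ k).comp (ContinuousLinearMap.snd ℝ ℝ (Pt D.d)).hasTemperateGrowth
  have h3 : TG fun q : ℝ × Pt D.d => (t - q.1) ^ k / (k.factorial : ℝ) := by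
    have := (((Function.HasTemperateGrowth.const t).sub h1).pow k).mul
      (Function.HasTemperateGrowth.const (k.factorial : ℝ)⁻¹)
    exact this
  exact h3.smul h2

theorem fderiv_smul_snd {P : Type*} [NormedAddCommGroup P] [NormedSpace ℝ P] {a : ℝ → ℝ}
    {a' s : ℝ} (ha : HasDerivAt a a' s) {φ : P → Y} {p : P} (hφ : DifferentiableAt ℝ φ p) (v : P) :
    DifferentiableAt ℝ (fun q : ℝ × P => a q.1 • φ q.2) (s, p) ∧
      fderiv ℝ (fun q : ℝ × P => a q.1 • φ q.2) (s, p) (1, v) = a' • φ p + a s • fderiv ℝ φ p v := by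
  have h1 : HasFDerivAt (fun q : ℝ × P => a q.1)
      ((ContinuousLinearMap.toSpanSingleton ℝ a').comp (ContinuousLinearMap.fst ℝ ℝ P)) (s, p) :=
    HasFDerivAt.comp (s, p) ha.hasFDerivAt hasFDerivAt_fst
  have h2 : HasFDerivAt (fun q : ℝ × P => φ q.2)
      ((fderiv ℝ φ p).comp (ContinuousLinearMap.snd ℝ ℝ P)) (s, p) :=
    HasFDerivAt.comp (s, p) hφ.hasFDerivAt hasFDerivAt_snd
  have h3 := h1.fun_smul h2
  refine ⟨h3.differentiableAt, ?_⟩
  rw [h3.fderiv]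
  simp [add_comm]

theorem fderiv_TayT (D : Dat) {ψ : Pt D.d → Y} (hψ : TG ψ) (K : ℕ) (t s : ℝ) (p : Pt D.d) :
    fderiv ℝ (fun q : ℝ × Pt D.d => Tay D K ψ (t - q.1) q.2) (s, p) (1, (D.e, XV D p)) =
      ((t - s) ^ K / K.factorial) • (XD D)^[K + 1] ψ p := by
  have hd : ∀ k : ℕ, DifferentiableAt ℝ ((XD D)^[k] ψ) p := fun k =>
    (TG.XD_iter D hψ k).sm.differentiable (by simp) p
  induction K with
  | zero =>
    have := (fderiv_smul_snd (hasDerivAt_const s (1 : ℝ)) (hd 0) (D.e, XV D p)).2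
    simpa [Tay, XD] using this
  | succ K ih =>
    have ha : HasDerivAt (fun s : ℝ => (t - s) ^ (K + 1) / ((K + 1).factorial : ℝ))
        (-((t - s) ^ K / K.factorial)) s := by
      have := (((hasDerivAt_id s).const_sub t).fun_pow (K + 1)).div_const ((K + 1).factorial : ℝ)
      refine this.congr_deriv ?_
      rw [Nat.factorial_succ]
      push_cast
      field_simp
      simp
    obtain ⟨h1, h2⟩ := fderiv_smul_snd ha (hd (K + 1)) (D.e, XV D p)
    have e : (fun q : ℝ × Pt D.d => Tay D (K + 1) ψ (t - q.1) q.2) = fun q =>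
        Tay D K ψ (t - q.1) q.2 +
          ((t - q.1) ^ (K + 1) / ((K + 1).factorial : ℝ)) • (XD D)^[K + 1] ψ q.2 := by
      funext q
      rw [Tay, Finset.sum_range_succ]
      rfl
    rw [e, fderiv_fun_add ((tg_TayT D hψ K t).sm.differentiable (by simp) _) h1,
      add_apply, ih, h2, neg_smul, add_neg_cancel_left,
      Function.iterate_succ_apply' (XD D) (K + 1)]
    rfl

theorem integrable_lip_comp {d : ℕ} {U : E d → ℝ} (hU : ConvexOn ℝ univ U) {θ : Th}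
    (hθ : ‖θ‖ ≤ 1 / 2) {φ : Pt d → Y} (hφ : TG φ) {f : Y → ℝ} {L : ℝ} (hf : Lip L f) :
    Integrable (fun ω => f (φ (θ, ω))) (pm U θ) := by
  have := pm_prob hU hθ
  have c : Continuous fun ω : Om d => φ (θ, ω) :=
    hφ.sm.continuous.comp (continuous_const.prodMk continuous_id)
  refine ((integrable_const ‖f 0‖).add ((TG.integrable_pm hU hθ hφ).norm.const_mul L)).mono'
    (hf.continuous.comp c).aestronglyMeasurable (ae_of_all _ fun ω => ?_)
  simpa using hf.norm_le (φ (θ, ω)) 0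

theorem abs_integral_sub_le {Ω : Type*} [MeasurableSpace Ω] {μ : Measure Ω}
    [IsProbabilityMeasure μ] {u v : Ω → ℝ} (hu : Integrable u μ) (hv : Integrable v μ) {ε : ℝ}
    (h : ∀ ω, |v ω - u ω| ≤ ε) : |∫ ω, v ω ∂μ - ∫ ω, u ω ∂μ| ≤ ε := by
  rw [← integral_sub hv hu]
  have := norm_integral_le_of_norm_le_const (μ := μ) (f := fun ω => v ω - u ω) (C := ε)
    (ae_of_all _ h)
  simpa using this

theorem transport_smooth (D : Dat) {ψ : Pt D.d → Y} (hψ : TG ψ) (K : ℕ) (θ : Th) {t : ℝ}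
    (ht : 0 ≤ t) (hθ : ∀ s ∈ Icc 0 t, ‖θ + s • D.e‖ < 1 / 2) {g : Y → ℝ} {L : ℝ} (hL : 0 ≤ L)
    (hg : ContDiff ℝ 1 g) (hgL : ∀ y, ‖fderiv ℝ g y‖ ≤ L) {B : ℝ} (hB : ∀ s ∈ Icc 0 t,
      ∫ ω, ‖(XD D)^[K + 1] ψ (θ + s • D.e, ω)‖ ∂pm D.U (θ + s • D.e) ≤ B) :
    |∫ ω, g (Tay D K ψ t (θ, ω)) ∂pm D.U θ -
      ∫ ω, g (ψ (θ + t • D.e, ω)) ∂pm D.U (θ + t • D.e)| ≤ L * t ^ (K + 1) * B := by
  have hT := tg_TayT D hψ K t
  have hΨ : PG1 fun q : ℝ × Pt D.d => g (Tay D K ψ (t - q.1) q.2) :=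
    (pg1_of_fderiv_le hg hgL).comp hT.pg1
  have hd := fun s (hs : s ∈ Icc 0 t) =>
    (hasDerivAt_pm D hΨ θ (hθ s hs)).hasDerivWithinAt (s := Icc 0 t)
  have key := (convex_Icc 0 t).norm_image_sub_le_of_norm_hasDerivWithin_le (C := L * t ^ K * B)
    hd (fun s hs => ?_) (right_mem_Icc.2 ht) (left_mem_Icc.2 ht)
  · simp only [zero_smul, add_zero, sub_zero, sub_self, Tay_zero, zero_sub, norm_neg,
      Real.norm_of_nonneg ht] at key
    refine (le_of_eq (Real.norm_eq_abs _).symm).trans (key.trans (le_of_eq ?_))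
    ring
  · have hI := (TG.integrable_pm D.nice.cvx (hθ s hs).le (TG.XD_iter D hψ (K + 1))).norm
    refine (norm_integral_le_of_norm_le (hI.const_mul (L * t ^ K)) (ae_of_all _ fun ω => ?_)).trans ?_
    · rw [fderiv_fun_comp _ (hg.differentiable one_ne_zero _) (hT.sm.differentiable (by simp) _),
        ContinuousLinearMap.comp_apply, fderiv_TayT D hψ]
      refine (ContinuousLinearMap.le_opNorm _ _).trans ?_
      rw [norm_smul, mul_assoc]
      refine mul_le_mul (hgL _) (mul_le_mul_of_nonneg_right ?_ (norm_nonneg _))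
        (by positivity) hL
      have h1 : 0 ≤ t - s := sub_nonneg.2 hs.2
      have h2 : (1 : ℝ) ≤ K.factorial := by exact_mod_cast K.factorial_pos
      rw [Real.norm_of_nonneg (by positivity)]
      refine (div_le_self (by positivity) h2).trans ?_
      exact pow_le_pow_left₀ h1 (by linarith [hs.1]) K
    · rw [integral_const_mul]
      exact mul_le_mul_of_nonneg_left (hB s hs) (by positivity)

theorem tg_Tay (D : Dat) {ψ : Pt D.d → Y} (hψ : TG ψ) (K : ℕ) (t : ℝ) : TG (Tay D K ψ t) :=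
  Function.HasTemperateGrowth.sum fun k _ =>
    (Function.HasTemperateGrowth.const _).smul (TG.XD_iter D hψ k)

end aux

/-- For `C¹` test functions `g` with `‖Dg‖ ≤ L` put
`H s = ∫ g (Tay K ψ (t - s) (θ + s e, ω)) dpm(θ + s e)`.  By `hasDerivAt_pm` (with
`Ψ (s, p) = g (Tay K ψ (t - s) p)`, `PG1.comp`) and telescoping,
`H' s = ∫ Dg(..) ((t-s)^K/K! • XD^[K+1] ψ)`, so `|H' s| ≤ L t^K B`; mean value inequality on
`[0, t]`, `Tay K ψ 0 = ψ`.  Pass to Lipschitz `f` with `exists_smooth_approx` (`pm_prob`). -/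
theorem transport (D : Dat) {Y : Type*} [NormedAddCommGroup Y] [NormedSpace ℝ Y]
    [FiniteDimensional ℝ Y] {ψ : Pt D.d → Y} (hψ : TG ψ) (K : ℕ) (θ : Th) {t : ℝ} (ht : 0 ≤ t)
    (hθ : ∀ s ∈ Icc 0 t, ‖θ + s • D.e‖ < 1 / 2) {f : Y → ℝ} {L : ℝ} (hL : 0 ≤ L) (hf : Lip L f)
    {B : ℝ} (hB : ∀ s ∈ Icc 0 t,
      ∫ ω, ‖(XD D)^[K + 1] ψ (θ + s • D.e, ω)‖ ∂pm D.U (θ + s • D.e) ≤ B) :
    |∫ ω, f (Tay D K ψ t (θ, ω)) ∂pm D.U θ -
      ∫ ω, f (ψ (θ + t • D.e, ω)) ∂pm D.U (θ + t • D.e)| ≤ L * t ^ (K + 1) * B := by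
  have h0 : ‖θ‖ ≤ 1 / 2 := by simpa using (hθ 0 (left_mem_Icc.2 ht)).le
  have h1 : ‖θ + t • D.e‖ ≤ 1 / 2 := (hθ t (right_mem_Icc.2 ht)).le
  have := pm_prob D.nice.cvx h0
  have := pm_prob D.nice.cvx h1
  refine le_of_forall_pos_le_add fun ε hε => ?_
  obtain ⟨g, hg, hgL, hgf⟩ := exists_smooth_approx hL hf (half_pos hε)
  have hgl : Lip L g := fun x y => (convex_univ (𝕜 := ℝ) (E := Y)).norm_image_sub_le_of_norm_fderiv_le
    (fun x _ => hg.differentiable one_ne_zero x) (fun x _ => hgL x) (mem_univ y) (mem_univ x)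
  have k1 := transport_smooth D hψ K θ ht hθ hL hg hgL hB
  have k2 := abs_integral_sub_le (integrable_lip_comp D.nice.cvx h0 (tg_Tay D hψ K t) hf)
    (integrable_lip_comp D.nice.cvx h0 (tg_Tay D hψ K t) hgl) fun ω => hgf _
  have k3 := abs_integral_sub_le (integrable_lip_comp D.nice.cvx h1 hψ hf)
    (integrable_lip_comp D.nice.cvx h1 hψ hgl) fun ω => hgf _
  rw [abs_le] at k1 k2 k3 ⊢
  constructor <;> linarith [k1.1, k1.2, k2.1, k2.2, k3.1, k3.2]

theorem TG.Tay (D : Dat) {Y : Type*} [NormedAddCommGroup Y] [NormedSpace ℝ Y] {ψ : Pt D.d → Y}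
    (hψ : TG ψ) (K : ℕ) (t : ℝ) : TG (Tay D K ψ t) := by
  exact tg_Tay D hψ K t

/-- Evaluation along the Taylor path: apply `transport` to the pair `(ω, ψ)` (`XD_iter_prod`) and
the `(L+1)`-Lipschitz test function `(ω', y) ↦ ‖H ω' - y‖`. -/
theorem transport_eval (D : Dat) {Y : Type*} [NormedAddCommGroup Y] [NormedSpace ℝ Y]
    [FiniteDimensional ℝ Y] {ψ : Pt D.d → Y} (hψ : TG ψ) (K : ℕ) (θ : Th) {t : ℝ} (ht : 0 ≤ t)
    (hθ : ∀ s ∈ Icc 0 t, ‖θ + s • D.e‖ < 1 / 2) {H : Om D.d → Y} {L : ℝ} (hL : 0 ≤ L)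
    (hH : Lip L H) {B B' : ℝ}
    (hB : ∀ θ' : Th, ‖θ'‖ < 1 / 2 → ∫ ω, ‖(XD D)^[K + 1] ψ (θ', ω)‖ ∂pm D.U θ' ≤ B)
    (hB' : ∀ θ' : Th, ‖θ'‖ < 1 / 2 → ∫ ω, ‖(XD D)^[K] (XV D) (θ', ω)‖ ∂pm D.U θ' ≤ B') :
    ∫ ω, ‖H (Tay D K (fun p => p.2) t (θ, ω)) - Tay D K ψ t (θ, ω)‖ ∂pm D.U θ ≤
      ∫ ω, ‖H ω - ψ (θ + t • D.e, ω)‖ ∂pm D.U (θ + t • D.e) + (L + 1) * t ^ (K + 1) * (B + B') := by
  have hs : TG fun p : Pt D.d => p.2 := (ContinuousLinearMap.snd ℝ Th (Om D.d)).hasTemperateGrowth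
  have hf : Lip (L + 1) fun z : Om D.d × Y => ‖H z.1 - z.2‖ := by
    intro x y
    refine (abs_norm_sub_norm_le _ _).trans ?_
    rw [sub_sub_sub_comm, add_mul, one_mul]
    refine (norm_sub_le _ _).trans (add_le_add ((hH _ _).trans ?_) (norm_snd_le (x - y)))
    exact mul_le_mul_of_nonneg_left (norm_fst_le (x - y)) hL
  have key := transport D (hs.prodMk hψ) K θ ht hθ (by positivity) hf (B := B + B') fun s hs' => by
    have i1 := (TG.integrable_pm D.nice.cvx (hθ s hs').le (TG.XD_iter D hψ (K + 1))).norm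
    have i2 := (TG.integrable_pm D.nice.cvx (hθ s hs').le (TG.XD_iter D (tg_XV D) K)).norm
    refine le_trans (integral_mono_of_nonneg (ae_of_all _ fun ω => norm_nonneg _) (i1.add i2)
      (ae_of_all _ fun ω => ?_)) ?_
    · simp only [XD_iter_prod D hs hψ, Pi.add_apply]
      rw [Function.iterate_succ_apply (XD D) K (fun p : Pt D.d => p.2), XD_snd, Prod.norm_mk]
      exact max_le (le_add_of_nonneg_left (norm_nonneg _)) (le_add_of_nonneg_right (norm_nonneg _))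
    · simp only [Pi.add_apply]
      rw [integral_add i1 i2]
      exact add_le_add (hB _ (hθ s hs')) (hB' _ (hθ s hs'))
  have e : ∀ p, Tay D K (fun p : Pt D.d => (p.2, ψ p)) t p =
      (Tay D K (fun p => p.2) t p, Tay D K ψ t p) := by
    intro p
    simp only [Tay, XD_iter_prod D hs hψ]
    ext1
    · simp [Prod.fst_sum]
    · simp [Prod.snd_sum]
  simp only [e] at key
  linarith [(abs_le.1 key).2]

/-- Exactness of the quadrature (`qw_spec`). -/
theorem sum_qw_Tay (D : Dat) {Y : Type*} [NormedAddCommGroup Y] [NormedSpace ℝ Y]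
    (ψ : Pt D.d → Y) (K j : ℕ) (τ : ℝ) (p : Pt D.d) :
    τ • ∑ i ∈ Finset.range (K + 1), qw K j i • Tay D K (XD D ψ) (i * τ) p =
      Tay D (K + 1) ψ (j * τ) p - ψ p := by
  have e1 : Tay D (K + 1) ψ (j * τ) p - ψ p = ∑ k ∈ Finset.range (K + 1),
      ((j * τ) ^ (k + 1) / ((k + 1).factorial : ℝ)) • (XD D)^[k + 1] ψ p := by
    rw [Tay, Finset.sum_range_succ']
    simp
  rw [e1]
  simp only [Tay, Finset.smul_sum, smul_smul]
  rw [Finset.sum_comm]
  refine Finset.sum_congr rfl fun k hk => ?_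
  rw [← Finset.sum_smul, Function.iterate_succ_apply]
  congr 1
  have h := qw_spec K j k (Nat.lt_succ_iff.1 (Finset.mem_range.1 hk))
  have e2 : ∑ i ∈ Finset.range (K + 1), τ * (qw K j i * ((i * τ) ^ k / k.factorial)) =
      τ ^ (k + 1) / k.factorial * ∑ i ∈ Finset.range (K + 1), qw K j i * (i : ℝ) ^ k := by
    rw [Finset.mul_sum]
    refine Finset.sum_congr rfl fun i _ => ?_
    rw [mul_pow]; ring
  rw [e2, h, Nat.factorial_succ, mul_pow]
  push_cast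
  field_simp

/-- Exactness of the finite difference (`qc_spec`). -/
theorem sum_qc_Tay (D : Dat) {Y : Type*} [NormedAddCommGroup Y] [NormedSpace ℝ Y]
    (ψ : Pt D.d → Y) {K : ℕ} (hK : 1 ≤ K) {τ : ℝ} (hτ : τ ≠ 0) (p : Pt D.d) :
    τ⁻¹ • ∑ l ∈ Finset.range (K + 1), qc K l • Tay D K ψ (l * τ) p = XD D ψ p := by
  simp only [Tay, Finset.smul_sum, smul_smul]
  rw [Finset.sum_comm]
  have e : ∀ k ∈ Finset.range (K + 1), ∑ l ∈ Finset.range (K + 1),
      (τ⁻¹ * (qc K l * ((l * τ) ^ k / k.factorial))) • (XD D)^[k] ψ p =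
        if k = 1 then XD D ψ p else 0 := by
    intro k hk
    have h := qc_spec K k (Nat.lt_succ_iff.1 (Finset.mem_range.1 hk))
    have e2 : ∑ l ∈ Finset.range (K + 1), τ⁻¹ * (qc K l * ((l * τ) ^ k / k.factorial)) =
        τ⁻¹ * τ ^ k / k.factorial * ∑ l ∈ Finset.range (K + 1), qc K l * (l : ℝ) ^ k := by
      rw [Finset.mul_sum]
      refine Finset.sum_congr rfl fun i _ => ?_
      rw [mul_pow]; ring
    rw [← Finset.sum_smul, e2, h]
    split_ifs with h1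
    · subst h1
      simp [hτ]
    · simp
  rw [Finset.sum_congr rfl e, Finset.sum_ite_eq' _ 1, if_pos (Finset.mem_range.2 (by omega))]

end Crest.Agent.R285
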