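import Crest.Agent.R285.Good
import Crest.Agent.R285.Transport

/-! Row 285: the `L¹` bounds on iterated derivatives along `XD`. -/

set_option autoImplicit false

namespace Crest.Agent.R285

open MeasureTheory ProbabilityTheory Crest.OracleSampling Set
open scoped ENNReal NNReal InnerProductSpace

section
variable {I : Dat → Type} [∀ D, Fintype (I D)]

/-- `CD_eq_del`: `CF S = delF 1 (mul2 (parF 0 S)) - delF 0 (mul2 (parF 1 S))`. -/
theorem good_CF {j : ℕ} {S : Fam I} (hS : ∀ D i, TG (S D i)) (h : ∀ l, Good j (parF l S)) :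
    Good j (CF S) := by
  have h1 := (clo j).del ((clo j).mul2 (h 0)) 1
  have h2 := (clo j).del ((clo j).mul2 (h 1)) 0
  refine (h1.add (h2.const_mul (fun _ => -1) (C := 1) (by simp))).congr
    (fun D i => TG.CD D (hS D i)) fun D i p _ => ?_
  have := CD_eq_del D (hS D i) p
  simp only [CF, this, delF, neg_one_mul, ← sub_eq_add_neg]
  rfl

theorem Good.XF {j : ℕ} {S : Fam I} (h : Good (j + 1) S) : Good j (XF S) := by
  have h1 : Good j (BF S) := h.2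
  have h2 : Good j (CF S) := good_CF h.tg fun l => (clo j).par h.pred l
  refine (h1.add (h2.const_mul (fun D => D.κ) (C := 1) fun D => D.hκ)).congr
    (fun D i => TG.XD D (h.tg D i)) fun D i p _ => ?_
  exact XD_eq D (S D i) p

theorem Good.iter {j : ℕ} {S : Fam I} (h : Good j S) :
    H0 (I := I) fun D i => (XD D)^[j] (S D i) := by
  induction j generalizing S with
  | zero => exact h.g0.h0
  | succ j ih => exact ih h.XF

end

theorem good_T2 (j : ℕ) : Good (I := fun D => Fin D.d × Fin D.d) j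
    fun D x => TT D {x.1, x.2} := by
  refine (((clo j).root (Fin 2)).reidx fun D => (finTwoArrowEquiv (Fin D.d)).symm).congr
    (fun D x => tg_TT D (by simp)) fun D x p _ => ?_
  have : ms ((finTwoArrowEquiv (Fin D.d)).symm x) = {x.1, x.2} := by
    simp [ms]
    rfl
  simp only [TR, this]

theorem good_av (j : ℕ) (k : Fin 2) : Good (I := fun D => Fin D.d) j fun D c p => av D k p c := by
  exact (clo j).del (good_T2 j) k

theorem good_Cg (j : ℕ) : Good (I := fun D => Fin D.d) j fun D c p => CD D (gv D) p c := by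
  have h1 : Good (I := fun D => Fin D.d) j (CF fun D c => TT D {c}) := by
    refine good_CF (fun D c => tg_TT D (by simp)) fun l => ?_
    refine ((good_T2 j).theta_mul l).congr (fun D x => (tg_TT D (by simp)).par l x.1)
      fun D x p _ => ?_
    simp only [parF, par_TT]
    rfl
  refine h1.congr (fun D c => (TG.CD D (tg_gv D)).coord c) fun D c p _ => ?_
  have h2 := ((EuclideanSpace.proj c : E D.d →L[ℝ] ℝ).hasFDerivAt.comp p
    ((tg_gv D).sm.differentiable (by simp) p).hasFDerivAt).fderiv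
  have h3 : TT D {c} = (EuclideanSpace.proj c : E D.d →L[ℝ] ℝ) ∘ gv D := rfl
  simp only [CF, CD]
  rw [h3, h2]
  rfl

theorem sq_integral_le {Ω : Type*} [MeasurableSpace Ω] {μ : Measure Ω} [IsProbabilityMeasure μ]
    {u : Ω → ℝ} (h1 : Integrable u μ) (h2 : Integrable (fun ω => u ω ^ 2) μ) :
    (∫ ω, u ω ∂μ) ^ 2 ≤ ∫ ω, u ω ^ 2 ∂μ := by
  have h3 := integral_mono (μ := μ)
    (f := fun ω => 2 * (∫ ω, u ω ∂μ) * u ω - (∫ ω, u ω ∂μ) ^ 2) (g := fun ω => u ω ^ 2)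
    ((h1.const_mul _).sub (integrable_const _)) h2
    fun ω => by nlinarith [sq_nonneg (u ω - ∫ ω, u ω ∂μ)]
  rw [integral_sub (h1.const_mul _) (integrable_const _), integral_const_mul] at h3
  simp only [integral_const, probReal_univ, smul_eq_mul, one_mul] at h3
  nlinarith

/-- From `L²` bounds of the coordinates to `L¹` bounds of the norm (`XD_iter_clm` for the
coordinate projections, `EuclideanSpace.norm_sq_eq`, Cauchy–Schwarz on the probability space). -/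
theorem l1_of_good (j : ℕ) {ψ : ∀ D : Dat, Pt D.d → E D.d} (hψ : ∀ D, TG (ψ D))
    (h : Good (I := fun D => Fin D.d) j fun D c p => ψ D p c) :
    ∃ C : ℝ, 0 ≤ C ∧ ∀ (D : Dat) (θ : Th), ‖θ‖ < 1 / 2 →
      ∫ ω, ‖(XD D)^[j] (ψ D) (θ, ω)‖ ∂pm D.U θ ≤ C * √D.d := by
  obtain ⟨-, C, hC⟩ := h.iter
  refine ⟨√|C|, Real.sqrt_nonneg _, fun D θ hθ => ?_⟩
  have := pm_prob D.nice.cvx hθ.le
  have e : ∀ c : Fin D.d, (XD D)^[j] (fun p => ψ D p c) = fun p => (XD D)^[j] (ψ D) p c :=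
    fun c => XD_iter_clm D (EuclideanSpace.proj c : E D.d →L[ℝ] ℝ) (hψ D) j
  have hv := TG.XD_iter D (hψ D) j
  have h1 : ∫ ω, ∑ c, (XD D)^[j] (fun p => ψ D p c) (θ, ω) ^ 2 ∂pm D.U θ ≤ C * D.d := hC D θ hθ
  simp only [e] at h1
  generalize (XD D)^[j] (ψ D) = v at hv h1 ⊢
  have e2 : ∀ v : E D.d, ∑ c, v c ^ 2 = ‖v‖ ^ 2 := fun v => by
    simp [EuclideanSpace.norm_sq_eq]
  simp only [e2] at h1
  have i1 := (TG.integrable_pm D.nice.cvx hθ.le hv).norm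
  have hv2 : TG ((fun x : E D.d => ‖x‖ ^ 2) ∘ v) :=
    (Function.hasTemperateGrowth_norm_sq (E D.d)).comp hv
  have i2 := TG.integrable_pm D.nice.cvx hθ.le hv2
  simp only [Function.comp_apply] at i2
  rw [← Real.sqrt_mul (abs_nonneg _)]
  refine Real.le_sqrt_of_sq_le ((sq_integral_le i1 i2).trans (h1.trans ?_))
  exact mul_le_mul_of_nonneg_right (le_abs_self _) (Nat.cast_nonneg _)

theorem good_XDgv (j : ℕ) :
    Good (I := fun D => Fin D.d) j fun D c p => XD D (gv D) p c := by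
  have h1 := Good.sum (j := j) (I := fun D => Fin D.d) Finset.univ
    (S := fun k D c p => D.e k * av D k p c) fun k _ =>
      (good_av j k).const_mul (fun D => D.e k) (C := 1) fun D =>
        (norm_le_pi_norm D.e k).trans D.he
  refine (h1.add ((good_Cg j).const_mul (fun D => D.κ) (C := 1) fun D => D.hκ)).congr
    (fun D c => (TG.XD D (tg_gv D)).coord c) fun D c p hp => ?_
  rw [XD_gv D p hp]
  simp [Fin.sum_univ_two]

theorem tg_RV_apply (D : Dat) (k : Fin 2) : TG fun p => RV D p k :=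
  (tg_RV D).clm (ContinuousLinearMap.proj k)

theorem good_RV (j : ℕ) (k : Fin 2) :
    Good (I := fun D => Fin D.d) j fun D c p => RV D p k c := by
  fin_cases k
  · exact good_av j 1
  · refine ((good_av j 0).const_mul (fun _ => -1) (C := 1) (by simp)).congr
      (fun D c => (tg_RV_apply D 1).coord c) fun D c p _ => ?_
    simp [RV]

theorem norm_XD_XV_le (D : Dat) (i : ℕ) (p : Pt D.d) : ‖(XD D)^[i] (XV D) p‖ ≤
    D.h * ‖(XD D)^[i] (gv D) p‖ + ∑ k, ‖(XD D)^[i] (fun p => RV D p k) p‖ := by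
  have hh := D.hpos.le
  refine (pi_norm_le_iff_of_nonneg (by positivity)).2 fun k => ?_
  have e1 := congrFun (XD_iter_clm D (ContinuousLinearMap.proj k : Om D.d →L[ℝ] E D.d)
    (tg_XV D) i) p
  have e2 := XD_iter_clm D ((-(D.h * D.e k)) • ContinuousLinearMap.id ℝ (E D.d)) (tg_gv D) i
  have e3 := XD_iter_clm D (D.κ • ContinuousLinearMap.id ℝ (E D.d)) (tg_RV_apply D k) i
  have e4 := XD_iter_add D
    ((tg_gv D).clm ((-(D.h * D.e k)) • ContinuousLinearMap.id ℝ (E D.d)))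
    ((tg_RV_apply D k).clm (D.κ • ContinuousLinearMap.id ℝ (E D.d))) i
  rw [e2, e3] at e4
  have e5 : (XD D)^[i] (XV D) p k = (-(D.h * D.e k)) • (XD D)^[i] (gv D) p +
      D.κ • (XD D)^[i] (fun p => RV D p k) p := e1.symm.trans (congrFun e4 p)
  rw [e5]
  refine (norm_add_le _ _).trans (add_le_add ?_ ?_)
  · rw [norm_smul, norm_neg, norm_mul, Real.norm_of_nonneg hh]
    refine mul_le_mul_of_nonneg_right ?_ (norm_nonneg _)
    exact mul_le_of_le_one_right hh ((norm_le_pi_norm D.e k).trans D.he)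
  · rw [norm_smul]
    refine (mul_le_of_le_one_left (norm_nonneg _) D.hκ).trans ?_
    exact Finset.single_le_sum (f := fun k => ‖(XD D)^[i] (fun p => RV D p k) p‖)
      (fun _ _ => norm_nonneg _) (Finset.mem_univ k)

theorem l1_RV (i : ℕ) : ∃ C : ℝ, 0 ≤ C ∧ ∀ (D : Dat) (θ : Th), ‖θ‖ < 1 / 2 →
    ∫ ω, ‖(XD D)^[i] (XV D) (θ, ω)‖ ∂pm D.U θ ≤
      D.h * (∫ ω, ‖(XD D)^[i] (gv D) (θ, ω)‖ ∂pm D.U θ) + C * √D.d := by
  choose C hC0 hC using fun k => l1_of_good i (ψ := fun D p => RV D p k)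
    (fun D => tg_RV_apply D k) (good_RV i k)
  refine ⟨∑ k, C k, Finset.sum_nonneg fun k _ => hC0 k, fun D θ hθ => ?_⟩
  have i1 := (TG.integrable_pm D.nice.cvx hθ.le (TG.XD_iter D (tg_gv D) i)).norm.const_mul D.h
  have i2 := fun k => (TG.integrable_pm D.nice.cvx hθ.le (TG.XD_iter D (tg_RV_apply D k) i)).norm
  have i3 := integrable_finsetSum Finset.univ fun k _ => i2 k
  refine (integral_mono_of_nonneg (ae_of_all _ fun ω => norm_nonneg _) (i1.add i3)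
    (ae_of_all _ fun ω => norm_XD_XV_le D i (θ, ω))).trans ?_
  simp only [Pi.add_apply]
  rw [integral_add i1 i3, integral_const_mul, integral_finsetSum _ fun k _ => i2 k, Finset.sum_mul]
  exact add_le_add le_rfl (Finset.sum_le_sum fun k _ => hC k D θ hθ)

/-- The interface.  `XD gv = ∑ e_k av k + κ CD gv` on the region (`XD_gv`, `XD_iter_congr`);
`XV k = -(h e_k) gv ± κ av`. -/
theorem iface (j : ℕ) : ∃ C : ℝ, 1 ≤ C ∧ ∀ (D : Dat) (θ : Th), ‖θ‖ < 1 / 2 →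
    ∫ ω, ‖(XD D)^[j + 1] (gv D) (θ, ω)‖ ∂pm D.U θ ≤ C * √D.d ∧
    ∫ ω, ‖(XD D)^[j + 1] (XV D) (θ, ω)‖ ∂pm D.U θ ≤ C * √D.d ∧
    ∫ ω, ‖(XD D)^[j] (CD D (gv D)) (θ, ω)‖ ∂pm D.U θ ≤ C * √D.d := by
  obtain ⟨C1, hC1, h1⟩ := l1_of_good j (ψ := fun D => XD D (gv D))
    (fun D => TG.XD D (tg_gv D)) (good_XDgv j)
  obtain ⟨C2, hC2, h2⟩ := l1_RV (j + 1)
  obtain ⟨C3, hC3, h3⟩ := l1_of_good j (ψ := fun D => CD D (gv D))
    (fun D => TG.CD D (tg_gv D)) (good_Cg j)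
  refine ⟨1 + C1 + C2 + C3, by linarith, fun D θ hθ => ?_⟩
  have hd : 0 ≤ √(D.d : ℝ) := Real.sqrt_nonneg _
  have k1 : ∫ ω, ‖(XD D)^[j + 1] (gv D) (θ, ω)‖ ∂pm D.U θ ≤ C1 * √D.d := h1 D θ hθ
  have k0 : 0 ≤ ∫ ω, ‖(XD D)^[j + 1] (gv D) (θ, ω)‖ ∂pm D.U θ :=
    integral_nonneg fun _ => norm_nonneg _
  have k2 := h2 D θ hθ
  have k3 := h3 D θ hθ
  have k4 := mul_le_of_le_one_left k0 D.hle
  refine ⟨?_, ?_, ?_⟩ <;> nlinarith [mul_nonneg hC1 hd, mul_nonneg hC2 hd, mul_nonneg hC3 hd]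

/-- The field itself.  For `∫ ‖h gv‖` use `transport` with `K = 0` from `θ = 0` along
`e' = 2 θ`, `κ' = 0`, `t = 1/2` (data `{D with e := 2 • θ, κ := 0}`; `gv` does not depend on
`e, κ`), where `h gv (0, ω) = F U 1 0` (`gv_eq`). -/
theorem iface_XV : ∃ C : ℝ, 1 ≤ C ∧ ∀ (D : Dat) (θ : Th), ‖θ‖ < 1 / 2 →
    ∫ ω, ‖XV D (θ, ω)‖ ∂pm D.U θ ≤ C * (√D.d + ‖F D.U 1 0‖) := by
  obtain ⟨C1, hC1, h1⟩ := iface 0
  obtain ⟨C2, hC2, h2⟩ := l1_RV 0
  refine ⟨C1 + C2, by linarith, fun D θ hθ => ?_⟩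
  have hd : 0 ≤ √(D.d : ℝ) := Real.sqrt_nonneg _
  have k2 : ∫ ω, ‖XV D (θ, ω)‖ ∂pm D.U θ ≤
    D.h * (∫ ω, ‖gv D (θ, ω)‖ ∂pm D.U θ) + C2 * √D.d := h2 D θ hθ
  have he : ‖(2 : ℝ) • θ‖ ≤ 1 := by
    rw [norm_smul, Real.norm_ofNat]; linarith
  let D' : Dat := { D with e := (2 : ℝ) • θ, κ := 0, he := he, hκ := by simp }
  have hreg : ∀ s ∈ Icc (0 : ℝ) (1 / 2), ‖(0 : Th) + s • D'.e‖ < 1 / 2 := by
    intro s hs
    change ‖(0 : Th) + s • (2 : ℝ) • θ‖ < 1 / 2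
    rw [zero_add, smul_smul, norm_smul, Real.norm_of_nonneg (by linarith [hs.1])]
    nlinarith [hs.1, hs.2, norm_nonneg θ]
  have k3 := transport D' (tg_gv D') 0 0 (t := 1 / 2) (by norm_num) hreg zero_le_one lip_norm
    (B := C1 * √D.d) fun s hs => (h1 D' _ (hreg s hs)).1
  have e1 : (0 : Th) + (1 / 2 : ℝ) • D'.e = θ := by
    change (0 : Th) + (1 / 2 : ℝ) • (2 : ℝ) • θ = θ
    rw [zero_add, smul_smul]; norm_num
  have e2 : ∀ ω : Om D.d, Tay D' 0 (gv D') (1 / 2) (0, ω) = D.h⁻¹ • F D.U 1 0 := by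
    intro ω
    have : Tay D' 0 (gv D') (1 / 2) (0, ω) = gv D (0, ω) := by simp [Tay]; rfl
    rw [this, gv_eq D _ (by simp)]
    simp [Gf, lev, pos]
  have := pm_prob D.nice.cvx (θ := 0) (by simp)
  rw [e1] at k3
  have e3 : ∫ ω, ‖Tay D' 0 (gv D') (1 / 2) (0, ω)‖ ∂pm D.U 0 = D.h⁻¹ * ‖F D.U 1 0‖ := by
    simp only [e2]
    simp [norm_smul, abs_of_pos D.hpos]
  have k4 : ∫ ω, ‖gv D (θ, ω)‖ ∂pm D.U θ ≤ D.h⁻¹ * ‖F D.U 1 0‖ + C1 * √D.d := by
    have k5 := (abs_le.1 k3).1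
    change _ ≤ ∫ ω, ‖Tay D' 0 (gv D') (1 / 2) (0, ω)‖ ∂pm D.U 0 -
      ∫ ω, ‖gv D (θ, ω)‖ ∂pm D.U θ at k5
    rw [e3] at k5
    nlinarith [mul_nonneg (zero_le_one.trans hC1) hd]
  have k6 := mul_le_mul_of_nonneg_left k4 D.hpos.le
  rw [mul_add, ← mul_assoc, mul_inv_cancel₀ D.hpos.ne', one_mul] at k6
  have k7 := mul_le_of_le_one_left (mul_nonneg (zero_le_one.trans hC1) hd) D.hle
  nlinarith [norm_nonneg (F D.U 1 0), mul_nonneg hC2 (norm_nonneg (F D.U 1 0)),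
    mul_le_mul_of_nonneg_right hC1 (norm_nonneg (F D.U 1 0))]

end Crest.Agent.R285
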