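import Crest.Agent.R285.Tree
import Crest.Agent.R285.Approx2
import Crest.Agent.R285.Kern

/-! Row 285: the normalized field of a rescaled admissible potential, and field access from a
score engine. -/

set_option autoImplicit false

namespace Crest.Agent.R285

open MeasureTheory ProbabilityTheory Crest.OracleSampling Set
open scoped ENNReal NNReal InnerProductSpace

variable {d : ℕ} {V : E d → ℝ}

theorem Gf_resc (hV : Admissible d V) (u : E d) {v : ℝ} (hv : 0 < v) {θ : Th}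
    (hθ : ‖θ‖ ≤ 1 / 2) (ω : Om d) :
    Gf (resc V u v) v θ ω = (√v)⁻¹ • F V (v * lev θ) (u + √v • pos θ ω) := by
  have h0 : 0 < √v := Real.sqrt_pos.2 hv
  rw [Gf, F_resc (adm_cvx hV) u hv (by linarith [(lev_mem hθ).1]), smul_smul]
  congr 1
  nth_rewrite 1 [← Real.mul_self_sqrt hv.le]
  field_simp

theorem Gf_resc_norm_le (hV : Admissible d V) (u : E d) {v : ℝ} (hv : 0 < v) (hv' : v ≤ 1 / 4)
    {θ : Th} (hθ : ‖θ‖ ≤ 1 / 2) (ω : Om d) :
    ‖Gf (resc V u v) v θ ω‖ ≤ 4 * (√v)⁻¹ * (√d + ‖u‖ + √v * ‖ω‖) := by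
  have h0 : 0 < √v := Real.sqrt_pos.2 hv
  obtain ⟨h1, h2⟩ := lev_mem hθ
  have h3 := norm_F_le hV (v := v * lev θ) (by positivity) (by nlinarith) (u + √v • pos θ ω)
  have h4 : ‖u + √v • pos θ ω‖ ≤ ‖u‖ + √v * ‖ω‖ := by
    refine (norm_add_le _ _).trans ?_
    rw [norm_smul, Real.norm_of_nonneg h0.le]
    gcongr
    exact norm_pos_le hθ ω
  rw [Gf_resc hV u hv hθ, norm_smul, Real.norm_of_nonneg (inv_pos.2 h0).le, mul_comm 4, mul_assoc]
  exact mul_le_mul_of_nonneg_left (by linarith) (inv_pos.2 h0).le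

theorem F_resc_norm_le (hV : Admissible d V) (u : E d) {v : ℝ} (hv : 0 < v) (hv' : v ≤ 1 / 4) :
    √d + ‖F (resc V u v) 1 0‖ ≤ 3 * (√d + ‖u‖) := by
  have h1 : √v ≤ 1 / 2 := Real.sqrt_le_iff.2 ⟨by norm_num, by linarith⟩
  have h2 := norm_F_le hV hv hv' u
  rw [F_resc (adm_cvx hV) u hv one_pos, smul_zero, add_zero, mul_one, norm_smul,
    Real.norm_of_nonneg (Real.sqrt_nonneg _)]
  have h3 := mul_le_mul h1 h2 (norm_nonneg _) (by norm_num)
  linarith [norm_nonneg u]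

/-- `F_resc` with `u = 0`, `s = 1`, and `F_lip'` with `h = v`. -/
theorem F_lip_adm (hV : Admissible d V) {v : ℝ} (hv : 0 < v) : Lip Lg (F V v) := by
  have h0 : 0 < √v := Real.sqrt_pos.2 hv
  have h1 := F_lip' (nice_resc (adm_nice hV) 0 hv.le) hv (s := 1) (by norm_num) (by norm_num)
  intro x y
  have h2 := h1 ((√v)⁻¹ • x) ((√v)⁻¹ • y)
  rw [F_resc (adm_cvx hV) 0 hv one_pos, F_resc (adm_cvx hV) 0 hv one_pos, ← smul_sub, ← smul_sub,
    norm_smul, norm_smul, Real.norm_of_nonneg h0.le, Real.norm_of_nonneg (inv_pos.2 h0).le,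
    smul_inv_smul₀ h0.ne', smul_inv_smul₀ h0.ne', zero_add, zero_add, mul_one] at h2
  have h3 : Lg * v * ((√v)⁻¹ * ‖x - y‖) = √v * (Lg * ‖x - y‖) := by
    nth_rewrite 1 [← Real.mul_self_sqrt hv.le]
    field_simp
  rw [h3] at h2
  exact le_of_mul_le_mul_left h2 h0

theorem sch_resc (hV : Admissible d V) (u : E d) {v τ κb R : ℝ} {K : ℕ} (hv : 0 < v)
    (hκ : v ≤ κb) (hτ : 0 < τ) (hτ' : τ ≤ 1) (hs : 20 * Cq K ^ 2 * Lg * κb ≤ 1) (hR : R ≤ 1 / 2) :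
    Sch K τ v κb Lg R (Gf (resc V u v) v) :=
  ⟨hτ, hτ', hv.le, hκ, one_le_Lg, hs, fun _ hθ =>
    Gf_lip (nice_resc (adm_nice hV) u hv.le) hv (hθ.trans hR)⟩

/-- The point `x = u + √v pos θ (ω₀ + Δ) = (u + √v pos θ ω₀) + ∑ k, (√v θ k) • Δ k` is accessible
with cost `qb + 2 q`, noise `ρb + √v r s₁ ≤ ρ`, error `eb + √v e wt` (`|θ 0| + |θ 1| ≤ 1`), and
`√N + ‖x‖ ≤ Wt`.  Apply the engine at level `v lev θ` (`lev_mem`), scale by `c / √v`
(`Gf_resc`). -/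
theorem facc_of_eng {A : Type} [MeasurableSpace A] {N v σ ρ M ζ R r s₁ c qb ρb : ℝ}
    {u : Pot d → A → E d} {ω₀ : Pot d → A → Om d} {Gb wt wt' eb Wt : Pot d → A → ℝ}
    (hv : 0 < v) (hR : R ≤ 1 / 2) (hM : 1 ≤ M) (hζ : 0 ≤ ζ) (hc0 : 0 ≤ c) (hc : c ≤ 1)
    (hr : 0 ≤ r) (hs₁ : 0 ≤ s₁) (hρb : 0 ≤ ρb) (hρ : ρb + √v * (r * s₁) ≤ ρ)
    (hE : ∀ v', v / 2 ≤ v' → v' ≤ v → Eng d N v' σ ρ M ζ)
    (hb : ∀ θ : Th, ‖θ‖ ≤ R → Acc qb ρb eb fun V a => u V a + √v • pos θ (ω₀ V a))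
    (hw : ∀ V a, 0 ≤ wt V a)
    (hW : ∀ V a, √N + ‖u V a‖ + √v * (‖ω₀ V a‖ + r * Gb V a) ≤ Wt V a)
    (hwt : ∀ V a, c * (√v)⁻¹ * (eb V a + ζ * Wt V a) ≤ wt V a + wt' V a) :
    FAcc ω₀ Gb wt wt' s₁ (qb + 1) R r (2 * M) (c * (√v)⁻¹ * σ)
      fun V a θ ω => c • Gf (resc V.1 (u V a) v) v θ ω := by
  intro θ hθ q e Δ hq he hΔ
  have h0 : 0 < √v := Real.sqrt_pos.2 hv
  have hθ' : ‖θ‖ ≤ 1 / 2 := hθ.trans hR
  obtain ⟨l1, l2⟩ := lev_mem hθ'
  have A0 := hb θ hθ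
  have hqb : 0 ≤ qb := App.q_nonneg A0
  have heb : ∀ V a, 0 ≤ eb V a := App.e_nonneg A0
  have A1 := Acc.sum Finset.univ (fun k => √v * θ k) (u := fun k V a => Δ V a k)
    (fun k _ => hΔ.2 k) (mul_nonneg hr hs₁)
  have s0 : 0 ≤ ∑ k, |√v * θ k| := Finset.sum_nonneg fun _ _ => abs_nonneg _
  have s1 : ∑ k, |√v * θ k| ≤ √v := by
    have a : ∀ k, |√v * θ k| ≤ √v / 2 := fun k => by
      have := (norm_le_pi_norm θ k).trans hθ'
      rw [Real.norm_eq_abs] at this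
      rw [abs_mul, abs_of_pos h0]
      nlinarith
    rw [Fin.sum_univ_two]
    linarith [a 0, a 1]
  have A2 := (A0.add A1 (σ := ρ) (by
    rw [abs_of_nonneg hρb, abs_of_nonneg (mul_nonneg s0 (mul_nonneg hr hs₁))]
    linarith [mul_le_mul_of_nonneg_right s1 (mul_nonneg hr hs₁)])).congr
      (u' := fun V a => u V a + √v • pos θ (ω₀ V a + Δ V a)) fun V a => by
        rw [pos_add, smul_add, add_assoc, pos, pos, Finset.smul_sum (f := fun k => θ k • Δ V a k)]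
        simp only [smul_smul]
  have A3 := (hE (v * lev θ) (by nlinarith) (by nlinarith) A _ _ _ A2).smul (c * (√v)⁻¹)
  refine (A3.mono ?_ fun V a => ?_).congr fun V a => ?_
  · simp only [Finset.card_univ, Fintype.card_fin, Nat.cast_ofNat]
    nlinarith
  · have hci : 0 ≤ c * (√v)⁻¹ := by positivity
    have b1 : √N + ‖u V a + √v • pos θ (ω₀ V a + Δ V a)‖ ≤ Wt V a := by
      refine le_trans ?_ (hW V a)
      rw [add_assoc]
      gcongr
      refine (norm_add_le _ _).trans ?_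
      rw [norm_smul, Real.norm_of_nonneg h0.le]
      gcongr
      exact (norm_pos_le hθ' _).trans ((norm_add_le _ _).trans (by linarith [hΔ.1 V a]))
    have b2 : 0 ≤ Wt V a := le_trans (by positivity) b1
    have b3 : c * (√v)⁻¹ * ((∑ k, |√v * θ k|) * (e * wt V a)) ≤ e * wt V a := by
      have b4 : 0 ≤ e * wt V a := mul_nonneg he (hw V a)
      rw [← mul_assoc]
      refine mul_le_of_le_one_left b4 ?_
      calc _ ≤ 1 * (√v)⁻¹ * √v := by gcongr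
        _ = 1 := by field_simp
    have b5 := mul_le_mul_of_nonneg_left (mul_le_mul_of_nonneg_left b1 hζ) hci
    have b6 := hwt V a
    have b7 : 0 ≤ c * (√v)⁻¹ * (eb V a + ζ * Wt V a) :=
      mul_nonneg hci (add_nonneg (heb V a) (mul_nonneg hζ b2))
    have b8 : 0 ≤ e * wt V a := mul_nonneg he (hw V a)
    rw [abs_of_nonneg hci, mul_left_comm]
    calc _ ≤ M * ((e + 1) * wt V a + wt' V a) :=
          mul_le_mul_of_nonneg_left (by linarith) (by linarith)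
      _ ≤ _ := mul_le_mul_of_nonneg_right (by linarith) (by linarith)
  · dsimp only
    rw [Gf_resc (V := V.1) V.2 _ hv hθ', smul_smul]

end Crest.Agent.R285
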