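import Crest.Agent.R285.Rules

/-! Row 285: the laws `pm U θ`: integrability, integration by parts, the weak continuity
equation. -/

set_option autoImplicit false

namespace Crest.Agent.R285

open MeasureTheory ProbabilityTheory Crest.OracleSampling Set
open scoped ENNReal NNReal InnerProductSpace

variable {d : ℕ} {U : E d → ℝ}

/-! ### Continuous functions of polynomial growth -/

section MG
variable {X Y W : Type*} [NormedAddCommGroup X] [NormedAddCommGroup Y] [NormedAddCommGroup W]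

/-- Continuous with polynomial growth. -/
def MG (f : X → Y) : Prop :=
  Continuous f ∧ ∃ (C : ℝ) (N : ℕ), 0 ≤ C ∧ ∀ p, ‖f p‖ ≤ C * (1 + ‖p‖) ^ N

theorem MG.mk' {f : X → Y} (hf : Continuous f) {C : ℝ} {N : ℕ}
    (h : ∀ p, ‖f p‖ ≤ C * (1 + ‖p‖) ^ N) : MG f :=
  ⟨hf, |C|, N, abs_nonneg C, fun p => (h p).trans (by gcongr; exact le_abs_self C)⟩

theorem MG.of_le {f : X → Y} {g : X → W} (hg : MG g) (hf : Continuous f)
    (h : ∀ p, ‖f p‖ ≤ ‖g p‖) : MG f := by
  obtain ⟨-, C, N, hC, hb⟩ := hg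
  exact ⟨hf, C, N, hC, fun p => (h p).trans (hb p)⟩

theorem mg_const (c : Y) : MG fun _ : X => c :=
  ⟨continuous_const, ‖c‖, 0, norm_nonneg c, fun p => by simp⟩

theorem mg_id : MG fun x : X => x :=
  ⟨continuous_id, 1, 1, zero_le_one, fun p => by simp⟩

theorem MG.norm {f : X → Y} (hf : MG f) : MG fun p => ‖f p‖ :=
  hf.of_le hf.1.norm fun p => by simp

theorem MG.add {f g : X → Y} (hf : MG f) (hg : MG g) : MG fun p => f p + g p := by
  obtain ⟨h1, C, N, hC, hb⟩ := hf
  obtain ⟨h2, C', N', hC', hb'⟩ := hg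
  refine ⟨h1.add h2, C + C', N + N', by positivity, fun p => ?_⟩
  have h0 : 1 ≤ 1 + ‖p‖ := le_add_of_nonneg_right (norm_nonneg p)
  have a1 := mul_le_mul_of_nonneg_left (pow_le_pow_right₀ h0 (Nat.le_add_right N N')) hC
  have a2 := mul_le_mul_of_nonneg_left (pow_le_pow_right₀ h0 (Nat.le_add_left N' N)) hC'
  have := norm_add_le (f p) (g p)
  rw [add_mul]
  linarith [hb p, hb' p]

theorem MG.neg {f : X → Y} (hf : MG f) : MG fun p => -f p :=
  hf.of_le hf.1.neg fun p => by simp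

theorem MG.sub {f g : X → Y} (hf : MG f) (hg : MG g) : MG fun p => f p - g p := by
  simpa only [sub_eq_add_neg] using hf.add hg.neg

theorem MG.mul {f g : X → ℝ} (hf : MG f) (hg : MG g) : MG fun p => f p * g p := by
  obtain ⟨h1, C, N, hC, hb⟩ := hf
  obtain ⟨h2, C', N', hC', hb'⟩ := hg
  refine ⟨h1.mul h2, C * C', N + N', by positivity, fun p => ?_⟩
  rw [norm_mul, pow_add, mul_mul_mul_comm]
  exact mul_le_mul (hb p) (hb' p) (norm_nonneg _) (by positivity)

theorem MG.sum {ι : Type*} (s : Finset ι) {f : ι → X → Y} (hf : ∀ i ∈ s, MG (f i)) :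
    MG fun p => ∑ i ∈ s, f i p := by
  classical
  induction s using Finset.induction_on with
  | empty => simpa using mg_const (0 : Y)
  | insert a s ha ih =>
    simp only [Finset.sum_insert ha]
    exact (hf a (by simp)).add (ih fun i hi => hf i (by simp [hi]))

theorem MG.comp {f : Y → W} {g : X → Y} (hf : MG f) (hg : MG g) : MG fun p => f (g p) := by
  obtain ⟨h1, C, N, hC, hb⟩ := hf
  obtain ⟨h2, C', N', hC', hb'⟩ := hg
  refine ⟨h1.comp h2, C * (1 + C') ^ N, N' * N, by positivity, fun p => (hb _).trans ?_⟩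
  have h0 : 1 ≤ (1 + ‖p‖) ^ N' := one_le_pow₀ (le_add_of_nonneg_right (norm_nonneg p))
  rw [mul_assoc, pow_mul, ← mul_pow]
  gcongr
  linarith [hb' p]

theorem MG.prodMk {f : X → Y} {g : X → W} (hf : MG f) (hg : MG g) : MG fun p => (f p, g p) :=
  (hf.norm.add hg.norm).of_le (hf.1.prodMk hg.1) fun p => by
    rw [Prod.norm_def, Real.norm_of_nonneg (by positivity)]
    exact max_le (le_add_of_nonneg_right (norm_nonneg _)) (le_add_of_nonneg_left (norm_nonneg _))

theorem mg_snd : MG fun p : X × Y => p.2 := mg_id.of_le continuous_snd fun p => norm_snd_le p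

variable [NormedSpace ℝ X] [NormedSpace ℝ Y]

theorem TG.mg {f : X → Y} (hf : TG f) : MG f := by
  obtain ⟨C, N, h⟩ := hf.growth
  exact MG.mk' hf.sm.continuous h

theorem PG1.mg {f : X → Y} (hf : PG1 f) : MG f := by
  obtain ⟨h1, C, N, h⟩ := hf
  exact MG.mk' h1.continuous fun p => (h p).1

theorem PG1.mg_fderiv {f : X → Y} (hf : PG1 f) : MG (fderiv ℝ f) := by
  obtain ⟨h1, C, N, h⟩ := hf
  exact MG.mk' (h1.continuous_fderiv one_ne_zero) fun p => (h p).2

theorem MG.clm_apply {T : W → X →L[ℝ] Y} {V : W → X} (hT : MG T) (hV : MG V) :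
    MG fun p => T p (V p) :=
  (hT.norm.mul hV.norm).of_le (hT.1.clm_apply hV.1) fun p =>
    ((T p).le_opNorm _).trans (le_abs_self _)

end MG

theorem pow_le_exp {t : ℝ} (ht : 0 ≤ t) (N : ℕ) : (1 + t) ^ N ≤ Real.exp (N * t) := by
  rw [Real.exp_nat_mul]
  gcongr
  linarith [Real.add_one_le_exp t]

theorem integrable_exp_pi' (a : ℝ) :
    Integrable (fun ω : Om d => Real.exp (a * ‖ω‖)) (Measure.pi fun _ : Fin 2 => gam d) := by
  have h := Integrable.fintype_prod (μ := fun _ : Fin 2 => gam d)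
    (f := fun _ ξ => Real.exp (|a| * ‖ξ‖)) fun _ => integrable_exp_norm_gam |a|
  refine h.mono' (by fun_prop) (Filter.Eventually.of_forall fun ω => ?_)
  rw [Real.norm_eq_abs, Real.abs_exp, ← Real.exp_sum, Real.exp_le_exp, ← Finset.mul_sum]
  have : ‖ω‖ ≤ ∑ i, ‖ω i‖ := (pi_norm_le_iff_of_nonneg (by positivity)).2 fun i =>
    Finset.single_le_sum (f := fun i => ‖ω i‖) (fun _ _ => norm_nonneg _) (Finset.mem_univ i)
  calc a * ‖ω‖ ≤ |a| * ‖ω‖ := by gcongr; exact le_abs_self a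
    _ ≤ _ := by gcongr

theorem continuous_pos (θ : Th) : Continuous fun ω : Om d => pos θ ω := by
  unfold pos
  fun_prop

theorem continuous_Z_pos (hU : ConvexOn ℝ univ U) (θ : Th) :
    Continuous fun ω : Om d => Z U (lev θ) (pos θ ω) :=
  (continuous_Z hU).comp (continuous_const.prodMk (continuous_pos θ))

theorem Z_pos_le (hU : ConvexOn ℝ univ U) : ∃ C, 0 ≤ C ∧ ∀ θ : Th, ‖θ‖ ≤ 1 / 2 → ∀ ω : Om d,
    Z U (lev θ) (pos θ ω) ≤ C * Real.exp (C * ‖ω‖) := by
  obtain ⟨C, hC, h⟩ := Z_le hU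
  refine ⟨C, hC, fun θ hθ ω => (h _ (by linarith [(lev_mem hθ).2]) _).trans ?_⟩
  gcongr
  exact norm_pos_le hθ ω

/-- `Z · f` is integrable for the Gaussian when `f` has at most exponential growth. -/
theorem integrable_Z_mul (hU : ConvexOn ℝ univ U) {θ : Th} (hθ : ‖θ‖ ≤ 1 / 2) {f : Om d → ℝ}
    (hf : Continuous f) {C a : ℝ} (h : ∀ ω, ‖f ω‖ ≤ C * Real.exp (a * ‖ω‖)) :
    Integrable (fun ω => Z U (lev θ) (pos θ ω) * f ω) (Measure.pi fun _ : Fin 2 => gam d) := by
  obtain ⟨C', hC', hZ⟩ := Z_pos_le hU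
  refine ((integrable_exp_pi' (C' + a)).const_mul (C' * C)).mono'
    ((continuous_Z_pos hU θ).mul hf).aestronglyMeasurable (Filter.Eventually.of_forall fun ω => ?_)
  rw [norm_mul, Real.norm_of_nonneg (Z_pos hU _ _).le, add_mul, Real.exp_add, mul_mul_mul_comm]
  exact mul_le_mul (hZ θ hθ ω) (h ω) (norm_nonneg _) (by positivity)

theorem MG.exp_bound {X Y : Type*} [NormedAddCommGroup X] [NormedAddCommGroup Y] {f : X → Y}
    (hf : MG f) : ∃ C a : ℝ, 0 ≤ C ∧ 0 ≤ a ∧ ∀ p, ‖f p‖ ≤ C * Real.exp (a * ‖p‖) := by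
  obtain ⟨-, C, N, hC, h⟩ := hf
  exact ⟨C, N, hC, N.cast_nonneg, fun p => (h p).trans
    (mul_le_mul_of_nonneg_left (pow_le_exp (norm_nonneg p) N) hC)⟩

theorem MG.integrable_Z_mul (hU : ConvexOn ℝ univ U) {θ : Th} (hθ : ‖θ‖ ≤ 1 / 2) {f : Om d → ℝ}
    (hf : MG f) :
    Integrable (fun ω => Z U (lev θ) (pos θ ω) * f ω) (Measure.pi fun _ : Fin 2 => gam d) := by
  obtain ⟨C, a, -, -, h⟩ := hf.exp_bound
  exact R285.integrable_Z_mul hU hθ hf.1 h

theorem integrable_Z_pos (hU : ConvexOn ℝ univ U) {θ : Th} (hθ : ‖θ‖ ≤ 1 / 2) :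
    Integrable (fun ω => Z U (lev θ) (pos θ ω)) (Measure.pi fun _ : Fin 2 => gam d) := by
  simpa using (mg_const (1 : ℝ)).integrable_Z_mul hU hθ

theorem measurable_vec2 : Measurable fun p : E d × E d => (![p.1, p.2] : Om d) :=
  (MeasurableEquiv.finTwoArrow (α := E d)).symm.measurable

theorem withDensity_map' {α β : Type*} [MeasurableSpace α] [MeasurableSpace β] (μ : Measure α)
    {e : α → β} (he : Measurable e) {ρ : β → ℝ≥0∞} (hρ : Measurable ρ) :
    (μ.map e).withDensity ρ = (μ.withDensity fun x => ρ (e x)).map e := by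
  ext s hs
  rw [withDensity_apply _ hs, Measure.map_apply he hs, withDensity_apply _ (he hs),
    setLIntegral_map hs hρ he]

/-- The normalization does not depend on `θ` (`pi_gam_eq_map`, `Z_semigroup` twice). -/
theorem integral_Z_pos (hU : ConvexOn ℝ univ U) {θ : Th} (hθ : ‖θ‖ ≤ 1 / 2) :
    ∫ ω, Z U (lev θ) (pos θ ω) ∂(Measure.pi fun _ : Fin 2 => gam d) = Z U 1 0 := by
  have hmp := (measurePreserving_finTwoArrow (gam d)).symm _
  rw [← hmp.integral_comp']
  refine (integral_prod _ (hmp.integrable_comp_of_integrable (integrable_Z_pos hU hθ))).trans ?_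
  have hl : 0 ≤ lev θ := by linarith [(lev_mem hθ).1]
  have e1 : ∀ x y : E d, pos θ (MeasurableEquiv.finTwoArrow.symm (x, y)) = θ 0 • x + θ 1 • y := by
    intro x y
    simp [pos, Fin.sum_univ_two]
  simp only [Function.comp_apply, e1, Z_semigroup hU hl]
  have := Z_semigroup hU (s := lev θ + θ 1 ^ 2) (by positivity) (θ 0) 0
  simp only [zero_add] at this
  rw [this]
  congr 1
  simp only [lev, Fin.sum_univ_two]
  ring

theorem pm_prob (hU : ConvexOn ℝ univ U) {θ : Th} (hθ : ‖θ‖ ≤ 1 / 2) :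
    IsProbabilityMeasure (pm U θ) := by
  exact isProbabilityMeasure_tilted (by simpa only [exp_neg_Phi hU] using integrable_Z_pos hU hθ)

theorem integral_pm {Y : Type*} [NormedAddCommGroup Y] [NormedSpace ℝ Y]
    (hU : ConvexOn ℝ univ U) {θ : Th} (hθ : ‖θ‖ ≤ 1 / 2) (f : Om d → Y) :
    ∫ ω, f ω ∂pm U θ = ∫ ω, (Z U (lev θ) (pos θ ω) / Z U 1 0) • f ω
      ∂(Measure.pi fun _ : Fin 2 => gam d) := by
  rw [pm, integral_tilted]
  simp only [exp_neg_Phi hU, integral_Z_pos hU hθ]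

theorem integrable_exp_pi (a : ℝ) :
    Integrable (fun ω : Om d => Real.exp (a * ‖ω‖)) (Measure.pi fun _ : Fin 2 => gam d) := by
  exact integrable_exp_pi' a

theorem MG.integrable_pm {Y : Type*} [NormedAddCommGroup Y] (hU : ConvexOn ℝ univ U) {θ : Th}
    (hθ : ‖θ‖ ≤ 1 / 2) {f : Om d → Y} (hf : MG f) : Integrable f (pm U θ) := by
  have : Integrable (fun ω => ‖f ω‖) (pm U θ) := by
    rw [pm, integrable_tilted_iff (by simpa only [exp_neg_Phi hU] using integrable_Z_pos hU hθ)]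
    simpa only [exp_neg_Phi hU, smul_eq_mul] using hf.norm.integrable_Z_mul hU hθ
  exact (integrable_norm_iff hf.1.aestronglyMeasurable).1 this

theorem MG.slice {Y : Type*} [NormedAddCommGroup Y] {f : Pt d → Y} (hf : MG f) (θ : Th) :
    MG fun ω : Om d => f (θ, ω) := hf.comp ((mg_const θ).prodMk mg_id)

theorem integrable_pm {Y : Type*} [NormedAddCommGroup Y] (hU : ConvexOn ℝ univ U) {θ : Th}
    (hθ : ‖θ‖ ≤ 1 / 2) {f : Om d → Y} (hf : Continuous f) {C : ℝ} {N : ℕ}
    (h : ∀ ω, ‖f ω‖ ≤ C * (1 + ‖ω‖) ^ N) : Integrable f (pm U θ) := by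
  exact (MG.mk' hf h).integrable_pm hU hθ

theorem TG.integrable_pm {Y : Type*} [NormedAddCommGroup Y] [NormedSpace ℝ Y]
    (hU : ConvexOn ℝ univ U) {θ : Th} (hθ : ‖θ‖ ≤ 1 / 2) {f : Pt d → Y} (hf : TG f) :
    Integrable (fun ω => f (θ, ω)) (pm U θ) := by
  exact (hf.mg.slice θ).integrable_pm hU hθ

theorem Lip.integrable_pm {Y : Type*} [NormedAddCommGroup Y] (hU : ConvexOn ℝ univ U) {θ : Th}
    (hθ : ‖θ‖ ≤ 1 / 2) {f : Om d → Y} {L : ℝ} (hf : Lip L f) : Integrable f (pm U θ) := by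
  refine R285.integrable_pm hU hθ hf.continuous (C := ‖f 0‖ + |L|) (N := 1) fun ω => ?_
  have h1 := hf.norm_le ω 0
  rw [sub_zero] at h1
  have h2 := mul_le_mul_of_nonneg_right (le_abs_self L) (norm_nonneg ω)
  nlinarith [norm_nonneg (f 0), norm_nonneg ω, abs_nonneg L]

theorem pm_zero (U : E d → ℝ) : pm U 0 = Measure.pi fun _ : Fin 2 => gam d := by
  simp only [pm, pos, Pi.zero_apply, zero_smul, Finset.sum_const_zero]
  exact tilted_const _ _

theorem pm_eu (hU : ConvexOn ℝ univ U) {t : ℝ} (ht : |t| ≤ 1 / 2) :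
    IsProbabilityMeasure (kd U t) ∧
      pm U (t • eu 0) = ((kd U t).prod (gam d)).map fun p => ![p.1, p.2] := by
  have hθ : ‖t • eu 0‖ ≤ 1 / 2 := by rw [norm_smul, norm_eu, mul_one]; exact ht
  have hl : lev (t • eu 0) = 1 - t ^ 2 := by simp [lev, eu, Fin.sum_univ_two]
  have hp : ∀ ω : Om d, pos (t • eu 0) ω = t • ω 0 := by
    intro ω
    simp [pos, eu, Fin.sum_univ_two]
  have hl0 : 0 ≤ 1 - t ^ 2 := by linarith [(lev_mem hθ).1]
  have hc : Continuous fun η : E d => Z U (1 - t ^ 2) (t • η) :=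
    (continuous_Z hU).comp (by fun_prop : Continuous fun η : E d => (1 - t ^ 2, t • η))
  have hi : Integrable (fun η : E d => Z U (1 - t ^ 2) (t • η)) (gam d) := by
    obtain ⟨C, hC, h⟩ := Z_le hU
    refine integrable_gam_of_le hc.aestronglyMeasurable (C := C) (a := C * |t|) fun η => ?_
    rw [Real.norm_of_nonneg (Z_pos hU _ _).le, mul_assoc, ← Real.norm_eq_abs, ← norm_smul]
    exact h _ (by nlinarith) _
  have hI : ∫ η, Z U (1 - t ^ 2) (t • η) ∂gam d = Z U 1 0 := by
    simpa using Z_semigroup hU hl0 t 0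
  refine ⟨isProbabilityMeasure_tilted (by simpa only [exp_neg_Phi hU] using hi), ?_⟩
  rw [pm, kd, Measure.tilted, Measure.tilted]
  simp only [exp_neg_Phi hU, integral_Z_pos hU hθ, hI]
  simp only [hl, hp]
  have hm : Measurable fun η : E d => ENNReal.ofReal (Z U (1 - t ^ 2) (t • η) / Z U 1 0) :=
    (hc.measurable.div_const _).ennreal_ofReal
  rw [prod_withDensity_left hm, pi_gam_eq_map]
  exact withDensity_map' _ measurable_vec2 (hm.comp (measurable_pi_apply 0))

/-- The Gaussian density on `Om d`. -/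
noncomputable def gden (ω : Om d) : ℝ :=
  ((√(2 * Real.pi))⁻¹ ^ d) ^ 2 * Real.exp (-(‖ω 0‖ ^ 2 + ‖ω 1‖ ^ 2) / 2)

theorem pi_gam_eq_withDensity : (Measure.pi fun _ : Fin 2 => gam d) =
    (volume : Measure (Om d)).withDensity fun ω => ENNReal.ofReal (gden ω) := by
  have hv : (volume : Measure (Om d)) = ((volume : Measure (E d)).prod volume).map
      fun p => ![p.1, p.2] := ((measurePreserving_finTwoArrow volume).symm _).map_eq.symm
  rw [pi_gam_eq_map, hv, withDensity_map' _ measurable_vec2 (by unfold gden; fun_prop), gam,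
    R215.stdGaussian_eq_withDensity, prod_withDensity (by fun_prop) (by fun_prop)]
  congr 2
  funext p
  rw [← ENNReal.ofReal_mul (by positivity), gden, finrank_euclideanSpace_fin]
  congr 1
  simp only [Matrix.cons_val_zero, Matrix.cons_val_one, neg_add, add_div, Real.exp_add]
  ring

theorem gden_nonneg (ω : Om d) : 0 ≤ gden ω := by unfold gden; positivity

theorem integral_pi_gam (f : Om d → ℝ) :
    ∫ ω, f ω ∂(Measure.pi fun _ : Fin 2 => gam d) = ∫ ω, f ω * gden ω := by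
  rw [pi_gam_eq_withDensity, integral_withDensity_eq_integral_toReal_smul (by unfold gden; fun_prop)
    (Filter.Eventually.of_forall fun _ => ENNReal.ofReal_lt_top)]
  simp only [ENNReal.toReal_ofReal (gden_nonneg _), smul_eq_mul, mul_comm]

theorem integrable_pi_gam {f : Om d → ℝ} (hf : Integrable f (Measure.pi fun _ : Fin 2 => gam d)) :
    Integrable fun ω => f ω * gden ω := by
  rw [pi_gam_eq_withDensity, integrable_withDensity_iff_integrable_smul' (by unfold gden; fun_prop)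
    (Filter.Eventually.of_forall fun _ => ENNReal.ofReal_lt_top)] at hf
  simpa only [ENNReal.toReal_ofReal (gden_nonneg _), smul_eq_mul, mul_comm] using hf

theorem hasLineDerivAt_gden (k : Fin 2) (c : Fin d) (ω : Om d) :
    HasLineDerivAt ℝ gden (-(ω k c) * gden ω) ω (Pi.single k (ex c)) := by
  have h : ∀ l : Fin 2, HasDerivAt (fun t : ℝ => ‖(ω + t • (Pi.single k (ex c) : Om d)) l‖ ^ 2)
      (2 * ⟪ω l, (Pi.single k (ex c) : Om d) l⟫_ℝ) 0 := by
    intro l
    have h1 : HasDerivAt (fun t : ℝ => ω l + t • (Pi.single k (ex c) : Om d) l)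
        ((Pi.single k (ex c) : Om d) l) 0 := by
      simpa using ((hasDerivAt_id' (0 : ℝ)).smul_const ((Pi.single k (ex c) : Om d) l)).const_add (ω l)
    simpa using h1.norm_sq
  have h2 := ((((h 0).fun_add (h 1)).fun_neg.div_const 2).exp).const_mul
    (((√(2 * Real.pi))⁻¹ ^ d) ^ 2)
  refine h2.congr_deriv ?_
  simp only [zero_smul, add_zero, gden]
  fin_cases k <;> simp [ex, EuclideanSpace.inner_single_right] <;> ring

/-- Gaussian integration by parts on `Om d`. -/
theorem stein_pi (k : Fin 2) (c : Fin d) {G G' : Om d → ℝ}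
    (hG : ∀ ω, HasLineDerivAt ℝ G (G' ω) ω (Pi.single k (ex c)))
    (h0 : Integrable G (Measure.pi fun _ : Fin 2 => gam d))
    (h1 : Integrable G' (Measure.pi fun _ : Fin 2 => gam d))
    (h2 : Integrable (fun ω => ω k c * G ω) (Measure.pi fun _ : Fin 2 => gam d)) :
    ∫ ω, (ω k c * G ω - G' ω) ∂(Measure.pi fun _ : Fin 2 => gam d) = 0 := by
  have e : ∀ ω : Om d, G ω * (-(ω k c) * gden ω) = -(ω k c * G ω * gden ω) := fun ω => by ring
  have h := integral_bilinear_hasLineDerivAt_right_eq_neg_left_of_integrable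
    (μ := (volume : Measure (Om d))) (B := ContinuousLinearMap.mul ℝ ℝ) (f := G) (f' := G')
    (g := gden) (g' := fun ω => -(ω k c) * gden ω) (v := Pi.single k (ex c))
    (integrable_pi_gam h1) (by simpa only [ContinuousLinearMap.mul_apply', e] using
      (integrable_pi_gam h2).fun_neg) (integrable_pi_gam h0) (fun ω _ => hG ω)
    (fun ω _ => hasLineDerivAt_gden k c ω)
  simp only [ContinuousLinearMap.mul_apply', e, integral_neg, neg_inj] at h
  rw [integral_sub h2 h1, integral_pi_gam, integral_pi_gam, h, sub_self]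

theorem exp_neg_PhT (hU : ConvexOn ℝ univ U) {θ : Th} (hθ : ‖θ‖ ≤ 1 / 2) (x : E d) :
    Real.exp (-PhT U (lev θ, x)) = Z U (lev θ) x := by
  have := lev_mem hθ
  rw [PhT, psi_eq (by linarith [this.1]) (by linarith [this.2]), exp_neg_Phi hU]

theorem PG1.mg_par {f : Pt d → ℝ} (hf : PG1 f) (k : Fin 2) (c : Fin d) : MG (par k c f) :=
  hf.mg_fderiv.clm_apply (mg_const _)

theorem PG1.mg_del (D : Dat) {f : Pt D.d → ℝ} (hf : PG1 f) (k : Fin 2) (c : Fin D.d) :
    MG (del D k c f) :=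
  (((tg_omega D.d k c).mg.add (((mg_const D.h).mul (tg_theta D.d k).mg).mul
    (tg_TT D (Multiset.singleton_ne_zero c)).mg)).mul hf.mg).sub (hf.mg_par k c)

/-- Integration by parts.  Write `Measure.pi γ` as Lebesgue measure on `Om d` with density
`c e^{-∑ ‖ω k‖²/2}` (`stdGaussian_eq_withDensity`, product of densities), so the density of
`pm` is `ρ = c' exp(-∑ ‖ω k‖²/2 - PhT U (lev θ, pos θ ω))` with
`∂ρ = -(ω k c + h θ_k TT {c}) ρ` (`D1_PhT`, `Tn_single`, `psi_eq`); then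
`integral_mul_fderiv_eq_neg_fderiv_mul_of_integrable` for `ω ↦ f (θ, ω)` and `ρ`. -/
theorem integral_del (D : Dat) {θ : Th} (hθ : ‖θ‖ ≤ 1 / 2) {f : Pt D.d → ℝ} (hf : PG1 f)
    (k : Fin 2) (c : Fin D.d) : ∫ ω, del D k c f (θ, ω) ∂pm D.U θ = 0 := by
  have hU := D.nice.cvx
  set v : Om D.d := Pi.single k (ex c) with hv
  have hT : ∀ ω, D.h * TT D {c} (θ, ω) = D1 ((0 : ℝ), ex c) (PhT D.U) (lev θ, pos θ ω) := by
    intro ω
    rw [TT, Tn_single hU, D1_PhT hU, ← mul_assoc, mul_inv_cancel₀ D.hpos.ne', one_mul]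
  have hZ : ∀ ω, HasLineDerivAt ℝ (fun ω => Z D.U (lev θ) (pos θ ω))
      (Z D.U (lev θ) (pos θ ω) * -(D.h * θ k * TT D {c} (θ, ω))) ω v := by
    intro ω
    have e : ∀ t : ℝ, (lev θ, pos θ (ω + t • v)) =
        (lev θ, pos θ ω) + t • θ k • ((0 : ℝ), ex c) := by
      intro t
      rw [pos_add]
      fin_cases k <;> simp [pos, hv, Fin.sum_univ_two, smul_smul, mul_comm]
    have h1 : HasDerivAt (fun t : ℝ => (lev θ, pos θ ω) + t • θ k • ((0 : ℝ), ex c))
        (θ k • ((0 : ℝ), ex c)) 0 := by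
      simpa using ((hasDerivAt_id' (0 : ℝ)).smul_const (θ k • ((0 : ℝ), ex (d := D.d) c))).const_add
        (lev θ, pos θ ω)
    have h2 : HasFDerivAt (PhT D.U) (fderiv ℝ (PhT D.U) (lev θ, pos θ ω))
        ((lev θ, pos θ ω) + (0 : ℝ) • θ k • ((0 : ℝ), ex c)) := by
      rw [zero_smul, add_zero]
      exact ((sm_PhT hU).differentiable (by simp) _).hasFDerivAt
    have h3 := (h2.comp_hasDerivAt (0 : ℝ) h1).fun_neg.exp
    unfold HasLineDerivAt
    simp only [← exp_neg_PhT hU hθ, e]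
    refine h3.congr_deriv ?_
    simp only [Function.comp_apply, zero_smul, add_zero, map_smul, smul_eq_mul]
    rw [mul_right_comm D.h, hT, D1, mul_comm (θ k)]
  have hF : ∀ ω, HasLineDerivAt ℝ (fun ω => f (θ, ω)) (par k c f (θ, ω)) ω v := by
    intro ω
    have h1 := (hf.1.differentiable one_ne_zero (θ, ω)).hasFDerivAt.hasLineDerivAt ((0 : Th), v)
    unfold HasLineDerivAt at h1 ⊢
    simpa [par, D1] using h1
  have m1 := hf.mg.slice θ
  have m2 := (hf.mg_par k c).slice θ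
  have m3 : MG fun ω => D.h * θ k * TT D {c} (θ, ω) :=
    (mg_const _).mul ((tg_TT D (Multiset.singleton_ne_zero c)).mg.slice θ)
  have m4 : MG fun ω : Om D.d => ω k c := (tg_omega D.d k c).mg.slice θ
  have h := stein_pi k c (G := fun ω => Z D.U (lev θ) (pos θ ω) * f (θ, ω))
    (G' := fun ω => Z D.U (lev θ) (pos θ ω) *
      (-(D.h * θ k * TT D {c} (θ, ω)) * f (θ, ω) + par k c f (θ, ω)))
    (fun ω => by
      have := HasDerivAt.fun_mul (hZ ω) (hF ω)
      refine this.congr_deriv ?_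
      simp only [zero_smul, add_zero]
      ring)
    (m1.integrable_Z_mul hU hθ) (((m3.neg.mul m1).add m2).integrable_Z_mul hU hθ)
    (by simpa only [mul_left_comm] using (m4.mul m1).integrable_Z_mul hU hθ)
  rw [integral_pm hU hθ]
  have e : ∀ ω, (Z D.U (lev θ) (pos θ ω) / Z D.U 1 0) • del D k c f (θ, ω) =
      (Z D.U 1 0)⁻¹ * (ω k c * (Z D.U (lev θ) (pos θ ω) * f (θ, ω)) - Z D.U (lev θ) (pos θ ω) *
      (-(D.h * θ k * TT D {c} (θ, ω)) * f (θ, ω) + par k c f (θ, ω))) := by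
    intro ω
    simp only [del, smul_eq_mul]
    ring
  simp only [e]
  rw [integral_const_mul, h, mul_zero]

/-- Weak continuity equation.  By `integral_pm` the function is
`s ↦ ∫ Ψ(s, θ + s e, ω) exp(-PhT U (lev, pos)) / Z U 1 0 dγγ` near `s₀`; differentiate under the
integral (`hasDerivAt_integral_of_dominated_loc_of_deriv_le`, domination by `Z_le`, polynomial
growth of `D1 (e,0) (PhT ∘ (lev,pos)) = -∑ del (XV)` by `div_XV`), then integrate by parts:
`del k c (XV k c · ψ) = del k c (XV k c) ψ - XV k c · par k c ψ` with `ψ = Ψ(s₀, ·)`,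
`integral_del`, `fderiv_omega`. -/
theorem hasDerivAt_pm (D : Dat) {Ψ : ℝ × Pt D.d → ℝ} (hΨ : PG1 Ψ) (θ : Th) {s₀ : ℝ}
    (hs : ‖θ + s₀ • D.e‖ < 1 / 2) :
    HasDerivAt (fun s => ∫ ω, Ψ (s, (θ + s • D.e, ω)) ∂pm D.U (θ + s • D.e))
      (∫ ω, fderiv ℝ Ψ (s₀, (θ + s₀ • D.e, ω)) (1, (D.e, XV D (θ + s₀ • D.e, ω)))
        ∂pm D.U (θ + s₀ • D.e)) s₀ := by
  have hU := D.nice.cvx
  set δ : ℝ := 1 / 2 - ‖θ + s₀ • D.e‖ with hδ
  have hδ0 : 0 < δ := sub_pos.2 hs
  have hball : ∀ s ∈ Metric.ball s₀ δ, ‖θ + s • D.e‖ < 1 / 2 := by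
    intro s hs'
    have e : θ + s • D.e = θ + s₀ • D.e + (s - s₀) • D.e := by rw [sub_smul]; abel
    have h1 : ‖s - s₀‖ < δ := mem_ball_iff_norm.1 hs'
    have h2 : ‖(s - s₀) • D.e‖ ≤ ‖s - s₀‖ := by
      rw [norm_smul]
      exact mul_le_of_le_one_right (norm_nonneg _) D.he
    rw [e]
    linarith [norm_add_le (θ + s₀ • D.e) ((s - s₀) • D.e)]
  set A : Pt D.d → ℝ := fun p => PhT D.U (lev p.1, pos p.1 p.2) with hA
  have sA : Sm A := (sm_PhT hU).comp (tg_lev_pos D.d).sm
  have tX : ∀ k c, TG fun p => XV D p k c := fun k c =>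
    ((tg_XV D).clm (ContinuousLinearMap.proj k)).coord c
  set V : Pt D.d → ℝ := fun p => ∑ k, ∑ c, del D k c (fun p => XV D p k c) p with hV
  have mV : MG V := MG.sum _ fun k _ => MG.sum _ fun c _ => (tX k c).pg1.mg_del D k c
  set H : ℝ × Pt D.d → ℝ := fun q => V q.2 * Ψ q + fderiv ℝ Ψ q (1, (D.e, 0)) with hH
  have mH : MG H := ((mV.comp mg_snd).mul hΨ.mg).add (hΨ.mg_fderiv.clm_apply (mg_const _))
  have msl : ∀ s : ℝ, MG fun ω : Om D.d => (s, (θ + s • D.e, ω)) := fun s =>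
    (mg_const s).prodMk ((mg_const _).prodMk mg_id)
  obtain ⟨C, a, hC, ha, hb⟩ := mH.exp_bound
  obtain ⟨C', hC', hZ⟩ := Z_pos_le hU
  have hZ0 := Z_pos hU 1 0
  have hs0 : s₀ ∈ Metric.ball s₀ δ := Metric.mem_ball_self hδ0
  have hEZ : ∀ s ∈ Metric.ball s₀ δ, ∀ ω, Real.exp (-A (θ + s • D.e, ω)) =
      Z D.U (lev (θ + s • D.e)) (pos (θ + s • D.e) ω) := fun s hs' ω =>
    exp_neg_PhT hU (hball s hs').le _
  have cA := sA.continuous
  have cΨ := hΨ.1.continuous
  have key := hasDerivAt_integral_of_dominated_loc_of_deriv_le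
    (μ := Measure.pi fun _ : Fin 2 => gam D.d)
    (F := fun s ω => Real.exp (-A (θ + s • D.e, ω)) / Z D.U 1 0 * Ψ (s, (θ + s • D.e, ω)))
    (F' := fun s ω => Z D.U (lev (θ + s • D.e)) (pos (θ + s • D.e) ω) / Z D.U 1 0 *
      H (s, (θ + s • D.e, ω)))
    (bound := fun ω => C' / Z D.U 1 0 * (C * Real.exp (a * (|s₀| + δ + 1 / 2))) *
      Real.exp ((C' + a) * ‖ω‖))
    (Metric.ball_mem_nhds s₀ hδ0)
    (Filter.Eventually.of_forall fun s => Continuous.aestronglyMeasurable (by fun_prop))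
    (by
      simp only [hEZ s₀ hs0, div_mul_eq_mul_div]
      exact ((hΨ.mg.comp (msl s₀)).integrable_Z_mul hU hs.le).div_const _)
    (((continuous_Z_pos hU _).div_const _).mul (mH.comp (msl s₀)).1).aestronglyMeasurable
    (Filter.Eventually.of_forall fun ω s hs' => by
      have h1 := hZ _ (hball s hs').le ω
      have h2 : ‖(s, (θ + s • D.e, ω))‖ ≤ |s₀| + δ + 1 / 2 + ‖ω‖ := by
        have h3 : |s - s₀| < δ := mem_ball_iff_norm.1 hs'
        have h4 := abs_sub_abs_le_abs_sub s s₀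
        have h5 := hball s hs'
        simp only [Prod.norm_def, Real.norm_eq_abs, max_le_iff]
        refine ⟨?_, ?_, ?_⟩ <;> linarith [norm_nonneg ω, abs_nonneg s₀]
      have h3 : ‖H (s, (θ + s • D.e, ω))‖ ≤ C * Real.exp (a * (|s₀| + δ + 1 / 2 + ‖ω‖)) :=
        (hb _).trans (by gcongr)
      rw [norm_mul, Real.norm_of_nonneg (div_pos (Z_pos hU _ _) hZ0).le]
      refine (mul_le_mul (div_le_div_of_nonneg_right h1 hZ0.le) h3 (norm_nonneg _)
        (by positivity)).trans (le_of_eq ?_)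
      rw [mul_add a _ ‖ω‖, add_mul C', Real.exp_add, Real.exp_add]
      ring)
    ((integrable_exp_pi _).const_mul _)
    (Filter.Eventually.of_forall fun ω s hs' => by
      have g1 : HasDerivAt (fun s : ℝ => ((θ + s • D.e, ω) : Pt D.d)) (D.e, 0) s := by
        have := ((hasDerivAt_id' s).smul_const D.e).const_add θ
        rw [one_smul] at this
        exact this.prodMk (hasDerivAt_const s ω)
      have g2 := (sA.differentiable (by simp) _).hasFDerivAt.comp_hasDerivAt s g1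
      have g3 := (hΨ.1.differentiable one_ne_zero _).hasFDerivAt.comp_hasDerivAt s
        ((hasDerivAt_id' s).prodMk g1)
      refine ((g2.fun_neg.exp.div_const (Z D.U 1 0)).fun_mul g3).congr_deriv ?_
      have e := div_XV D (θ + s • D.e, ω) (hball s hs')
      simp only [Function.comp_apply, hEZ s hs', hH, hV, e, D1]
      ring)
  refine (key.2.congr_deriv ?_).congr_of_eventuallyEq ?_
  · have e1 := integral_pm hU hs.le fun ω => H (s₀, (θ + s₀ • D.e, ω))
    simp only [smul_eq_mul] at e1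
    rw [← e1]
    set ψ : Pt D.d → ℝ := fun p => Ψ (s₀, p) with hψ
    have pψ : PG1 ψ := hΨ.comp (TG.pg1 (TG.prodMk (.const s₀) Function.HasTemperateGrowth.id'))
    have e2 : ∀ p : Pt D.d, H (s₀, p) = fderiv ℝ Ψ (s₀, p) (1, (D.e, XV D p)) +
        ∑ k, ∑ c, del D k c (fun p => XV D p k c * ψ p) p := by
      intro p
      have dψ : HasFDerivAt ψ ((fderiv ℝ Ψ (s₀, p)).comp (ContinuousLinearMap.inr ℝ ℝ (Pt D.d))) p :=
        (hΨ.1.differentiable one_ne_zero _).hasFDerivAt.comp p (hasFDerivAt_prodMk_right s₀ p)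
      have e3 : fderiv ℝ Ψ (s₀, p) (1, (D.e, XV D p)) =
          fderiv ℝ Ψ (s₀, p) (1, (D.e, 0)) + ∑ k, ∑ c, XV D p k c * par k c ψ p := by
        rw [← fderiv_omega, dψ.fderiv, ContinuousLinearMap.comp_apply,
          ContinuousLinearMap.inr_apply, ← map_add]
        simp
      have e4 : ∀ k c, del D k c (fun p => XV D p k c * ψ p) p =
          del D k c (fun p => XV D p k c) p * ψ p - XV D p k c * par k c ψ p := by
        intro k c
        simp only [del, par, D1]
        rw [fderiv_fun_mul ((tX k c).sm.differentiable (by simp) p) dψ.differentiableAt]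
        simp only [_root_.add_apply, _root_.smul_apply, smul_eq_mul]
        ring
      simp only [e3, e4, Finset.sum_sub_distrib, ← Finset.sum_mul]
      simp only [hH, hV, hψ]
      ring
    have i1 : ∀ k c, Integrable (fun ω => del D k c (fun p => XV D p k c * ψ p) (θ + s₀ • D.e, ω))
        (pm D.U (θ + s₀ • D.e)) := fun k c =>
      ((((tX k c).pg1.mul pψ).mg_del D k c).slice _).integrable_pm hU hs.le
    have i2 : Integrable (fun ω => fderiv ℝ Ψ (s₀, (θ + s₀ • D.e, ω))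
        (1, (D.e, XV D (θ + s₀ • D.e, ω)))) (pm D.U (θ + s₀ • D.e)) :=
      ((hΨ.mg_fderiv.comp (msl s₀)).clm_apply ((mg_const (1 : ℝ)).prodMk ((mg_const D.e).prodMk
        ((tg_XV D).mg.slice _)))).integrable_pm hU hs.le
    simp only [e2]
    rw [integral_add i2 (integrable_finsetSum _ fun k _ => integrable_finsetSum _ fun c _ => i1 k c),
      integral_finsetSum _ fun k _ => integrable_finsetSum _ fun c _ => i1 k c]
    simp only [integral_finsetSum _ fun c _ => i1 _ c,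
      integral_del D hs.le ((tX _ _).pg1.mul pψ), Finset.sum_const_zero, add_zero]
  · filter_upwards [Metric.ball_mem_nhds s₀ hδ0] with s hs'
    rw [integral_pm hU (hball s hs').le]
    simp only [hEZ s hs', smul_eq_mul]

end Crest.Agent.R285
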