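import Crest.Agent.R285.Step

/-! Row 285: the recursion for uniform engines (explicit parameters). -/

set_option autoImplicit false

namespace Crest.Agent.R285

open MeasureTheory ProbabilityTheory Crest.OracleSampling Set
open scoped ENNReal NNReal InnerProductSpace

/-- `Acc.grad`, `norm_F_sub_grad_le`, `Acc.perturb`, `Acc.noise`; `C = 8`. -/
theorem ue_base {d : ℕ} {N vmax r ρ M η : ℝ} (hd : (d : ℝ) ≤ N) (hv : vmax ≤ 1 / 4)
    (hρ0 : 0 ≤ ρ) (hρ : ρ ≤ 1) (hr : r ≤ η) (hM : 8 ≤ M) : UE d N vmax r ρ M η := by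
  intro v σ hv0 hv1 hσ hvσ A _ q e u h
  have hq := App.q_nonneg h
  have h1 := (h.grad.perturb (u' := fun V a => F V.1 v (u V a))
    (e' := fun V a => 6 * √v * (√d + ‖u V a‖)) fun V a => by
      rw [norm_sub_rev]
      exact norm_F_sub_grad_le V.2 hv0 (hv1.trans hv) _).noise (σ' := σ) (by simp [sq_nonneg])
  refine h1.mono (by nlinarith) fun V a => ?_
  have he := App.e_nonneg h V a
  have hs : √d ≤ √N := Real.sqrt_le_sqrt hd
  have hs0 := Real.sqrt_nonneg (d : ℝ)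
  have hv2 := Real.sqrt_nonneg v
  have hu := norm_nonneg (u V a)
  have h2 : √v ≤ σ * η := hvσ.trans (by nlinarith)
  have h3 : |ρ * √v| ≤ √v := by
    rw [abs_of_nonneg (by positivity)]
    exact mul_le_of_le_one_left hv2 hρ
  have h4 : |ρ * √v| * √d ≤ √v * (√N + ‖u V a‖) := mul_le_mul h3 (by linarith) hs0 hv2
  have h5 : √v * (√d + ‖u V a‖) ≤ √v * (√N + ‖u V a‖) :=
    mul_le_mul_of_nonneg_left (by linarith) hv2
  have h6 : √v * (√N + ‖u V a‖) ≤ σ * η * (√N + ‖u V a‖) :=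
    mul_le_mul_of_nonneg_right h2 (by linarith)
  have h7 : 0 ≤ √v * (√N + ‖u V a‖) := mul_nonneg hv2 (by linarith)
  have h8 : 8 * (e V a + σ * η * (√N + ‖u V a‖)) ≤ M * (e V a + σ * η * (√N + ‖u V a‖)) :=
    mul_le_mul_of_nonneg_right hM (by linarith)
  linarith

lemma rec_pow_le {x : ℝ} (hx : 0 ≤ x) {m i : ℕ} (h : x * (m + 1) ≤ 1) (hi : i ≤ m + 1) :
    (1 + x) ^ i ≤ 3 := by
  have h1 : (1 + x) ^ i ≤ Real.exp x ^ i :=
    pow_le_pow_left₀ (by positivity) (by linarith [Real.add_one_le_exp x]) i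
  have h2 : (i : ℝ) ≤ m + 1 := by exact_mod_cast hi
  have h3 : Real.exp x ^ i ≤ Real.exp 1 := by
    rw [← Real.exp_nat_mul]
    exact Real.exp_le_exp.2 (by nlinarith)
  linarith [Real.exp_one_lt_d9]

lemma rec_eng {d : ℕ} {N vmax r ρ M η w σ : ℝ} (h : UE d N vmax r ρ M η) (hw : 0 < w)
    (hw' : w ≤ vmax) (hσ : 0 < σ) (hr : √w ≤ r * σ) (hρ : 0 ≤ ρ) (hM : 0 ≤ M) (hη : 0 ≤ η) :
    ∀ v', w / 2 ≤ v' → v' ≤ w → Eng d N v' σ (ρ * √w / 2) M (σ * η) := by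
  intro v' h1 h2
  refine (h v' σ (by linarith) (h2.trans hw') hσ ((Real.sqrt_le_sqrt h2).trans hr)).mono
    (abs_of_pos hσ).le ?_ hM le_rfl (by positivity) le_rfl
  have h3 : √w ≤ 2 * √v' := by
    rw [Real.sqrt_le_left (by positivity), mul_pow, Real.sq_sqrt (by linarith)]
    linarith
  rw [abs_of_nonneg (by positivity)]
  nlinarith

/-- Fix `v ≤ vmax`; by `Eng.mono` take `σ = √v / r`.  Let `μ = m + 1`, `σz = σ / √(2μ)`,
`v_i = v (1 - t²)^i`, `t = K τ`, `A = (C M)^Dn / τ`,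
`δ = σ (r (η₁ + κb^n + τ^K) + η₂)`.  At level `v_i` use `step` with `σ₁ = √v_i / r₁`,
`ζ₁ = σ₁ η₁`, `σ₂ = √v / r₂`, `ζ₂ = σ₂ η₂`, input noise `ρ √v_i / 2` (`Eng.mono`); its accuracy term
is at most `δ`.  By induction on `i ≤ m`, the score at level `v_{μ - i}` at known points is
accessible with cost `1 + i A`, noise `√(2 i) σz`, error
`(1 + 3√v)^i (i A δ + 6 √v_μ) (√N + ‖b‖)` (base: `Acc.grad` on `acc_known`,
`norm_F_sub_grad_le`; `(1 + 3√v)^μ ≤ e ≤ 3`).  One more `step` with the given `u`. -/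
theorem ue_step (n : ℕ) : ∃ Dn : ℕ, ∀ K : ℕ, 1 ≤ K → ∃ C : ℝ, 1 ≤ C ∧ ∀ (d m : ℕ)
    (N vmax r r₁ r₂ ρ M η₁ η₂ τ κb κ' ρ' M' η : ℝ), (d : ℝ) ≤ N → vmax ≤ 1 / 4 → vmax ≤ κb →
    C * κb ≤ 1 → 0 < τ → 8 * (K * τ) ≤ 1 → 1 ≤ M → 0 < r → 0 < r₁ → 0 < r₂ → 0 ≤ η₁ → 0 ≤ η₂ →
    0 < ρ → ρ ≤ τ → 2 * C * κb ≤ ρ * r₁ → 0 ≤ ρ' → 2 * C * ρ' ≤ ρ →
    r * √(2 * (m + 1)) ≤ κ' → κ' ≤ κb → 2 * C * (m + 1) * r ^ 2 ≤ κ' * r₂ →
    3 * √vmax * (m + 1) ≤ 1 → (m + 1) * ((C * M) ^ Dn / τ) + 1 ≤ M' →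
    3 * (m + 1) * ((C * M) ^ Dn / τ) * (r * (η₁ + κb ^ n + τ ^ K) + η₂) +
      18 * r * √((1 - (K * τ) ^ 2) ^ (m + 1)) ≤ M' * η →
    √vmax / r * (M' * η) ≤ 1 →
    UE d N vmax r₁ ρ M η₁ → UE d N vmax r₂ ρ M η₂ → UE d N vmax r ρ' M' η := by
  obtain ⟨Dn, hDn⟩ := step n
  refine ⟨Dn, fun K hK => ?_⟩
  obtain ⟨C, hC, hstep⟩ := hDn K hK
  clear hDn
  refine ⟨C, hC, ?_⟩
  intro d m N vmax r r₁ r₂ ρ M η₁ η₂ τ κb κ' ρ' M' η hd hvm hvκ hCκ hτ hKτ hM hr hr₁ hr₂ hη₁ hη₂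
    hρ hρτ hκr₁ hρ' hρρ' hκ' hκ'b hκ'r₂ hvμ hM' herr herr1 hE₁ hE₂ v σ hv hvv hσ hvσ
  have hK1 : (1 : ℝ) ≤ K := by exact_mod_cast hK
  have hτ1 : τ ≤ 1 / 8 := by linarith [le_mul_of_one_le_left hτ.le hK1]
  have hκb : 0 < κb := hv.trans_le (hvv.trans hvκ)
  have hsv : 0 < √v := Real.sqrt_pos.2 hv
  have hsvm : √v ≤ √vmax := Real.sqrt_le_sqrt hvv
  have hm0 : (0 : ℝ) ≤ m := Nat.cast_nonneg m
  obtain ⟨A, hA⟩ : ∃ A, A = (C * M) ^ Dn / τ := ⟨_, rfl⟩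
  have hA1 : 1 ≤ A := by
    rw [hA, le_div_iff₀ hτ]
    have : 1 ≤ (C * M) ^ Dn := one_le_pow₀ (one_le_mul_of_one_le_of_one_le hC hM)
    linarith
  have hA0 : 0 < A := by linarith
  rw [← hA] at hM' herr
  obtain ⟨θ, hθ⟩ : ∃ θ, θ = 1 - (K * τ) ^ 2 := ⟨_, rfl⟩
  have hθ0 : 0 < θ := by
    have : (K * τ) ^ 2 ≤ (1 / 8) ^ 2 := pow_le_pow_left₀ (by positivity) (by linarith) 2
    rw [hθ]; linarith
  have hθ1 : θ ≤ 1 := by rw [hθ]; linarith [sq_nonneg (K * τ)]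
  rw [← hθ] at herr
  obtain ⟨σ₀, hσ₀⟩ : ∃ σ₀, σ₀ = √v / r := ⟨_, rfl⟩
  have hσ₀0 : 0 < σ₀ := by rw [hσ₀]; positivity
  have hvr : √v = r * σ₀ := by rw [hσ₀]; field_simp
  have hσσ : σ₀ ≤ σ := le_of_mul_le_mul_left (hvr ▸ hvσ) hr
  obtain ⟨g, hg⟩ : ∃ g, g = √(2 * ((m : ℝ) + 1)) := ⟨_, rfl⟩
  have hg2 : g ^ 2 = 2 * (m + 1) := by rw [hg, Real.sq_sqrt (by positivity)]
  have hg1 : 1 ≤ g := by rw [hg]; exact Real.one_le_sqrt.2 (by linarith)
  rw [← hg] at hκ'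
  obtain ⟨σz, hσz⟩ : ∃ σz, σz = σ₀ / g := ⟨_, rfl⟩
  have hσz0 : 0 < σz := by rw [hσz]; positivity
  have hσg : σ₀ = g * σz := by rw [hσz]; field_simp
  have hκ'0 : 0 < κ' := lt_of_lt_of_le (by positivity) hκ'
  obtain ⟨β, hβ⟩ : ∃ β, β = r * (η₁ + κb ^ n + τ ^ K) + η₂ := ⟨_, rfl⟩
  have hβ0 : 0 ≤ β := by rw [hβ]; positivity
  rw [← hβ] at herr
  have hM'1 : 1 ≤ M' := by linarith [mul_nonneg hm0 hA0.le]
  have hMη : 0 ≤ M' * η := le_trans (by positivity) herr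
  have hη : 0 ≤ η := nonneg_of_mul_nonneg_right (by rwa [mul_comm] at hMη) (by linarith)
  have hone : σ₀ * (M' * η) ≤ 1 := by
    refine le_trans (mul_le_mul_of_nonneg_right ?_ hMη) herr1
    rw [hσ₀]
    exact div_le_div_of_nonneg_right hsvm hr.le
  -- the accumulated accuracy
  let Δ : ℕ → ℝ := fun i => (1 + 3 * √v) ^ i * (i * (A * (σ₀ * β)) + 6 * √(v * θ ^ (m + 1)))
  have hΔ0 : ∀ i, 0 ≤ Δ i := fun i => by positivity
  have hΔ : ∀ i ≤ m + 1, Δ i ≤ σ₀ * (M' * η) := fun i hi => by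
    have h1 := rec_pow_le (x := 3 * √v) (by positivity) (m := m)
      (le_trans (by gcongr) hvμ) hi
    have h2 : (i : ℝ) ≤ m + 1 := by exact_mod_cast hi
    have h3 : i * (A * (σ₀ * β)) ≤ (m + 1) * (A * (σ₀ * β)) := by gcongr
    have h4 := mul_le_mul_of_nonneg_left herr hσ₀0.le
    refine (mul_le_mul h1 (add_le_add h3 le_rfl) (by positivity) (by norm_num)).trans ?_
    rw [Real.sqrt_mul hv.le, hvr]
    refine le_trans (le_of_eq ?_) h4
    ring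
  have hΔs : ∀ i, A * (σ₀ * β) + Δ i * (1 + 3 * √v) ≤ Δ (i + 1) := fun i => by
    have h1 : 1 ≤ (1 + 3 * √v) ^ (i + 1) := one_le_pow₀ (by linarith)
    have h2 : A * (σ₀ * β) ≤ (1 + 3 * √v) ^ (i + 1) * (A * (σ₀ * β)) :=
      le_mul_of_one_le_left (by positivity) h1
    have h3 : Δ (i + 1) = (1 + 3 * √v) ^ (i + 1) * (A * (σ₀ * β)) + Δ i * (1 + 3 * √v) := by
      simp only [Δ]
      push_cast
      ring
    linarith
  have hδ1 : σ₀ * β ≤ 1 := by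
    have h1 : _ ≤ Δ 1 := hΔs 0
    have h2 := hΔ 1 (by omega)
    have h3 : σ₀ * β ≤ A * (σ₀ * β) := le_mul_of_one_le_left (by positivity) hA1
    have h4 : 0 ≤ Δ 0 * (1 + 3 * √v) := mul_nonneg (hΔ0 0) (by positivity)
    linarith
  -- one step at a level `w ≤ v`
  have one : ∀ (w σ₃ σ' ρ₀ q₁ δ' : ℝ), 0 < w → w ≤ v → 0 ≤ ρ₀ → C * ρ₀ ≤ ρ * √w / 2 →
      σ₃ ^ 2 + 2 * σz ^ 2 ≤ σ' ^ 2 → 0 ≤ δ' → δ' ≤ 1 →
      Acc (A := E d) q₁ σ₃ (fun _ b => δ' * (√N + ‖b‖)) (fun V b => F V.1 (w * θ) b) →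
      ∀ (B : Type) [MeasurableSpace B] (q : ℝ) (e : Pot d → B → ℝ) (u : Pot d → B → E d),
      Acc q ρ₀ e u → Acc (q₁ + A * (q + 1)) σ'
        (fun V a => A * e V a + (A * (σ₀ * β) + δ' * (1 + 3 * √v)) * (√N + ‖u V a‖))
        fun V a => F V.1 w (u V a) := by
    intro w σ₃ σ' ρ₀ q₁ δ' hw hwv hρ₀ hρ₀' hσ' hδ' hδ'1 hacc B _ q e u hu
    have hsw : 0 < √w := Real.sqrt_pos.2 hw
    have hswv : √w ≤ √v := Real.sqrt_le_sqrt hwv
    have c1 : C * (κb * (√w / r₁)) ≤ ρ * √w / 2 := by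
      rw [← mul_div_assoc, ← mul_div_assoc, div_le_iff₀ hr₁]
      linarith [mul_le_mul_of_nonneg_right hκr₁ hsw.le]
    have c2 : √w / σz ≤ r * g := by
      rw [div_le_iff₀ hσz0, mul_assoc, ← hσg, ← hvr]; exact hswv
    have c3 : C * (√w / σz) * (√v / r₂) ≤ κ' * σz := by
      rw [← mul_div_assoc, div_le_iff₀ hr₂]
      calc C * (√w / σz) * √v ≤ C * (r * g) * √v := by gcongr
        _ = C * g ^ 2 * r ^ 2 * σz := by rw [hvr, hσg]; ring
        _ = 2 * C * (m + 1) * r ^ 2 * σz := by rw [hg2]; ring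
        _ ≤ κ' * r₂ * σz := by gcongr
        _ = _ := by ring
    have c4 : κb * (√w / r₁ * η₁) + √w * (κb ^ n + τ ^ K) + √w / σz / κ' * (√v / r₂ * η₂) ≤
        σ₀ * β := by
      have d1 : κb * (√w / r₁) ≤ √v := by
        have : κb * (√w / r₁) ≤ C * (κb * (√w / r₁)) := le_mul_of_one_le_left (by positivity) hC
        have : ρ * √w ≤ √w := mul_le_of_le_one_left hsw.le (by linarith)
        linarith
      have d2 : √w / σz / κ' * (√v / r₂) ≤ σ₀ := by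
        rw [div_mul_eq_mul_div, div_le_iff₀ hκ'0]
        have e1 : √w / σz * (√v / r₂) ≤ C * (√w / σz * (√v / r₂)) :=
          le_mul_of_one_le_left (by positivity) hC
        have e2 : σz ≤ σ₀ := by rw [hσg]; exact le_mul_of_one_le_left hσz0.le hg1
        linarith [mul_le_mul_of_nonneg_left e2 hκ'0.le]
      have d3 := mul_le_mul_of_nonneg_right d1 hη₁
      have d4 := mul_le_mul_of_nonneg_right d2 hη₂
      have d5 : √w * (κb ^ n + τ ^ K) ≤ √v * (κb ^ n + τ ^ K) := by gcongr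
      have d6 : σ₀ * β = √v * η₁ + √v * (κb ^ n + τ ^ K) + σ₀ * η₂ := by rw [hβ, hvr]; ring
      rw [d6, ← mul_assoc κb, ← mul_assoc (√w / σz / κ')]
      linarith
    have h := hstep d N w τ κb κ' σz (√w / r₁) (√v / r₂) σ₃ σ' (ρ * √w / 2) ρ₀ M (√w / r₁ * η₁)
      (√v / r₂ * η₂) q₁ δ' hd hw (by linarith) (by linarith) hCκ hτ hKτ hM (by positivity)
      (by positivity) (by positivity) (by positivity) hρ₀ c1 hρ₀'
      (by linarith [mul_le_mul_of_nonneg_left hρτ hsw.le, mul_pos hρ hsw]) hσz0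
      (by
        rw [div_le_iff₀ hσz0] at c2
        exact c2.trans (mul_le_mul_of_nonneg_right hκ' hσz0.le)) hκ'b c3 hσ' hδ' hδ'1
      (c4.trans hδ1)
      (rec_eng hE₁ hw (hwv.trans hvv) (by positivity) (le_of_eq (by field_simp)) hρ.le
        (by linarith) hη₁)
      (rec_eng hE₂ hw (hwv.trans hvv) (by positivity) (hswv.trans (le_of_eq (by field_simp))) hρ.le
        (by linarith) hη₂)
      (by rw [← hθ]; exact hacc) B q e u hu
    rw [← hA] at h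
    refine h.mono le_rfl fun V a => ?_
    have hX : 0 ≤ √N + ‖u V a‖ := by positivity
    have e1 := mul_le_mul_of_nonneg_left (mul_le_mul_of_nonneg_right c4 hX) (by linarith : 0 ≤ A)
    have e2 : δ' * (1 + 3 * √w) * (√N + ‖u V a‖) ≤ δ' * (1 + 3 * √v) * (√N + ‖u V a‖) := by gcongr
    rw [mul_add A, add_mul (A * _), mul_assoc A]
    linarith
  have hsq : ∀ i : ℕ, (√(2 * (i : ℝ)) * σz) ^ 2 = 2 * i * σz ^ 2 := fun i => by
    rw [mul_pow, Real.sq_sqrt (by positivity)]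
  have ind : ∀ i j : ℕ, i + j = m → Acc (A := E d) (1 + i * A) (√(2 * (i : ℝ)) * σz)
      (fun _ b => Δ i * (√N + ‖b‖)) fun V b => F V.1 (v * θ ^ (j + 1)) b := by
    intro i
    induction i with
    | zero =>
      intro j hj
      obtain rfl : j = m := by omega
      have hw : 0 < v * θ ^ (j + 1) := by positivity
      have hw' : v * θ ^ (j + 1) ≤ 1 / 4 :=
        (mul_le_of_le_one_right hv.le (pow_le_one₀ hθ0.le hθ1)).trans (by linarith)
      have h1 := ((acc_known (d := d) measurable_id 0).grad.perturb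
        (u' := fun V b => F V.1 (v * θ ^ (j + 1)) b)
        (e' := fun _ b => 6 * √(v * θ ^ (j + 1)) * (√d + ‖b‖)) fun V b => by
          rw [norm_sub_rev]
          exact norm_F_sub_grad_le V.2 hw hw' _).noise (σ' := √(2 * ((0 : ℕ) : ℝ)) * σz)
          (by simp)
      refine h1.mono (by simp) fun V b => ?_
      have hs : √d ≤ √N := Real.sqrt_le_sqrt hd
      simp only [Δ, abs_zero, zero_mul, add_zero, mul_zero, zero_add, pow_zero, one_mul,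
        Nat.cast_zero]
      gcongr
    | succ i ih =>
      intro j hj
      have hw : 0 < v * θ ^ (j + 1) := by positivity
      have h1 := one (v * θ ^ (j + 1)) (√(2 * (i : ℝ)) * σz) (√(2 * ((i + 1 : ℕ) : ℝ)) * σz) 0
        (1 + i * A) (Δ i) hw
        (mul_le_of_le_one_right hv.le (pow_le_one₀ hθ0.le hθ1)) le_rfl
        (by rw [mul_zero]; positivity) (by rw [hsq, hsq]; push_cast; linarith) (hΔ0 i)
        ((hΔ i (by omega)).trans hone)
        (by rw [mul_assoc, ← pow_succ]; exact ih (j + 1) (by omega)) (E d) 0 _ _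
        (acc_known (d := d) measurable_id 0)
      refine h1.mono (by push_cast; linarith) fun V b => ?_
      rw [mul_zero, zero_add]
      exact mul_le_mul_of_nonneg_right (hΔs i) (by positivity)
  have fin : Eng d N v σ₀ (ρ' * √v) M' (σ₀ * η) := by
    intro B _ q e u hu
    have hq := App.q_nonneg hu
    have h1 := one v (√(2 * (m : ℝ)) * σz) σ₀ (ρ' * √v) (1 + m * A) (Δ m) hv le_rfl (by positivity)
      (by linarith [mul_le_mul_of_nonneg_right hρρ' hsv.le])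
      (by rw [hsq, hσg, mul_pow, hg2]; linarith) (hΔ0 m) ((hΔ m (by omega)).trans hone)
      (by simpa only [zero_add, pow_one] using ind m 0 rfl) B q e u hu
    have hAM : A ≤ M' := by linarith [mul_nonneg hm0 hA0.le]
    refine h1.mono ?_ fun V a => ?_
    · have := mul_le_mul_of_nonneg_right hAM hq
      linarith
    · have e1 := mul_le_mul_of_nonneg_right hAM (App.e_nonneg hu V a)
      have e2 := mul_le_mul_of_nonneg_right ((hΔs m).trans (hΔ (m + 1) le_rfl))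
        (by positivity : 0 ≤ √N + ‖u V a‖)
      linarith
  refine fin.mono ((abs_of_pos hσ₀0).le.trans hσσ) (abs_of_nonneg (by positivity)).le
    (by linarith) le_rfl (by positivity) ?_
  gcongr

end Crest.Agent.R285
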