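import Crest.Agent.R285.Tens

/-! Row 285: commutation rules of the operators `par`, `del`, `BD`, `CD`, `XD` on `Pt d`. -/

set_option autoImplicit false

namespace Crest.Agent.R285

open MeasureTheory ProbabilityTheory Crest.OracleSampling Set
open scoped ENNReal NNReal InnerProductSpace

variable (D : Dat)

/-! ### Temperate growth -/

theorem tg_TT {m : Multiset (Fin D.d)} (hm : m ≠ 0) : TG (TT D m) :=
  (tg_Tn D.nice D.hpos hm).comp (tg_lev_pos D.d)

theorem TG.diff {P Y : Type*} [NormedAddCommGroup P] [NormedSpace ℝ P] [NormedAddCommGroup Y]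
    [NormedSpace ℝ Y] {f : P → Y} (hf : TG f) : Differentiable ℝ f :=
  hf.1.differentiable (by simp)

theorem fderiv_congr_half {d : ℕ} {Y : Type*} [NormedAddCommGroup Y] [NormedSpace ℝ Y]
    {f g : Pt d → Y} (h : ∀ p : Pt d, ‖p.1‖ < 1 / 2 → f p = g p) (p : Pt d) (hp : ‖p.1‖ < 1 / 2) :
    fderiv ℝ f p = fderiv ℝ g p := by
  refine Filter.EventuallyEq.fderiv_eq ?_
  filter_upwards [(isOpen_lt continuous_fst.norm continuous_const).mem_nhds hp] with q hq
    using h q hq

theorem fderiv_theta {d : ℕ} (l : Fin 2) (p v : Pt d) :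
    fderiv ℝ (fun p : Pt d => p.1 l) p v = v.1 l :=
  congrArg (fun A : Pt d →L[ℝ] ℝ => A v) (((ContinuousLinearMap.proj l).comp
    (ContinuousLinearMap.fst ℝ Th (Om d))).fderiv (x := p))

theorem TG.par {d : ℕ} {f : Pt d → ℝ} (hf : TG f) (k : Fin 2) (c : Fin d) : TG (par k c f) :=
  hf.D1 _

theorem tg_theta (d : ℕ) (k : Fin 2) : TG fun p : Pt d => p.1 k := by
  exact ((ContinuousLinearMap.proj k).comp
    (ContinuousLinearMap.fst ℝ Th (Om d))).hasTemperateGrowth

theorem tg_omega (d : ℕ) (k : Fin 2) (c : Fin d) : TG fun p : Pt d => p.2 k c := by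
  exact TG.coord (f := fun p : Pt d => p.2 k) ((ContinuousLinearMap.proj k).comp
    (ContinuousLinearMap.snd ℝ Th (Om d))).hasTemperateGrowth c

theorem TG.del {f : Pt D.d → ℝ} (hf : TG f) (k : Fin 2) (c : Fin D.d) : TG (del D k c f) := by
  exact (((tg_omega _ k c).add (((Function.HasTemperateGrowth.const D.h).mul (tg_theta _ k)).mul
    (tg_TT D (by simp)))).mul hf).sub (TG.par hf k c)

theorem tg_gv : TG (gv D) := by
  exact tg_toLp fun c => tg_TT D (by simp)

theorem tg_av (k : Fin 2) : TG (av D k) := by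
  exact tg_toLp (f := fun c p => ∑ b, del D k b (TT D {b, c}) p) fun c =>
    Function.HasTemperateGrowth.sum fun b _ => TG.del D (tg_TT D (by simp)) k b

theorem tg_BV : TG (BV D) := by
  exact tg_pi fun k => (Function.HasTemperateGrowth.const (-(D.h * D.e k))).smul (tg_gv D)

theorem tg_RV : TG (RV D) := by
  refine tg_pi fun k => ?_
  fin_cases k
  · exact tg_av D 1
  · exact (tg_av D 0).neg

theorem tg_XV : TG (XV D) := by
  exact (tg_BV D).add ((Function.HasTemperateGrowth.const D.κ).smul (tg_RV D))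

section
variable {Y : Type*} [NormedAddCommGroup Y] [NormedSpace ℝ Y]

theorem TG.BD {f : Pt D.d → Y} (hf : TG f) : TG (BD D f) := by
  exact TG.fderiv_apply hf (TG.prodMk (Function.HasTemperateGrowth.const _) (tg_BV D))

theorem TG.CD {f : Pt D.d → Y} (hf : TG f) : TG (CD D f) := by
  exact TG.fderiv_apply hf (TG.prodMk (Function.HasTemperateGrowth.const _) (tg_RV D))

theorem TG.XD {f : Pt D.d → Y} (hf : TG f) : TG (XD D f) := by
  exact TG.fderiv_apply hf (TG.prodMk (Function.HasTemperateGrowth.const _) (tg_XV D))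

theorem TG.XD_iter {f : Pt D.d → Y} (hf : TG f) (j : ℕ) : TG ((R285.XD D)^[j] f) := by
  induction j with
  | zero => exact hf
  | succ j ih => rw [Function.iterate_succ_apply']; exact TG.XD D ih

theorem XD_eq (f : Pt D.d → Y) (p : Pt D.d) : XD D f p = BD D f p + D.κ • CD D f p := by
  rw [XD, BD, CD, ← map_smul, ← map_add]
  simp [XV]

/-- `XD` commutes with continuous linear maps. -/
theorem XD_iter_clm {Y' : Type*} [NormedAddCommGroup Y'] [NormedSpace ℝ Y'] (L : Y →L[ℝ] Y')
    {f : Pt D.d → Y} (hf : TG f) (j : ℕ) :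
    (XD D)^[j] (fun p => L (f p)) = fun p => L ((XD D)^[j] f p) := by
  induction j with
  | zero => rfl
  | succ j ih =>
    rw [Function.iterate_succ_apply', ih, Function.iterate_succ_apply']
    funext p
    have := (L.hasFDerivAt.comp p ((TG.XD_iter D hf j).diff p).hasFDerivAt).fderiv
    exact congrArg (fun A => A (D.e, XV D p)) this

theorem XD_iter_add {f g : Pt D.d → Y} (hf : TG f) (hg : TG g) (j : ℕ) :
    (XD D)^[j] (fun p => f p + g p) = fun p => (XD D)^[j] f p + (XD D)^[j] g p := by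
  induction j with
  | zero => rfl
  | succ j ih =>
    simp only [Function.iterate_succ_apply', ih]
    funext p
    rw [XD, fderiv_fun_add ((TG.XD_iter D hf j).diff p) ((TG.XD_iter D hg j).diff p)]
    rfl

theorem XD_iter_prod {Y' : Type*} [NormedAddCommGroup Y'] [NormedSpace ℝ Y'] {f : Pt D.d → Y}
    {g : Pt D.d → Y'} (hf : TG f) (hg : TG g) (j : ℕ) :
    (XD D)^[j] (fun p => (f p, g p)) = fun p => ((XD D)^[j] f p, (XD D)^[j] g p) := by
  induction j with
  | zero => rfl
  | succ j ih =>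
    simp only [Function.iterate_succ_apply', ih]
    funext p
    rw [XD, ((TG.XD_iter D hf j).diff p).fderiv_prodMk ((TG.XD_iter D hg j).diff p)]
    rfl

/-- Locality on the open region `‖θ‖ < 1/2`. -/
theorem XD_iter_congr {f g : Pt D.d → Y} (h : ∀ p : Pt D.d, ‖p.1‖ < 1 / 2 → f p = g p) (j : ℕ)
    (p : Pt D.d) (hp : ‖p.1‖ < 1 / 2) : (XD D)^[j] f p = (XD D)^[j] g p := by
  induction j generalizing p with
  | zero => exact h p hp
  | succ j ih =>
    simp only [Function.iterate_succ_apply']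
    rw [XD, XD, fderiv_congr_half ih p hp]

theorem BD_congr {f g : Pt D.d → Y} (h : ∀ p : Pt D.d, ‖p.1‖ < 1 / 2 → f p = g p)
    (p : Pt D.d) (hp : ‖p.1‖ < 1 / 2) : BD D f p = BD D g p := by
  rw [BD, BD, fderiv_congr_half h p hp]

theorem XD_snd : XD D (fun p : Pt D.d => p.2) = XV D := by
  funext p
  rw [XD, fderiv_snd]
  rfl

end

theorem par_congr {d : ℕ} {f g : Pt d → ℝ} (h : ∀ p : Pt d, ‖p.1‖ < 1 / 2 → f p = g p)
    (k : Fin 2) (c : Fin d) (p : Pt d) (hp : ‖p.1‖ < 1 / 2) : par k c f p = par k c g p := by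
  rw [par, par, D1, D1, fderiv_congr_half h p hp]

theorem gv_eq (p : Pt D.d) (hp : ‖p.1‖ ≤ 1 / 2) : gv D p = Gf D.U D.h p.1 p.2 := by
  have h := lev_mem hp
  ext c
  simp only [gv, TT, Gf, Tn_single D.nice.cvx, PiLp.smul_apply, smul_eq_mul]
  rw [psi_eq (by linarith [h.1]) (by linarith [h.2])]

/-- Expansion of a derivative in the `ω` directions in the basis `Pi.single k (ex c)`. -/
theorem fderiv_omega {d : ℕ} (f : Pt d → ℝ) (p : Pt d) (w : Om d) :
    fderiv ℝ f p (0, w) = ∑ k, ∑ c, w k c * par k c f p := by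
  have : ((0, w) : Pt d) = ∑ k, ∑ c, w k c • (((0 : Th), (Pi.single k (ex c) : Om d)) : Pt d) := by
    refine Prod.ext (by simp [Prod.fst_sum]) ?_
    ext k b
    simp only [Prod.snd_sum, Prod.smul_snd, Finset.sum_apply, Pi.smul_apply, Pi.single_apply]
    rw [Finset.sum_eq_single k (fun l _ hl => by simp [hl.symm]) (by simp)]
    simp [ex, Pi.single_apply]
  rw [this]
  simp only [map_sum, map_smul, smul_eq_mul, par, D1]

theorem BD_eq (f : Pt D.d → ℝ) (p : Pt D.d) : BD D f p = D1 (D.e, 0) f p -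
    D.h * ∑ k, D.e k * ∑ b, TT D {b} p * par k b f p := by
  have : ((D.e, BV D p) : Pt D.d) = (D.e, 0) + (0, BV D p) := by simp
  rw [BD, this, map_add, fderiv_omega, D1, sub_eq_add_neg]
  congr 1
  simp only [BV, gv, PiLp.smul_apply, smul_eq_mul, Finset.mul_sum, ← Finset.sum_neg_distrib]
  exact Finset.sum_congr rfl fun k _ => Finset.sum_congr rfl fun b _ => by ring

theorem CD_eq (f : Pt D.d → ℝ) (p : Pt D.d) : CD D f p =
    ∑ c, av D 1 p c * par 0 c f p - ∑ c, av D 0 p c * par 1 c f p := by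
  rw [CD, fderiv_omega, Fin.sum_univ_two, sub_eq_add_neg, ← Finset.sum_neg_distrib]
  simp [RV]

/-! ### Derivation rules -/

theorem par_add {d : ℕ} {f g : Pt d → ℝ} (hf : TG f) (hg : TG g) (k : Fin 2) (c : Fin d) :
    par k c (fun p => f p + g p) = fun p => par k c f p + par k c g p := by
  funext p
  rw [par, D1, fderiv_fun_add (hf.diff p) (hg.diff p)]
  rfl

theorem par_mul {d : ℕ} {f g : Pt d → ℝ} (hf : TG f) (hg : TG g) (k : Fin 2) (c : Fin d) :
    par k c (fun p => f p * g p) = fun p => par k c f p * g p + f p * par k c g p := by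
  funext p
  rw [par, D1, fderiv_fun_mul (hf.diff p) (hg.diff p)]
  simp only [par, D1, add_apply, smul_apply, smul_eq_mul]
  ring

theorem par_sum {d : ℕ} {ι : Type*} (s : Finset ι) {f : ι → Pt d → ℝ} (hf : ∀ i ∈ s, TG (f i))
    (k : Fin 2) (c : Fin d) :
    par k c (fun p => ∑ i ∈ s, f i p) = fun p => ∑ i ∈ s, par k c (f i) p := by
  funext p
  rw [par, D1, fderiv_fun_sum fun i hi => (hf i hi).diff p, sum_apply]
  rfl

theorem par_const {d : ℕ} (a : ℝ) (k : Fin 2) (c : Fin d) :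
    par k c (fun _ : Pt d => a) = fun _ => 0 := by
  funext p
  simp [par, D1]

theorem par_theta {d : ℕ} (l k : Fin 2) (c : Fin d) :
    par k c (fun p : Pt d => p.1 l) = fun _ => 0 := by
  funext p
  rw [par, D1, fderiv_theta]
  rfl

theorem par_omega {d : ℕ} (l k : Fin 2) (b c : Fin d) :
    par k c (fun p : Pt d => p.2 l b) = fun _ => if k = l ∧ c = b then 1 else 0 := by
  funext p
  have := (((EuclideanSpace.proj b : E d →L[ℝ] ℝ).comp (ContinuousLinearMap.proj l)).comp
    (ContinuousLinearMap.snd ℝ Th (Om d))).fderiv (x := p)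
  rw [par, D1]
  refine (congrArg (fun A : Pt d →L[ℝ] ℝ => A (0, Pi.single k (ex c))) this).trans ?_
  by_cases h : k = l
  · subst h
    simp [ex, eq_comm]
  · simp [h, Ne.symm h]

theorem BD_add {f g : Pt D.d → ℝ} (hf : TG f) (hg : TG g) :
    BD D (fun p => f p + g p) = fun p => BD D f p + BD D g p := by
  funext p
  rw [BD, fderiv_fun_add (hf.diff p) (hg.diff p)]
  rfl

theorem BD_mul {f g : Pt D.d → ℝ} (hf : TG f) (hg : TG g) :
    BD D (fun p => f p * g p) = fun p => BD D f p * g p + f p * BD D g p := by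
  funext p
  rw [BD, fderiv_fun_mul (hf.diff p) (hg.diff p)]
  simp only [BD, add_apply, smul_apply, smul_eq_mul]
  ring

theorem BD_sum {ι : Type*} (s : Finset ι) {f : ι → Pt D.d → ℝ} (hf : ∀ i ∈ s, TG (f i)) :
    BD D (fun p => ∑ i ∈ s, f i p) = fun p => ∑ i ∈ s, BD D (f i) p := by
  funext p
  rw [BD, fderiv_fun_sum fun i hi => (hf i hi).diff p, sum_apply]
  rfl

theorem BD_const (a : ℝ) : BD D (fun _ : Pt D.d => a) = fun _ => 0 := by
  funext p
  simp [BD]

theorem BD_theta (k : Fin 2) : BD D (fun p : Pt D.d => p.1 k) = fun _ => D.e k := by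
  funext p
  rw [BD, fderiv_theta]

theorem del_mul {f g : Pt D.d → ℝ} (hf : TG f) (hg : TG g) (k : Fin 2) (c : Fin D.d)
    (p : Pt D.d) : del D k c (fun p => f p * g p) p = del D k c f p * g p - f p * par k c g p := by
  simp only [del, par_mul hf hg]
  ring

/-- Chain rule for functions of `(lev θ, pos θ ω)`. -/
theorem D1_levpos {d : ℕ} {g : ℝ × E d → ℝ} (hg : Sm g) (v : Th) (w : Om d) (p : Pt d) :
    D1 (v, w) (fun p : Pt d => g (lev p.1, pos p.1 p.2)) p =
      -2 * (∑ k, v k * p.1 k) * D1 ((1 : ℝ), (0 : E d)) g (lev p.1, pos p.1 p.2) +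
        ∑ c, (∑ k, (v k * p.2 k c + p.1 k * w k c)) *
          D1 ((0 : ℝ), ex c) g (lev p.1, pos p.1 p.2) := by
  have h1 := Heat2.hasDerivAt_line
    ((hg.comp (tg_lev_pos d).sm).differentiable (by simp) p) (v, w)
  have ht : ∀ k, HasDerivAt (fun t : ℝ => (p + t • (v, w)).1 k) (v k) 0 := fun k => by
    simpa using ((hasDerivAt_id (0 : ℝ)).mul_const (v k)).const_add (p.1 k)
  have hw : ∀ k, HasDerivAt (fun t : ℝ => (p + t • (v, w)).2 k) (w k) 0 := fun k => by
    simpa using ((hasDerivAt_id (0 : ℝ)).smul_const (w k)).const_add (p.2 k)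
  have h2 : HasDerivAt (fun t : ℝ => (lev (p + t • (v, w)).1, pos (p + t • (v, w)).1 (p + t • (v, w)).2))
      (-2 * (∑ k, v k * p.1 k), ∑ k, (v k • p.2 k + p.1 k • w k)) 0 := by
    refine HasDerivAt.prodMk ?_ ?_
    · refine ((HasDerivAt.fun_sum fun k _ => (ht k).pow 2).const_sub 1).congr_deriv ?_
      simp [Fin.sum_univ_two]
      ring
    · refine (HasDerivAt.fun_sum fun k _ => (ht k).smul (hw k)).congr_deriv ?_
      simp [add_comm]
  have h3 := (hg.differentiable (by simp) _).hasFDerivAt.comp_hasDerivAt (0 : ℝ) h2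
  have h4 := h1.unique h3
  have h5 : (-2 * (∑ k, v k * p.1 k), ∑ k, (v k • p.2 k + p.1 k • w k)) =
      (-2 * (∑ k, v k * p.1 k)) • ((1 : ℝ), (0 : E d)) +
        ∑ c, (∑ k, (v k * p.2 k c + p.1 k * w k c)) • ((0 : ℝ), ex c) := by
    refine Prod.ext (by simp [Prod.fst_sum]) ?_
    ext c
    simp [Prod.snd_sum, ex, Pi.single_apply]
  rw [h5, map_add, map_smul, map_sum] at h4
  simp only [map_smul, zero_smul, add_zero, smul_eq_mul] at h4
  exact h4

theorem TG.sum' {d : ℕ} {ι : Type*} (s : Finset ι) {f : ι → Pt d → ℝ} (hf : ∀ i ∈ s, TG (f i)) :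
    TG fun p => ∑ i ∈ s, f i p := Function.HasTemperateGrowth.sum hf

theorem TG.mul' {d : ℕ} {f g : Pt d → ℝ} (hf : TG f) (hg : TG g) : TG fun p => f p * g p :=
  Function.HasTemperateGrowth.mul hf hg

theorem TG.add' {d : ℕ} {f g : Pt d → ℝ} (hf : TG f) (hg : TG g) : TG fun p => f p + g p :=
  Function.HasTemperateGrowth.add hf hg

theorem tg_const' {d : ℕ} (a : ℝ) : TG fun _ : Pt d => a := Function.HasTemperateGrowth.const a

theorem par_cmul {d : ℕ} {f : Pt d → ℝ} (hf : TG f) (a : ℝ) (k : Fin 2) (c : Fin d) :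
    par k c (fun p => a * f p) = fun p => a * par k c f p := by
  rw [par_mul (tg_const' a) hf, par_const]
  simp

theorem par_sub {d : ℕ} {f g : Pt d → ℝ} (hf : TG f) (hg : TG g) (k : Fin 2) (c : Fin d) :
    par k c (fun p => f p - g p) = fun p => par k c f p - par k c g p := by
  have := par_add hf ((tg_const' (-1)).mul' hg) k c
  rw [par_cmul hg] at this
  simpa [sub_eq_add_neg] using this

theorem BD_cmul {f : Pt D.d → ℝ} (hf : TG f) (a : ℝ) :
    BD D (fun p => a * f p) = fun p => a * BD D f p := by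
  rw [BD_mul D (tg_const' a) hf, BD_const]
  simp

theorem BD_sub {f g : Pt D.d → ℝ} (hf : TG f) (hg : TG g) :
    BD D (fun p => f p - g p) = fun p => BD D f p - BD D g p := by
  have := BD_add D hf ((tg_const' (-1)).mul' hg)
  rw [BD_cmul D hg] at this
  simpa [sub_eq_add_neg] using this

theorem del_sum {ι : Type*} (s : Finset ι) {f : ι → Pt D.d → ℝ} (hf : ∀ i ∈ s, TG (f i))
    (k : Fin 2) (c : Fin D.d) (p : Pt D.d) :
    del D k c (fun p => ∑ i ∈ s, f i p) p = ∑ i ∈ s, del D k c (f i) p := by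
  simp only [del, par_sum s hf, Finset.mul_sum, Finset.sum_sub_distrib]

theorem tg_TT1 (c : Fin D.d) : TG (TT D {c}) := tg_TT D (Multiset.singleton_ne_zero c)

theorem tg_TTc (c : Fin D.d) (m : Multiset (Fin D.d)) : TG (TT D (c ::ₘ m)) :=
  tg_TT D Multiset.cons_ne_zero

theorem tg_TT2 (b c : Fin D.d) : TG (TT D {b, c}) := tg_TTc D b {c}

theorem tg_coef (k : Fin 2) (c : Fin D.d) :
    TG fun p : Pt D.d => p.2 k c + D.h * p.1 k * TT D {c} p :=
  (tg_omega _ k c).add' (((tg_const' D.h).mul' (tg_theta _ k)).mul' (tg_TT1 D c))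

theorem BD_omega (k : Fin 2) (c : Fin D.d) (p : Pt D.d) :
    BD D (fun p : Pt D.d => p.2 k c) p = -(D.h * D.e k) * TT D {c} p := by
  have := (((EuclideanSpace.proj c : E D.d →L[ℝ] ℝ).comp (ContinuousLinearMap.proj k)).comp
    (ContinuousLinearMap.snd ℝ Th (Om D.d))).fderiv (x := p)
  refine Eq.trans (congrArg (fun L => L (D.e, BV D p)) this) ?_
  simp [BV, gv]

/-- (R1), by `D1_Tn` and the chain rule. -/
theorem par_TT (l : Fin 2) (c : Fin D.d) (m : Multiset (Fin D.d)) :
    par l c (TT D m) = fun p => p.1 l * TT D (c ::ₘ m) p := by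
  funext p
  have := D1_levpos (sm_Tn D.nice.cvx D.h m) 0 (Pi.single l (ex c)) p
  simp only [D1_Tn D.nice.cvx] at this
  refine this.trans ?_
  have h : ∀ b, ∑ k, p.1 k * (Pi.single l (ex c) : Om D.d) k b = if b = c then p.1 l else 0 := by
    intro b
    rw [Finset.sum_eq_single l (fun k _ hk => by simp [hk]) (by simp)]
    simp [ex]
  simp [h, TT]

/-- (R2) -/
theorem par_comm {d : ℕ} {f : Pt d → ℝ} (hf : TG f) (l k : Fin 2) (c b : Fin d) :
    par l c (par k b f) = par k b (par l c f) := D1_comm hf.sm _ _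

/-- (R3) -/
theorem par_del {f : Pt D.d → ℝ} (hf : TG f) (l k : Fin 2) (b c : Fin D.d) (p : Pt D.d) :
    par l b (del D k c f) p = del D k c (par l b f) p +
      ((if l = k ∧ b = c then 1 else 0) + D.h * p.1 k * p.1 l * TT D {b, c} p) * f p := by
  have h1 : par l b (fun p : Pt D.d => p.2 k c + D.h * p.1 k * TT D {c} p) p =
      (if l = k ∧ b = c then 1 else 0) + D.h * p.1 k * p.1 l * TT D {b, c} p := by
    rw [par_add (tg_omega _ k c) (((tg_const' D.h).mul' (tg_theta _ k)).mul' (tg_TT1 D c)),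
      par_omega, par_mul ((tg_const' D.h).mul' (tg_theta _ k)) (tg_TT1 D c),
      par_cmul (tg_theta _ k), par_theta, par_TT]
    simp only [Multiset.insert_eq_cons]
    ring
  unfold del
  rw [par_sub ((tg_coef D k c).mul' hf) (hf.par k c), par_mul (tg_coef D k c) hf, par_comm hf]
  simp only [h1]
  ring

/-- (R4), by `D1_fderiv_apply` or `BD_eq`. -/
theorem par_BD {f : Pt D.d → ℝ} (hf : TG f) (l : Fin 2) (c : Fin D.d) (p : Pt D.d) :
    BD D (par l c f) p = par l c (BD D f) p +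
      D.h * p.1 l * ∑ k, D.e k * ∑ b, TT D {c, b} p * par k b f p := by
  have h1 : ∀ k b, TG fun p => TT D {b} p * par k b f p := fun k b => (tg_TT1 D b).mul' (hf.par k b)
  have h2 : ∀ k, TG fun p => ∑ b, TT D {b} p * par k b f p := fun k => TG.sum' _ fun b _ => h1 k b
  have h3 := fun k => (tg_const' (D.e k)).mul' (h2 k)
  have h4 := TG.sum' Finset.univ fun k _ => h3 k
  rw [funext (BD_eq D f), par_sub (hf.D1 _) ((tg_const' _).mul' h4), par_cmul h4,
    par_sum _ fun k _ => h3 k, BD_eq]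
  simp only [fun k => par_cmul (h2 k), fun k => par_sum Finset.univ fun b _ => h1 k b,
    fun k b => par_mul (tg_TT1 D b) (hf.par k b), par_TT, par_comm hf l,
    Multiset.insert_eq_cons, Finset.sum_add_distrib, mul_assoc, ← Finset.mul_sum]
  rw [show par l c (D1 (D.e, 0) f) = D1 (D.e, 0) (par l c f) from D1_comm hf.sm _ _]
  simp only [Fin.sum_univ_two]
  ring

/-- (R5).  With `ε = ∑ k, e k θ k`: the chain rule gives
`D1 (e,0) (TT m) = -2 ε ∂ₛ Tn m + ∑ k, e k ∑ c, ω k c TT (c :: m)`; use `Tn_time`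
(`deriv psi = 1` on the region); the terms `t = ∅` and `t = univ` cancel. -/
theorem BD_TT {ι : Type*} [Fintype ι] [DecidableEq ι] [Nonempty ι] (x : ι → Fin D.d)
    (p : Pt D.d) (hp : ‖p.1‖ < 1 / 2) :
    BD D (TT D (ms x)) p = ∑ k, D.e k * ∑ c, del D k c (TT D (c ::ₘ ms x)) p +
      D.h * (∑ k, D.e k * p.1 k) *
        ∑ t ∈ Finset.univ.filter (fun t : Finset ι => t ≠ ∅ ∧ t ≠ Finset.univ), ∑ c,
          TT D (c ::ₘ t.val.map x) p * TT D (c ::ₘ tᶜ.val.map x) p := by
  have h1 := D1_levpos (sm_Tn D.nice.cvx D.h (ms x)) D.e 0 p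
  have hl := lev_mem hp.le
  rw [Tn_time D.nice.cvx D.hpos.ne', deriv_psi_eq (by dsimp only; linarith) (by dsimp only; linarith),
    Finset.sum_comm (γ := Fin D.d)] at h1
  simp only [D1_Tn D.nice.cvx] at h1
  have h2 : ∀ φ : Finset ι → ℝ, ∑ t, φ t = φ ∅ + φ Finset.univ +
      ∑ t ∈ Finset.univ.filter (fun t : Finset ι => t ≠ ∅ ∧ t ≠ Finset.univ), φ t := by
    intro φ
    rw [← Finset.sum_pair Finset.univ_nonempty.ne_empty.symm,
      ← Finset.sum_add_sum_compl ({∅, Finset.univ} : Finset (Finset ι))]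
    congr 2
    ext t
    simp
  rw [h2] at h1
  rw [BD_eq]
  refine (congrArg (· - _) h1).trans ?_
  simp only [del, par_TT, Fin.sum_univ_two, TT, ms, Finset.compl_empty, Finset.compl_univ,
    Finset.empty_val, Multiset.map_zero, Multiset.cons_zero, Pi.zero_apply, PiLp.zero_apply,
    mul_zero, add_zero, add_mul, Finset.sum_add_distrib, Finset.sum_sub_distrib, mul_assoc,
    ← Finset.mul_sum, mul_left_comm _ (p.1 _),
    fun c => mul_comm (Tn D.U D.h (c ::ₘ Finset.univ.val.map x) (lev p.1, pos p.1 p.2))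
      (Tn D.U D.h {c} (lev p.1, pos p.1 p.2))]
  ring

theorem BD_TT_single (c : Fin D.d) (p : Pt D.d) (hp : ‖p.1‖ < 1 / 2) :
    BD D (TT D {c}) p = ∑ k, D.e k * av D k p c := by
  have h := BD_TT D (fun _ : Unit => c) p hp
  have h0 : Finset.univ.filter (fun t : Finset Unit => t ≠ ∅ ∧ t ≠ Finset.univ) = ∅ := by decide
  rw [h0] at h
  simpa [ms, av] using h

/-- (R6): `B(ω k c + h θ_k g_c) = h θ_k ∑ l, e l a_l c`, (R4) and `del_mul`. -/
theorem BD_del {f : Pt D.d → ℝ} (hf : TG f) (k : Fin 2) (c : Fin D.d) (p : Pt D.d)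
    (hp : ‖p.1‖ < 1 / 2) :
    BD D (del D k c f) p = del D k c (BD D f) p +
      D.h * p.1 k * ∑ l, D.e l * ∑ b, del D l b (fun p => TT D {b, c} p * f p) p := by
  have h1 : BD D (fun p : Pt D.d => p.2 k c + D.h * p.1 k * TT D {c} p) p =
      D.h * p.1 k * ∑ l, D.e l * av D l p c := by
    rw [BD_add D (tg_omega _ k c) (((tg_const' D.h).mul' (tg_theta _ k)).mul' (tg_TT1 D c)),
      BD_mul D ((tg_const' D.h).mul' (tg_theta _ k)) (tg_TT1 D c),
      BD_cmul D (tg_theta _ k), BD_theta]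
    simp only [BD_omega, BD_TT_single D c p hp]
    ring
  simp only [fun l b => del_mul D (tg_TT2 D b c) hf l b p]
  rw [show del D k c f = fun p => (p.2 k c + D.h * p.1 k * TT D {c} p) * f p - par k c f p from rfl,
    BD_sub D ((tg_coef D k c).mul' hf) (hf.par k c), BD_mul D (tg_coef D k c) hf]
  simp only [h1, par_BD D hf, Multiset.pair_comm c, av, Finset.sum_sub_distrib, ← Finset.sum_mul,
    Fin.sum_univ_two]
  rw [show del D k c (BD D f) p = (p.2 k c + D.h * p.1 k * TT D {c} p) * BD D f p -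
    par k c (BD D f) p from rfl]
  ring

/-- (R8): `del_mul`; the second-order terms cancel by `par_comm` and `{b, c} = {c, b}`. -/
theorem CD_eq_del {f : Pt D.d → ℝ} (hf : TG f) (p : Pt D.d) :
    CD D f p = ∑ b, del D 1 b (fun p => ∑ c, TT D {b, c} p * par 0 c f p) p -
      ∑ b, del D 0 b (fun p => ∑ c, TT D {b, c} p * par 1 c f p) p := by
  have h : ∀ k l, ∑ b, del D k b (fun p => ∑ c, TT D {b, c} p * par l c f p) p =
      ∑ c, av D k p c * par l c f p - ∑ b, ∑ c, TT D {b, c} p * par k b (par l c f) p := by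
    intro k l
    simp only [fun b => del_sum D Finset.univ (fun c _ => (tg_TT2 D b c).mul' (hf.par l c)) k b p,
      fun b c => del_mul D (tg_TT2 D b c) (hf.par l c) k b p, Finset.sum_sub_distrib, av,
      Finset.sum_mul]
    rw [Finset.sum_comm]
  have h2 : ∑ b, ∑ c, TT D {b, c} p * par 1 b (par 0 c f) p =
      ∑ b, ∑ c, TT D {b, c} p * par 0 b (par 1 c f) p := by
    rw [Finset.sum_comm]
    refine Finset.sum_congr rfl fun b _ => Finset.sum_congr rfl fun c _ => ?_
    rw [par_comm hf, Multiset.pair_comm]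
  rw [CD_eq, h, h, h2]
  ring

/-- The rotation field is divergence free: `del 0 c` and `del 1 b` commute (R3). -/
theorem div_RV (p : Pt D.d) :
    ∑ c, del D 0 c (fun p => av D 1 p c) p - ∑ c, del D 1 c (fun p => av D 0 p c) p = 0 := by
  have h : ∀ k l c, del D k c (fun p => av D l p c) p =
      ∑ b, del D k c (del D l b (TT D {b, c})) p := fun k l c =>
    del_sum D Finset.univ (fun b _ => (tg_TT2 D b c).del D l b) k c p
  simp only [h]
  rw [Finset.sum_comm, sub_eq_zero]
  refine Finset.sum_congr rfl fun b _ => Finset.sum_congr rfl fun c _ => ?_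
  rw [Multiset.pair_comm c b]
  have h1 := par_del D (tg_TT2 D b c) 0 1 c b p
  have h2 := par_del D (tg_TT2 D b c) 1 0 b c p
  rw [Multiset.pair_comm c b] at h1
  rw [del, del.eq_1 D 1 b (del D 0 c _), h1, h2]
  simp only [del, par_comm (tg_TT2 D b c) 0 1]
  simp
  ring

/-- The divergence of the full field is the logarithmic time derivative of the density
(`PhT_heat`, `D1_PhT`). -/
theorem div_XV (p : Pt D.d) (hp : ‖p.1‖ < 1 / 2) :
    ∑ k, ∑ c, del D k c (fun p => XV D p k c) p =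
      -D1 (D.e, (0 : Om D.d)) (fun p : Pt D.d => PhT D.U (lev p.1, pos p.1 p.2)) p := by
  have h0 := div_RV D p
  have hl := lev_mem hp.le
  have h1 := D1_levpos (sm_PhT D.nice.cvx) D.e 0 p
  rw [PhT_heat D.nice.cvx, deriv_psi_eq (by dsimp only; linarith) (by dsimp only; linarith)] at h1
  have e0 : PhT D.U = Tn D.U 1 0 := by funext q; simp [Tn, DM]
  have e1 : ∀ m, Tn D.U 1 m (lev p.1, pos p.1 p.2) = D.h * TT D m p := fun m => by
    simp [TT, Tn, D.hpos.ne']
  rw [h1, e0]
  simp only [D1_Tn D.nice.cvx, e1]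
  have h2 : ∀ k c (a b : ℝ) {g : Pt D.d → ℝ}, TG g →
      del D k c (fun p => a * TT D {c} p + b * g p) p =
        a * del D k c (TT D {c}) p + b * del D k c g p := fun k c a b g hg => by
    simp only [del, par_add ((tg_const' a).mul' (tg_TT1 D c)) ((tg_const' b).mul' hg),
      par_cmul hg, par_cmul (tg_TT1 D c)]
    ring
  have h3 : ∀ c, (fun p => XV D p 0 c) =
      fun p => -(D.h * D.e 0) * TT D {c} p + D.κ * av D 1 p c := fun c => by
    funext p; simp [XV, BV, RV, gv]
  have h4 : ∀ c, (fun p => XV D p 1 c) =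
      fun p => -(D.h * D.e 1) * TT D {c} p + -D.κ * av D 0 p c := fun c => by
    funext p; simp [XV, BV, RV, gv]
  simp only [Fin.sum_univ_two, h3, h4, fun k c a b l => h2 k c a b ((tg_av D l).coord c),
    Finset.sum_add_distrib, ← Finset.mul_sum]
  rw [sub_eq_zero.1 h0]
  simp only [del.eq_1 D _ _ (TT D _), par_TT, Multiset.cons_zero, Pi.zero_apply, PiLp.zero_apply,
    mul_zero, add_zero, add_mul, Finset.sum_add_distrib, Finset.sum_sub_distrib, mul_assoc,
    ← Finset.mul_sum, sq, mul_left_comm _ D.h]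
  ring

theorem XD_gv (p : Pt D.d) (hp : ‖p.1‖ < 1 / 2) :
    XD D (gv D) p = ∑ k, D.e k • av D k p + D.κ • CD D (gv D) p := by
  rw [XD_eq]
  congr 1
  ext c
  have h := ((EuclideanSpace.proj c : E D.d →L[ℝ] ℝ).hasFDerivAt.comp p
    ((tg_gv D).sm.differentiable (by simp) p).hasFDerivAt).fderiv
  have h2 : BD D (TT D {c}) p = BD D (gv D) p c := congrArg (fun L => L (D.e, BV D p)) h
  rw [← h2, BD_TT_single D c p hp]
  simp

end Crest.Agent.R285
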