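import Crest.Agent.R285.Link

/-! Row 285: approximate sampling from the backward kernel `Kd`. -/

set_option autoImplicit false

namespace Crest.Agent.R285

open MeasureTheory ProbabilityTheory Crest.OracleSampling Set
open scoped ENNReal NNReal InnerProductSpace

namespace SampA

variable {d : ℕ}

theorem norm_vec (x : E d) : ‖(![x, 0] : Om d)‖ ≤ ‖x‖ := by
  rw [pi_norm_le_iff_of_nonneg (norm_nonneg _), Fin.forall_fin_two]
  simp

theorem lip_vec (u : E d) {c : ℝ} (hc : 0 ≤ c) : Lip c fun r : E d => (![c • (r - u), 0] : Om d) := by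
  intro x y
  have : (![c • (x - u), 0] : Om d) - ![c • (y - u), 0] = ![c • (x - y), 0] := by
    funext k
    fin_cases k
    · simp [smul_sub]
    · simp
  rw [this]
  refine (norm_vec _).trans (le_of_eq ?_)
  rw [norm_smul, Real.norm_of_nonneg hc]

theorem lip_aff (u : E d) {c : ℝ} (hc : 0 ≤ c) : Lip c fun η : E d => u + c • η := by
  intro x y
  rw [add_sub_add_left_eq_sub, ← smul_sub, norm_smul, Real.norm_of_nonneg hc]

/-- the bridge identity in normalized coordinates -/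
theorem bridge {V : E d → ℝ} (hV : Admissible d V) {v t : ℝ} (hv : 0 < v) (ht : 0 < t)
    (ht' : 2 * t ^ 2 ≤ 1) (u : E d) {f : E d → ℝ} {L : ℝ} (hf : Lip L f) :
    ∫ η, ∫ G, f (u + (√v * (√2 * t) / 2) • η + (√v * (√2 * t) / 2) • G) ∂gam d
      ∂kd (resc V u v) (√2 * t) = ∫ b, f b ∂Kd V v t u := by
  have h2 : (0 : ℝ) < √2 := by positivity
  have h0 : 0 < √v := Real.sqrt_pos.2 hv
  have e1 : (√2 * t) ^ 2 = 2 * t ^ 2 := by rw [mul_pow, Real.sq_sqrt zero_le_two]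
  have hW := Phi_cvx (adm_cvx hV) (v * (1 - 2 * t ^ 2))
  have h1 := integral_bridge hW (s := v * t ^ 2) (by positivity) u hf
  rw [Phi_Phi (adm_cvx hV) (mul_nonneg hv.le (by linarith)) (by positivity),
    show v * (1 - 2 * t ^ 2) + v * t ^ 2 = v * (1 - t ^ 2) by ring] at h1
  have e2 : nu (Phi V (v * (1 - 2 * t ^ 2))) (2 * (v * t ^ 2)) u = Kd V v (√2 * t) u := by
    rw [Kd, e1]; congr 1; ring
  have e3 : √(v * t ^ 2 / 2) = √v * (√2 * t) / 2 := by
    rw [Real.sqrt_eq_iff_mul_self_eq (by positivity) (by positivity)]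
    have := Real.mul_self_sqrt hv.le
    calc _ = √v * √v * (√2 * t) ^ 2 / 4 := by rw [this, e1]; ring
      _ = _ := by ring
  have c1 : Continuous fun b' : E d =>
      ∫ G, f ((1 / 2 : ℝ) • (u + b') + (√v * (√2 * t) / 2) • G) ∂gam d :=
    (lip_gam_smooth hf (√v * (√2 * t) / 2)).continuous.comp
      (f := fun b' : E d => (1 / 2 : ℝ) • (u + b')) (by fun_prop)
  rw [Kd, h1, e2, e3, Kd_eq_map (adm_cvx hV) hv (by positivity),
    integral_map (by fun_prop) c1.aestronglyMeasurable]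
  refine integral_congr_ae (Filter.Eventually.of_forall fun η => ?_)
  refine integral_congr_ae (Filter.Eventually.of_forall fun G => ?_)
  dsimp only
  congr 2
  module

end SampA

open SampA in
/-- Let `τ' = √2 τ`, `T = √v K τ'`.  Stage 1: `p ← Acc u` with noise `T` (`Acc.noise'`).  Stage 2,
on the input `(a, p)`: `ω₀ = ![T⁻¹ • (p - u), 0]`, access
`x₂ = (1/2) • (u + p) + (T/2) • (Smp K τ' n v G ω₀ - ω₀ 0)` with noise `T/2`
(`tree_smp`, `facc_of_eng` with `c = κb`, `r = 1`, `R = K τ'`, `s₁ = Ct κb σ / √v ≤ 1/2`; base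
points `u + √v pos θ ω₀ = (1 - λ) u + λ p`, `λ = θ 0 / (K τ')`, so `qb = q`, `ρb = 2 ρ₀`,
`eb = 2 e`; `Gb = 4 (√v)⁻¹ (√d + ‖u‖ + √v ‖ω₀‖)`, `Wt = 5 (√N + ‖u‖ + √v ‖ω₀‖)`,
`wt = (√v)⁻¹ (eb + κb ζ Wt)`).  `App.bind` with `Λ = 1` (`Sch.Smp_lip`, `lip_gam_smooth`),
`β = C' κb ζ`.  The target is `∫ξ ∫G f (u + (T/2) Smp ![ξ,0] + (T/2) G)`; `approx_smp` for the test
function `η ↦ ∫G f (u + (T/2) η + (T/2) G)` (`F_resc_norm_le`), then `Kd_eq_map` at `K τ'`,
`integral_bridge` with `W = Phi V (v (1 - 2 t²))`, `s = v t²`, `t = K τ`, and `Phi_Phi`. -/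
theorem samp (n : ℕ) : ∃ Dn : ℕ, ∀ K : ℕ, 1 ≤ K → ∃ C : ℝ, 1 ≤ C ∧ ∀ (d : ℕ)
    (N v τ κb σ ρ ρ₀ M ζ : ℝ), (d : ℝ) ≤ N → 0 < v → v ≤ 1 / 4 → v ≤ κb → C * κb ≤ 1 → 0 < τ →
    8 * (K * τ) ≤ 1 → 1 ≤ M → 0 ≤ σ → 0 ≤ ζ → 0 ≤ ρ₀ → C * (κb * σ) ≤ ρ → C * ρ₀ ≤ ρ →
    ρ ≤ √v * τ → κb * ζ ≤ 1 → (∀ v', v / 2 ≤ v' → v' ≤ v → Eng d N v' σ ρ M ζ) →
    ∀ (A : Type) [MeasurableSpace A] (q : ℝ) (e : Pot d → A → ℝ) (u : Pot d → A → E d),
    Acc q ρ₀ e u →
    App ((C * M) ^ Dn * (q + 1))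
      (fun V a => (C * M) ^ Dn * (e V a + (κb * ζ + √v * (κb ^ n + τ ^ K)) * (√N + ‖u V a‖)))
      fun V a f => ∫ b, f b ∂Kd V.1 v (K * τ) (u V a) := by
  obtain ⟨D₀, hD₀⟩ := tree_smp n
  refine ⟨D₀ + 1, fun K hK => ?_⟩
  obtain ⟨Ct, hCt, hT⟩ := hD₀ K
  obtain ⟨Ca, hCa, hA⟩ := approx_smp K n hK
  have hLg := one_le_Lg
  have p1 : (1 : ℝ) ≤ 2 ^ K := one_le_pow₀ one_le_two
  have p2 : 0 ≤ 20 * Cq K ^ 2 * Lg := by positivity
  have p3 : Ca ≤ 3 * Ca * 2 ^ K := by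
    linarith [mul_le_mul_of_nonneg_left p1 (zero_le_one.trans hCa)]
  obtain ⟨C, c1, c2, c3, c4⟩ : ∃ C : ℝ, 8 ≤ C ∧ 2 * Ct ≤ C ∧ 3 * Ca * 2 ^ K ≤ C ∧
      20 * Cq K ^ 2 * Lg ≤ C :=
    ⟨8 + 2 * Ct + 3 * Ca * 2 ^ K + 20 * Cq K ^ 2 * Lg, by linarith, by linarith, by linarith,
      by linarith⟩
  refine ⟨C, by linarith, ?_⟩
  intro d N v τ κb σ ρ ρ₀ M ζ hN hv hv' hκ hCκ hτ hKτ hM hσ hζ hρ₀ hρ1 hρ2 hρ3 hκζ hE A _ q e u hu
  have h0 : 0 < √v := Real.sqrt_pos.2 hv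
  have hv2 : √v ≤ 1 / 2 := Real.sqrt_le_iff.2 ⟨by norm_num, by linarith⟩
  have hκ0 : 0 < κb := hv.trans_le hκ
  have hκ1 : κb ≤ 1 := by linarith [mul_le_mul_of_nonneg_right c1 hκ0.le]
  have hK1 : (1 : ℝ) ≤ K := by exact_mod_cast hK
  have s1 : (1 : ℝ) ≤ √2 := Real.one_le_sqrt.2 one_le_two
  have s2 : √2 ≤ (2 : ℝ) := Real.sqrt_le_iff.2 ⟨by norm_num, by norm_num⟩
  have hq : 0 ≤ q := App.q_nonneg hu
  have he : ∀ V a, 0 ≤ e V a := App.e_nonneg hu
  have hdN : √d ≤ √N := Real.sqrt_le_sqrt hN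
  have hτK : τ ≤ K * τ := le_mul_of_one_le_left hτ.le hK1
  set τ' := √2 * τ with hτ'
  have hτ'0 : 0 < τ' := by positivity
  have et : K * τ' = √2 * (K * τ) := by rw [hτ']; ring
  set t' := K * τ' with ht'
  have t0 : 0 < t' := by positivity
  have t1 : t' ≤ 1 / 4 := by
    rw [et]; linarith [mul_le_mul_of_nonneg_right s2 (hτ.le.trans hτK)]
  have t2 : τ ≤ t' := by
    rw [et]; linarith [mul_le_mul_of_nonneg_right s1 (hτ.le.trans hτK)]
  have t3 : τ' ≤ 1 := by rw [hτ']; linarith [mul_le_mul_of_nonneg_right s2 hτ.le]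
  set T := √v * t' with hTd
  have T0 : 0 < T := by positivity
  have T1 : T ≤ 1 := mul_le_one₀ (by linarith) t0.le (by linarith)
  have hρT : ρ ≤ T := hρ3.trans (by rw [hTd]; gcongr)
  have r1 : 8 * ρ₀ ≤ ρ := le_trans (by gcongr) hρ2
  have r2 : 2 * Ct * (κb * σ) ≤ ρ := le_trans (by gcongr) hρ1
  have h₁ : Acc q T e u := hu.noise' (by rw [abs_of_nonneg hρ₀]; linarith)
  have hu' : Acc (A := A × E d) q ρ₀ (fun V x => e V x.1) fun V x => u V x.1 :=
    hu.pre measurable_fst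
  set ω₀ : Pot d → A × E d → Om d := fun V x => ![T⁻¹ • (x.2 - u V x.1), 0] with hω₀
  set σ' := κb * (√v)⁻¹ * σ with hσ'
  have σ0 : 0 ≤ σ' := by positivity
  have es : √v * (Ct * σ') = Ct * (κb * σ) := by rw [hσ']; field_simp
  have hs₁ : Ct * σ' ≤ 1 / 2 := by
    refine le_of_mul_le_mul_left ?_ h0
    rw [es]
    linarith [mul_le_mul_of_nonneg_left (show τ ≤ 1 by linarith) h0.le]
  set Wt : Pot d → A × E d → ℝ := fun V x => 5 * (√N + ‖u V x.1‖ + √v * ‖ω₀ V x‖) with hWt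
  set wt : Pot d → A × E d → ℝ := fun V x => (√v)⁻¹ * (2 * e V x.1 + κb * ζ * Wt V x) with hwt
  set Gb : Pot d → A × E d → ℝ :=
    fun V x => 4 * (√v)⁻¹ * (√d + ‖u V x.1‖ + √v * ‖ω₀ V x‖) with hGb
  have w0 : ∀ V x, 0 ≤ wt V x := fun V x => by
    have := he V x.1
    simp only [hwt, hWt]; positivity
  have FA := facc_of_eng (A := A × E d) (N := N) (σ := σ) (ρ := ρ) (M := M) (ζ := ζ) (R := t')
    (r := 1) (s₁ := Ct * σ') (c := κb) (qb := q) (ρb := 2 * ρ₀) (u := fun V x => u V x.1)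
    (ω₀ := ω₀) (Gb := Gb) (wt := wt) (wt' := fun _ _ => 0) (eb := fun V x => 2 * e V x.1)
    (Wt := Wt) hv (by linarith) hM hζ hκ0.le hκ1 zero_le_one (by positivity) (by positivity)
    (by rw [one_mul, es]; linarith) hE (fun θ hθ => ?_) w0 (fun V x => ?_) fun V x => ?_
  rotate_left
  · have a1 : |θ 0 / t'| ≤ 1 := by
      have := (norm_le_pi_norm θ 0).trans hθ
      rw [Real.norm_eq_abs] at this
      rw [abs_div, abs_of_pos t0, div_le_one t0]
      exact this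
    have a2 : |1 - θ 0 / t'| ≤ 2 := by
      rw [abs_le] at a1 ⊢; constructor <;> linarith [a1.1, a1.2]
    refine ((((hu'.smul (1 - θ 0 / t')).add_known (x := fun x : A × E d => (θ 0 / t') • x.2)
      (by fun_prop)).noise' (σ' := 2 * ρ₀) ?_).mono le_rfl fun V x => ?_).congr
        fun V x => ?_
    · rw [abs_mul, abs_of_nonneg hρ₀]; gcongr
    · exact mul_le_mul_of_nonneg_right a2 (he V x.1)
    · have a3 : √v * θ 0 * T⁻¹ = θ 0 / t' := by rw [hTd]; field_simp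
      simp only [pos, hω₀, Fin.sum_univ_two, Matrix.cons_val_zero, Matrix.cons_val_one,
        smul_zero, add_zero, smul_smul]
      rw [← mul_assoc, a3]
      module
  · have a1 : √v * Gb V x = 4 * (√d + ‖u V x.1‖ + √v * ‖ω₀ V x‖) := by
      simp only [hGb]; field_simp
    simp only [hWt]
    rw [one_mul, mul_add, a1]
    linarith
  · simp only [hwt]
    rw [add_zero, mul_comm κb, mul_assoc]
    refine mul_le_mul_of_nonneg_left ?_ (inv_pos.2 h0).le
    linarith [mul_le_mul_of_nonneg_right hκ1 (he V x.1)]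
  have B1 := hT d (A × E d) ω₀ Gb wt (Ct * σ') (q + 1) (2 * M) σ' τ' v κb Lg
    (fun V x => Gf (resc V.1 (u V x.1) v) v) hκ0 (by linarith) (by linarith) σ0 le_rfl w0
    (fun V x => sch_resc V.2 _ hv hκ hτ'0 t3 (le_trans (by gcongr) hCκ) (by linarith))
    (fun V x θ hθ => Gf_resc_norm_le V.2 _ hv hv' (hθ.trans (by linarith)) _)
    (fun V x => by simp only [hGb]; positivity) hτ'0 t3 hv.le hκ FA
  set P := (Ct * (2 * M)) ^ D₀ with hP
  have P1 : 1 ≤ P := one_le_pow₀ (one_le_mul_of_one_le_of_one_le hCt (by linarith))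
  have P2 : P * C ≤ (C * M) ^ (D₀ + 1) := by
    rw [pow_succ]
    refine mul_le_mul (pow_le_pow_left₀ (by positivity) ?_ _)
      (le_mul_of_one_le_right (by linarith) hM) (by linarith) (by positivity)
    linarith [mul_le_mul_of_nonneg_right c2 (zero_le_one.trans hM)]
  have n1 : |T / 2 * (Ct * σ')| + |1 / 2 * ρ₀| ≤ T / 2 := by
    rw [abs_of_nonneg (by positivity), abs_of_nonneg (by positivity)]
    linarith [mul_le_mul_of_nonneg_left hs₁ (half_pos T0).le]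
  have h₂ := (((B1.smul (T / 2)).add (hu'.smul (1 / 2)) n1).add_known
      (x := fun x : A × E d => (1 / 2 : ℝ) • x.2) (by fun_prop)).congr
      (u' := fun V x => u V x.1 + (T / 2) • Smp K τ' n v (Gf (resc V.1 (u V x.1) v) v) (ω₀ V x))
      fun V x => by
        have a3 : T / 2 * T⁻¹ = 1 / 2 := by field_simp
        simp only [hω₀, Matrix.cons_val_zero, smul_sub, smul_smul, a3]
        module
  have h₃ := App.bind (Λ := 1) (β := 3 * P * (κb * ζ))
    (α := fun V a => P * (2 * e V a + 5 * (κb * ζ) * (√N + ‖u V a‖))) h₁ h₂ zero_le_one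
    (by positivity) (fun V a L f hL hf => ?_) fun V a r => ?_
  rotate_left
  · have a1 := ((sch_resc V.2 (u V a) hv hκ hτ'0 t3 (le_trans (by gcongr) hCκ)
      (R := t') (K := K) (by linarith)).Smp_lip le_rfl n).1
    have a2 := (lip_aff (u V a) (c := T / 2) (by positivity)).comp
      (a1.comp (lip_vec (u V a) (inv_pos.2 T0).le) zero_le_two) (by positivity)
    rw [show T / 2 * (2 * T⁻¹) = 1 by field_simp] at a2
    exact (lip_gam_smooth hf (T / 2)).comp a2 hL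
  · have a1 : √v * ‖ω₀ V (a, r)‖ ≤ t'⁻¹ * (‖r‖ + ‖u V a‖) := by
      have a2 : ‖ω₀ V (a, r)‖ ≤ T⁻¹ * (‖r‖ + ‖u V a‖) := by
        refine (norm_vec _).trans ?_
        rw [norm_smul, Real.norm_of_nonneg (inv_pos.2 T0).le]
        gcongr
        exact norm_sub_le _ _
      calc _ ≤ √v * (T⁻¹ * (‖r‖ + ‖u V a‖)) := by gcongr
        _ = _ := by rw [hTd]; field_simp
    have a2 : T / 2 * wt V (a, r) = t' * e V a + 5 / 2 * (κb * ζ) *
        (t' * (√N + ‖u V a‖) + t' * (√v * ‖ω₀ V (a, r)‖)) := by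
      simp only [hwt, hWt, hTd]; field_simp
    have a3 : t' * (√v * ‖ω₀ V (a, r)‖) ≤ ‖r‖ + ‖u V a‖ := by
      calc _ ≤ t' * (t'⁻¹ * (‖r‖ + ‖u V a‖)) := by gcongr
        _ = _ := by field_simp
    have a4 : t' * (√N + ‖u V a‖) ≤ √N + ‖u V a‖ :=
      mul_le_of_le_one_left (by positivity) (by linarith)
    have a5 : t' * e V a ≤ e V a := mul_le_of_le_one_left (he V a) (by linarith)
    have a6 : 0 ≤ κb * ζ := by positivity
    have a7 : T / 2 * wt V (a, r) ≤ e V a + 5 * (κb * ζ) * (√N + ‖u V a‖) + 3 * (κb * ζ) * ‖r‖ := by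
      rw [a2]
      have b1 := mul_le_mul_of_nonneg_left (add_le_add a4 a3) a6
      have b2 := mul_nonneg a6 (norm_nonneg r)
      have b3 := mul_nonneg a6 (Real.sqrt_nonneg N)
      linarith
    have a8 := mul_le_mul_of_nonneg_left a7 (zero_le_one.trans P1)
    have a9 : e V a ≤ P * e V a := le_mul_of_one_le_left (he V a) P1
    rw [abs_of_pos (half_pos T0), abs_of_pos (by norm_num : (0 : ℝ) < 1 / 2)]
    dsimp only
    linarith [he V a]
  refine (h₃.perturb (T' := fun V a f => ∫ b, f b ∂Kd V.1 v (K * τ) (u V a))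
    (e' := fun V a => C * (√v * (κb ^ n + τ ^ K)) * (√N + ‖u V a‖))
    fun V a L f hL hf => ?_).mono ?_ fun V a => ?_
  · have a1 := (lip_gam_smooth hf (T / 2)).comp (lip_aff (u V a) (c := T / 2) (by positivity)) hL
    have a2 := hA d (resc V.1 (u V a) v) v τ' κb (nice_resc (adm_nice V.2) _ hv.le) hv hκ
      (le_trans (by gcongr; linarith) hCκ) hτ'0 (by linarith) _ _ (by positivity) a1
    have a3 := bridge V.2 hv (t := K * τ) (by positivity) (by
      linarith [pow_le_pow_left₀ (hτ.le.trans hτK) (show K * τ ≤ 1 / 8 by linarith) 2]) (u V a) hf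
    rw [← et, ← hTd] at a3
    rw [← ht', a3] at a2
    have a4 : ∀ ξ : E d, T⁻¹ • (u V a + T • ξ - u V a) = ξ := fun ξ => by
      rw [add_sub_cancel_left, inv_smul_smul₀ T0.ne']
    simp only [hω₀, a4]
    refine a2.trans ?_
    have a5 := F_resc_norm_le V.2 (u V a) hv hv'
    have a6 : κb ^ n + τ' ^ K ≤ 2 ^ K * (κb ^ n + τ ^ K) := by
      have b1 : τ' ^ K ≤ 2 ^ K * τ ^ K := by
        rw [← mul_pow, hτ']; gcongr
      have b2 : κb ^ n ≤ 2 ^ K * κb ^ n := le_mul_of_one_le_left (by positivity) p1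
      linarith
    have a7 : T / 2 ≤ √v := by
      rw [hTd]; linarith [mul_le_mul_of_nonneg_left t1 h0.le]
    calc _ ≤ L * √v * Ca * (2 ^ K * (κb ^ n + τ ^ K)) * (3 * (√N + ‖u V a‖)) := by
          gcongr
          linarith
      _ = L * (3 * Ca * 2 ^ K * (√v * (κb ^ n + τ ^ K)) * (√N + ‖u V a‖)) := by ring
      _ ≤ _ := by gcongr
  · have a1 : q + 1 ≤ P * (q + 1) := le_mul_of_one_le_left (by linarith) P1
    have a2 : 0 ≤ P * (q + 1) := by positivity
    calc _ ≤ P * C * (q + 1) := by linarith [mul_le_mul_of_nonneg_right c1 a2]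
      _ ≤ _ := by gcongr
  · have a1 := integral_norm_add_gam_le (u V a) T
    rw [abs_of_pos T0] at a1
    have a2 : T * √d ≤ √N := (mul_le_of_le_one_left (Real.sqrt_nonneg _) T1).trans hdN
    have a6 : 0 ≤ κb * ζ := by positivity
    have a3 : 3 * P * (κb * ζ) * (∫ ξ, ‖u V a + T • ξ‖ ∂gam d + e V a) ≤
        3 * P * (κb * ζ) * (√N + ‖u V a‖ + e V a) := by gcongr; linarith
    have S0 : 0 ≤ √N + ‖u V a‖ := by positivity
    have w0 : 0 ≤ √v * (κb ^ n + τ ^ K) := by positivity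
    generalize √N + ‖u V a‖ = S at *
    generalize √v * (κb ^ n + τ ^ K) = w at *
    generalize κb * ζ = z at *
    have e0 := he V a
    generalize e V a = ε at *
    have b1 : ε ≤ P * ε := le_mul_of_one_le_left e0 P1
    have b2 : P * z * ε ≤ P * ε := by
      rw [mul_assoc]; gcongr; exact mul_le_of_le_one_left e0 hκζ
    have b3 : C * w * S ≤ P * C * (w * S) := by
      rw [mul_assoc P, mul_assoc C]
      exact le_mul_of_one_le_left (by positivity) P1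
    have b4 : 8 * (P * (ε + z * S)) ≤ C * (P * (ε + z * S)) := by gcongr
    have b5 : 0 ≤ P * ε := by positivity
    calc _ ≤ P * C * (ε + (z + w) * S) := by dsimp only; linarith
      _ ≤ _ := by gcongr

end Crest.Agent.R285
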