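import Crest.Agent.R285.Meas

/-! Row 285: closure properties of the Sobolev-type class `G0`.  Every statement on `G0` is proved
for `HS k` by induction on `k`, generalizing over the index families; the derivative of the
constructed family is rewritten with the rules of `Rules.lean` and `congr`/`reidx`. -/

set_option autoImplicit false

namespace Crest.Agent.R285

open MeasureTheory ProbabilityTheory Crest.OracleSampling Set
open scoped ENNReal NNReal InnerProductSpace

namespace SobA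

section tg
variable {P : Type*} [NormedAddCommGroup P] [NormedSpace ℝ P]

theorem tg_add {f g : P → ℝ} (hf : TG f) (hg : TG g) : TG fun p => f p + g p := hf.add hg
theorem tg_mul {f g : P → ℝ} (hf : TG f) (hg : TG g) : TG fun p => f p * g p := hf.mul hg
theorem tg_sq {f : P → ℝ} (hf : TG f) : TG fun p => f p ^ 2 := hf.pow 2
theorem tg_const (c : ℝ) : TG fun _ : P => c := Function.HasTemperateGrowth.const c
theorem tg_sum {ι : Type*} (s : Finset ι) {f : ι → P → ℝ} (hf : ∀ i, TG (f i)) :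
    TG fun p => ∑ i ∈ s, f i p := Function.HasTemperateGrowth.sum fun i _ => hf i

end tg

variable {I I' I'' : Dat → Type} [∀ D, Fintype (I D)] [∀ D, Fintype (I' D)]
  [∀ D, Fintype (I'' D)]

theorem int_tg (D : Dat) {θ : Th} (hθ : ‖θ‖ < 1 / 2) {f : Pt D.d → ℝ} (hf : TG f) :
    Integrable (fun ω => f (θ, ω)) (pm D.U θ) := hf.integrable_pm D.nice.cvx hθ.le

theorem int_N {S : Fam I} (hS : ∀ D i, TG (S D i)) (D : Dat) {θ : Th} (hθ : ‖θ‖ < 1 / 2) :
    Integrable (fun ω => ∑ i, S D i (θ, ω) ^ 2) (pm D.U θ) :=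
  int_tg D hθ (f := fun p => ∑ i, S D i p ^ 2) (tg_sum _ fun i => tg_sq (hS D i))

/-- comparison principle, with an error term of mean zero -/
theorem h0_of_le {S : Fam I} {S' : Fam I'} {T : Fam I''} (h : H0 S) (h' : H0 S')
    (hT : ∀ D i, TG (T D i)) {a : ℝ} (ha : 0 ≤ a) (A : ∀ D : Dat, Pt D.d → ℝ)
    (hA : ∀ D, TG (A D)) (hA0 : ∀ D θ, ‖θ‖ < 1 / 2 → ∫ ω, A D (θ, ω) ∂pm D.U θ = 0)
    (hle : ∀ D (p : Pt D.d), ‖p.1‖ < 1 / 2 →
      ∑ i, T D i p ^ 2 ≤ A D p + a * (∑ i, S D i p ^ 2 + ∑ i, S' D i p ^ 2)) : H0 T := by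
  obtain ⟨h1, C, hC⟩ := h
  obtain ⟨h1', C', hC'⟩ := h'
  refine ⟨hT, a * (C + C'), fun D θ hθ => ?_⟩
  have i1 := int_N h1 D hθ
  have i2 := int_N h1' D hθ
  have i3 := int_tg D hθ (hA D)
  have i4 : Integrable (fun ω => a * (∑ i, S D i (θ, ω) ^ 2 + ∑ i, S' D i (θ, ω) ^ 2))
    (pm D.U θ) := (i1.add i2).const_mul a
  calc _ ≤ ∫ ω, (A D (θ, ω) + a * (∑ i, S D i (θ, ω) ^ 2 + ∑ i, S' D i (θ, ω) ^ 2)) ∂pm D.U θ :=
        integral_mono (int_N hT D hθ) (i3.add i4) fun ω => hle D (θ, ω) hθ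
    _ = a * (∫ ω, ∑ i, S D i (θ, ω) ^ 2 ∂pm D.U θ + ∫ ω, ∑ i, S' D i (θ, ω) ^ 2 ∂pm D.U θ) := by
        rw [integral_add i3 i4, hA0 D θ hθ, zero_add, integral_const_mul,
          integral_add i1 i2]
    _ ≤ a * (C * D.d + C' * D.d) := by gcongr; exacts [hC D θ hθ, hC' D θ hθ]
    _ = _ := by ring

theorem h0_of_le₂ {S : Fam I} {S' : Fam I'} {T : Fam I''} (h : H0 S) (h' : H0 S')
    (hT : ∀ D i, TG (T D i)) {a : ℝ} (ha : 0 ≤ a)
    (hle : ∀ D (p : Pt D.d), ‖p.1‖ < 1 / 2 →
      ∑ i, T D i p ^ 2 ≤ a * (∑ i, S D i p ^ 2 + ∑ i, S' D i p ^ 2)) : H0 T :=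
  h0_of_le h h' hT ha (fun _ _ => 0) (fun _ => tg_const 0) (fun _ _ _ => by simp)
    fun D p hp => by simpa using hle D p hp

theorem h0_of_le₁ {S : Fam I} {T : Fam I'} (h : H0 S) (hT : ∀ D i, TG (T D i)) {a : ℝ}
    (ha : 0 ≤ a) (hle : ∀ D (p : Pt D.d), ‖p.1‖ < 1 / 2 →
      ∑ i, T D i p ^ 2 ≤ a * ∑ i, S D i p ^ 2) : H0 T :=
  h0_of_le₂ h h hT ha fun D p hp => (hle D p hp).trans
    (mul_le_mul_of_nonneg_left (le_add_of_nonneg_right (by positivity)) ha)

theorem h0_of_bdd {T : Fam I} (hT : ∀ D i, TG (T D i)) {C : ℝ}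
    (hle : ∀ D (p : Pt D.d), ‖p.1‖ < 1 / 2 → ∑ i, T D i p ^ 2 ≤ C * D.d) : H0 T := by
  refine ⟨hT, C, fun D θ hθ => ?_⟩
  have := pm_prob D.nice.cvx hθ.le
  calc _ ≤ ∫ _ω, C * D.d ∂pm D.U θ :=
        integral_mono (int_N hT D hθ) (integrable_const _) fun ω => hle D (θ, ω) hθ
    _ = _ := by simp

theorem hs_h0 {k : ℕ} {S : Fam I} (h : HS k S) : H0 S := by
  cases k with
  | zero => exact h
  | succ k => exact h.1

theorem hs_congr (k : ℕ) : ∀ {I : Dat → Type} [∀ D, Fintype (I D)] {S S' : Fam I}, HS k S →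
    (∀ D i, TG (S' D i)) → (∀ D i (p : Pt D.d), ‖p.1‖ < 1 / 2 → S' D i p = S D i p) →
    HS k S' := by
  have h0 : ∀ {I : Dat → Type} [∀ D, Fintype (I D)] {S S' : Fam I}, H0 S →
      (∀ D i, TG (S' D i)) → (∀ D i (p : Pt D.d), ‖p.1‖ < 1 / 2 → S' D i p = S D i p) →
      H0 S' := fun h hS' e =>
    h0_of_le₁ h hS' zero_le_one fun D p hp => by simp only [e D _ p hp, one_mul, le_refl]
  induction k with
  | zero => exact h0
  | succ k ih =>
    intro I _ S S' h hS' e
    exact ⟨h0 h.1 hS' e, fun l => ih (h.2 l) (fun D x => (hS' D x.2).par l x.1)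
      fun D x p hp => par_congr (e D x.2) l x.1 p hp⟩

theorem hs_reidx (k : ℕ) : ∀ {I I' : Dat → Type} [∀ D, Fintype (I D)] [∀ D, Fintype (I' D)]
    {S : Fam I} (e : ∀ D, I' D ≃ I D), HS k S → HS k (I := I') fun D i => S D (e D i) := by
  have h0 : ∀ {I I' : Dat → Type} [∀ D, Fintype (I D)] [∀ D, Fintype (I' D)]
      {S : Fam I} (e : ∀ D, I' D ≃ I D), H0 S → H0 (I := I') fun D i => S D (e D i) :=
    fun {I I'} _ _ {S} e h => h0_of_le₁ h (fun D i => h.1 D _) zero_le_one fun D p _ => by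
      rw [one_mul, (e D).sum_comp fun i => S D i p ^ 2]
  induction k with
  | zero => exact h0
  | succ k ih =>
    intro I I' _ _ S e h
    exact ⟨h0 e h.1, fun l => ih (fun D => (Equiv.refl _).prodCongr (e D)) (h.2 l)⟩

theorem hs_add (k : ℕ) : ∀ {I : Dat → Type} [∀ D, Fintype (I D)] {S S' : Fam I}, HS k S →
    HS k S' → HS k (I := I) fun D i p => S D i p + S' D i p := by
  have h0 : ∀ {I : Dat → Type} [∀ D, Fintype (I D)] {S S' : Fam I}, H0 S →
      H0 S' → H0 (I := I) fun D i p => S D i p + S' D i p := fun h h' =>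
    h0_of_le₂ h h' (fun D i => tg_add (h.1 D i) (h'.1 D i)) zero_le_two fun D p _ => by
      rw [← Finset.sum_add_distrib, Finset.mul_sum]
      exact Finset.sum_le_sum fun i _ => add_sq_le
  induction k with
  | zero => exact h0
  | succ k ih =>
    intro I _ S S' h h'
    refine ⟨h0 h.1 h'.1, fun l => ?_⟩
    have e : parF l (fun D i p => S D i p + S' D i p : Fam I) =
        fun D x p => parF l S D x p + parF l S' D x p := by
      funext D x
      exact par_add (h.1.1 D x.2) (h'.1.1 D x.2) l x.1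
    rw [e]
    exact ih (h.2 l) (h'.2 l)

/-- multiplication by a bounded function of the parameters only -/
theorem hs_mul (c : ∀ D : Dat, Pt D.d → ℝ) (hc : ∀ D, TG (c D)) {C : ℝ}
    (hC : ∀ D (p : Pt D.d), ‖p.1‖ < 1 / 2 → |c D p| ≤ C)
    (hp : ∀ D l b, par l b (c D) = fun _ => 0) (k : ℕ) :
    ∀ {I : Dat → Type} [∀ D, Fintype (I D)] {S : Fam I}, HS k S →
      HS k (I := I) fun D i p => c D p * S D i p := by
  have h0 : ∀ {I : Dat → Type} [∀ D, Fintype (I D)] {S : Fam I}, H0 S →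
      H0 (I := I) fun D i p => c D p * S D i p := fun h =>
    h0_of_le₁ h (fun D i => tg_mul (hc D) (h.1 D i)) (sq_nonneg C) fun D p hp => by
      rw [Finset.mul_sum]
      refine Finset.sum_le_sum fun i _ => ?_
      rw [mul_pow]
      refine mul_le_mul_of_nonneg_right ?_ (sq_nonneg _)
      rw [← sq_abs]
      exact pow_le_pow_left₀ (abs_nonneg _) (hC D p hp) 2
  induction k with
  | zero => exact h0
  | succ k ih =>
    intro I _ S h
    refine ⟨h0 h.1, fun l => ?_⟩
    have e : parF l (fun D i p => c D p * S D i p : Fam I) =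
        fun D x p => c D p * parF l S D x p := by
      funext D x
      rw [parF, par_mul (hc D) (h.1.1 D x.2), hp]
      simp [parF]
    rw [e]
    exact ih (h.2 l)

theorem abs_theta_le {θ : Th} (hθ : ‖θ‖ < 1 / 2) (k : Fin 2) : |θ k| ≤ 1 := by
  have := norm_le_pi_norm θ k
  rw [Real.norm_eq_abs] at this
  linarith

theorem hs_const (c : Dat → ℝ) {C : ℝ} (hc : ∀ D, |c D| ≤ C) {k : ℕ} {S : Fam I} (h : HS k S) :
    HS k (I := I) fun D i p => c D * S D i p :=
  hs_mul (fun D _ => c D) (fun _ => tg_const _) (fun D _ _ => hc D)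
    (fun _ l b => par_const _ l b) k h

theorem hs_theta (l : Fin 2) {k : ℕ} {S : Fam I} (h : HS k S) :
    HS k (I := I) fun D i p => p.1 l * S D i p :=
  hs_mul (fun _ p => p.1 l) (fun D => tg_theta D.d l) (fun _ _ hp => abs_theta_le hp l)
    (fun _ l' b => par_theta l l' b) k h

/-- exchange of the first two indices -/
def swap3 (α β γ : Type) : α × β × γ ≃ β × α × γ where
  toFun x := (x.2.1, x.1, x.2.2)
  invFun x := (x.2.1, x.1, x.2.2)
  left_inv _ := rfl
  right_inv _ := rfl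

/-- adding an index -/
def optE (ι α γ : Type) : α × (ι → α) × γ ≃ (Option ι → α) × γ where
  toFun x := (fun o => o.elim x.1 x.2.1, x.2.2)
  invFun x := (x.1 none, fun i => x.1 (some i), x.2)
  left_inv _ := rfl
  right_inv x := by
    refine Prod.ext ?_ rfl
    funext o
    cases o <;> rfl

theorem opB_TT (ιO ιJ : Type) [Fintype ιO] [DecidableEq ιO] [Nonempty ιO] [Fintype ιJ]
    [DecidableEq ιJ] [Nonempty ιJ] : ∃ C : ℝ, ∀ (D : Dat) (p : Pt D.d),
      OpB C fun (x : ιO → Fin D.d) (y : ιJ → Fin D.d) => TT D (ms x + ms y) p := by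
  obtain ⟨C, hC⟩ := Tn_opB ιO ιJ
  exact ⟨C, fun D p => hC D.d D.U D.h D.nice D.hpos _⟩

theorem opB_TT2 : ∃ C : ℝ, ∀ (D : Dat) (p : Pt D.d),
    OpB C fun (b c : Fin D.d) => TT D {b, c} p := by
  obtain ⟨C, hC⟩ := opB_TT Unit Unit
  refine ⟨C, fun D p => ?_⟩
  have := (hC D p).reindex (Equiv.funUnique Unit (Fin D.d)).symm
    (Equiv.funUnique Unit (Fin D.d)).symm
  simpa [ms_unique] using this

theorem tg_TK {ιO ιJ : Type} [Fintype ιO] [Nonempty ιO] [Fintype ιJ] (D : Dat)
    (x : ιO → Fin D.d) (y : ιJ → Fin D.d) : TG (TT D (ms x + ms y)) :=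
  tg_TT D fun h => ms_ne_zero x (add_eq_zero.1 h).1

theorem tg_T2 (D : Dat) (b c : Fin D.d) : TG (TT D {b, c}) := tg_TT D (by simp)

end SobA

open SobA

section
variable {I I' : Dat → Type} [∀ D, Fintype (I D)] [∀ D, Fintype (I' D)]

theorem G0.h0 {S : Fam I} (h : G0 S) : H0 S := h 0

theorem G0.tg {S : Fam I} (h : G0 S) (D : Dat) (i : I D) : TG (S D i) := h.h0.1 D i

theorem G0.par {S : Fam I} (h : G0 S) (l : Fin 2) : G0 (parF l S) := fun k => (h (k + 1)).2 l

theorem G0.of_par {S : Fam I} (h0 : H0 S) (h : ∀ l, G0 (parF l S)) : G0 S := by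
  intro k
  cases k with
  | zero => exact h0
  | succ k => exact ⟨h0, fun l => h l k⟩

theorem G0.congr {S S' : Fam I} (h : G0 S) (hS' : ∀ D i, TG (S' D i))
    (e : ∀ D i (p : Pt D.d), ‖p.1‖ < 1 / 2 → S' D i p = S D i p) : G0 S' := fun k =>
  hs_congr k (h k) hS' e

theorem G0.reidx {S : Fam I} (h : G0 S) (e : ∀ D, I' D ≃ I D) :
    G0 (I := I') fun D i => S D (e D i) := fun k => hs_reidx k e (h k)

theorem G0.zero : G0 (I := I) fun _ _ _ => 0 := by
  have key : ∀ k, ∀ {I : Dat → Type} [∀ D, Fintype (I D)], HS k (I := I) fun _ _ _ => 0 := by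
    have h0 : ∀ {I : Dat → Type} [∀ D, Fintype (I D)], H0 (I := I) fun _ _ _ => 0 :=
      h0_of_bdd (C := 0) (fun _ _ => tg_const 0) fun _ _ _ => by simp
    intro k
    induction k with
    | zero => exact h0
    | succ k ih =>
      intro I _
      refine ⟨h0, fun l => ?_⟩
      have e : parF l (fun _ _ _ => 0 : Fam I) = fun _ _ _ => 0 := by
        funext D x
        exact par_const 0 l x.1
      rw [e]
      exact ih
  exact fun k => key k

theorem G0.add {S S' : Fam I} (h : G0 S) (h' : G0 S') :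
    G0 (I := I) fun D i p => S D i p + S' D i p := fun k => hs_add k (h k) (h' k)

theorem G0.const_mul {S : Fam I} (h : G0 S) (c : Dat → ℝ) {C : ℝ} (hc : ∀ D, |c D| ≤ C) :
    G0 (I := I) fun D i p => c D * S D i p := fun k => hs_const c hc (h k)

theorem G0.theta_mul {S : Fam I} (h : G0 S) (k : Fin 2) :
    G0 (I := I) fun D i p => p.1 k * S D i p := fun n => hs_theta k (h n)

theorem G0.sum {ι : Type*} (s : Finset ι) {S : ι → Fam I} (h : ∀ j ∈ s, G0 (S j)) :
    G0 (I := I) fun D i p => ∑ j ∈ s, S j D i p := by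
  classical
  induction s using Finset.induction_on with
  | empty => simpa using G0.zero
  | insert a s ha ih =>
    simp only [Finset.sum_insert ha]
    exact (h a (Finset.mem_insert_self _ _)).add
      (ih fun j hj => h j (Finset.mem_insert_of_mem hj))

end

theorem SobA.hs_TK (k : ℕ) : ∀ (ιO ιJ : Type) [Fintype ιO] [DecidableEq ιO] [Nonempty ιO]
    [Fintype ιJ] [DecidableEq ιJ] [Nonempty ιJ] {P : Dat → Type} [∀ D, Fintype (P D)]
    {S : Fam fun D => (ιJ → Fin D.d) × P D}, G0 S → HS k (mulF (TK ιO ιJ) S) := by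
  have h0 : ∀ (ιO ιJ : Type) [Fintype ιO] [DecidableEq ιO] [Nonempty ιO]
      [Fintype ιJ] [DecidableEq ιJ] [Nonempty ιJ] {P : Dat → Type} [∀ D, Fintype (P D)]
      {S : Fam fun D => (ιJ → Fin D.d) × P D}, G0 S → H0 (mulF (TK ιO ιJ) S) := by
    intro ιO ιJ _ _ _ _ _ _ P _ S h
    obtain ⟨C, hC⟩ := opB_TT ιO ιJ
    exact h0_of_le₁ h.h0 (fun D x => tg_sum _ fun y => tg_mul (tg_TK D x.1 y) (h.tg D _))
      (sq_nonneg C) fun D p _ => (hC D p).mul_sq_le fun y => S D y p
  induction k with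
  | zero => exact h0
  | succ k ih =>
    intro ιO ιJ _ _ _ _ _ _ P _ S h
    refine ⟨h0 ιO ιJ h, fun l => ?_⟩
    have h1 := hs_theta l (hs_reidx k (fun D => optE ιO (Fin D.d) (P D)) (ih (Option ιO) ιJ h))
    have h2 := hs_reidx k (fun D => swap3 (Fin D.d) (ιO → Fin D.d) (P D))
      (ih ιO ιJ ((h.par l).reidx fun D => swap3 (ιJ → Fin D.d) (Fin D.d) (P D)))
    convert hs_add k h1 h2 using 1
    funext D x p
    obtain ⟨c, x, i⟩ := x
    simp only [parF, mulF, TK, optE, swap3, Equiv.coe_fn_mk]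
    change par l c (fun p => ∑ y, TT D (ms x + ms y) p * S D (y, i) p) p = _
    rw [par_sum _ fun y _ => tg_mul (tg_TK D x y) (h.tg D (y, i)), Finset.mul_sum,
      ← Finset.sum_add_distrib]
    refine Finset.sum_congr rfl fun y _ => ?_
    rw [par_mul (tg_TK D x y) (h.tg D _), par_TT, ms_option]
    simp only [Option.elim_none, Option.elim_some, Multiset.cons_add]
    ring

/-- `H0`: `Tn_opB`, `OpB.mul_sq_le`.  Derivative: `θ_l · mulF (TK (Option ιO) ιJ) S +
mulF (TK ιO ιJ) (parF l S)` up to reindexing (`Equiv.piOptionEquivProd`, `ms_option`,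
`par_TT`). -/
theorem G0.mul (ιO ιJ : Type) [Fintype ιO] [DecidableEq ιO] [Nonempty ιO] [Fintype ιJ]
    [DecidableEq ιJ] [Nonempty ιJ] {P : Dat → Type} [∀ D, Fintype (P D)]
    {S : Fam fun D => (ιJ → Fin D.d) × P D} (h : G0 S) : G0 (mulF (TK ιO ιJ) S) := fun k =>
  hs_TK k ιO ιJ h

/-- The special case of the Hessian kernel (`Equiv.funUnique`, `ms_unique`). -/
theorem G0.mul2 {P : Dat → Type} [∀ D, Fintype (P D)] {S : Fam fun D => Fin D.d × P D}
    (h : G0 S) : G0 (mulF (O := fun D => Fin D.d) (fun D b c => TT D {b, c}) S) := by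
  have h1 := (G0.mul Unit Unit (h.reidx fun D =>
    (Equiv.funUnique Unit (Fin D.d)).prodCongr (Equiv.refl (P D)))).reidx fun D =>
      (Equiv.funUnique Unit (Fin D.d)).symm.prodCongr (Equiv.refl (P D))
  convert h1 using 1
  funext D x p
  simp only [mulF, TK]
  refine (Fintype.sum_equiv (Equiv.funUnique Unit (Fin D.d)) _ _ fun y => ?_).symm
  simp [ms_unique]

/-- `H0`: flatten at one slot, `Tn_opB`, `OpB.hs`.  Derivative: `θ_l · TR (Option ι)`. -/
theorem G0.root (ι : Type) [Fintype ι] [DecidableEq ι] [Nontrivial ι] : G0 (TR ι) := by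
  have key : ∀ (k : ℕ) (ι : Type) [Fintype ι] [DecidableEq ι] [Nontrivial ι], HS k (TR ι) := by
    have h0 : ∀ (ι : Type) [Fintype ι] [DecidableEq ι] [Nontrivial ι], H0 (TR ι) := by
      intro ι _ _ _
      obtain ⟨i⟩ : Nonempty ι := inferInstance
      have : Nonempty {j // j ≠ i} := by
        obtain ⟨j, hj⟩ := exists_ne i
        exact ⟨⟨j, hj⟩⟩
      obtain ⟨C, hC⟩ := opB_TT {j // j ≠ i} Unit
      refine h0_of_bdd (C := C ^ 2) (fun D x => tg_TT D (ms_ne_zero x)) fun D p _ => ?_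
      have h1 := (hC D p).hs
      rw [Finset.sum_comm, ← Fintype.sum_prod_type'] at h1
      simp only [Fintype.card_fun, Fintype.card_fin, Fintype.card_unit, pow_one] at h1
      refine le_trans (le_of_eq ?_) h1
      refine Fintype.sum_equiv ((Equiv.funSplitAt i (Fin D.d)).trans
        ((Equiv.funUnique Unit (Fin D.d)).symm.prodCongr (Equiv.refl _))) _ _ fun x => ?_
      change TT D (ms x) p ^ 2 =
        TT D (ms (fun j : {j // j ≠ i} => x j) + ms (fun _ : Unit => x i)) p ^ 2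
      rw [ms_erase x i, ms_unique (ι := Unit), add_comm, Multiset.singleton_add]
    intro k
    induction k with
    | zero => exact h0
    | succ k ih =>
      intro ι _ _ _
      refine ⟨h0 ι, fun l => ?_⟩
      have h1 := hs_theta l (hs_reidx k
        (fun D => (Equiv.piOptionEquivProd (β := fun _ : Option ι => Fin D.d)).symm) (ih (Option ι)))
      convert h1 using 1
      funext D x p
      simp only [parF, TR]
      rw [par_TT, ms_option]
      rfl
  exact fun k => key k ι

/-- The `L²` estimate for the divergence: with `u = S(·, i)`, two integrations by parts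
(`integral_del` applied to products, `del_mul`, `par_del`) give
`∫ (∑_c δ_c u_c)² = ∫ ∑_{b,c} ∂_c u_b ∂_b u_c + ∑ u_c² + h θ_k² ∑_{b,c} T{b,c} u_b u_c`;
bound the terms by `∑ (∂u)²` and `(1 + C) ∑ u²` (`OpB.bilin`). -/
theorem H0.del {I : Dat → Type} [∀ D, Fintype (I D)] {S : Fam fun D => Fin D.d × I D}
    (k : Fin 2) (h : H0 S) (h' : H0 (parF k S)) : H0 (delF k S) := by
  obtain ⟨C, hC⟩ := opB_TT2
  have tw : ∀ D i, TG (delF k S D i) := fun D i => tg_sum _ fun c => (h.1 D (c, i)).del D k c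
  have t1 : ∀ D i (c : Fin D.d), TG fun p => S D (c, i) p * delF k S D i p :=
    fun D i c => tg_mul (h.1 D _) (tw D i)
  have t2 : ∀ D i (c b : Fin D.d), TG fun p => par k c (S D (b, i)) p * S D (c, i) p :=
    fun D i c b => tg_mul ((h.1 D _).par k c) (h.1 D _)
  refine h0_of_le h h' tw (a := 1 + |C|) (by positivity)
    (fun D p => ∑ i, ∑ c, (R285.del D k c (fun p => S D (c, i) p * delF k S D i p) p +
      ∑ b, R285.del D k b (fun p => par k c (S D (b, i)) p * S D (c, i) p) p))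
    (fun D => tg_sum _ fun i => tg_sum _ fun c => tg_add ((t1 D i c).del D k c)
      (tg_sum _ fun b => (t2 D i c b).del D k b)) (fun D θ hθ => ?_) fun D p hp => ?_
  · rw [integral_finsetSum _ fun i _ => int_tg D hθ (tg_sum _ fun c =>
      tg_add ((t1 D i c).del D k c) (tg_sum _ fun b => (t2 D i c b).del D k b))]
    refine Finset.sum_eq_zero fun i _ => ?_
    rw [integral_finsetSum _ fun c _ => int_tg D hθ
      (tg_add ((t1 D i c).del D k c) (tg_sum _ fun b => (t2 D i c b).del D k b))]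
    refine Finset.sum_eq_zero fun c _ => ?_
    rw [integral_add (int_tg D hθ ((t1 D i c).del D k c))
      (int_tg D hθ (tg_sum _ fun b => (t2 D i c b).del D k b)),
      integral_finsetSum _ fun b _ => int_tg D hθ ((t2 D i c b).del D k b),
      integral_del D hθ.le (t1 D i c).pg1, zero_add]
    exact Finset.sum_eq_zero fun b _ => integral_del D hθ.le (t2 D i c b).pg1 k b
  · have e1 : ∑ x : Fin D.d × I D, S D x p ^ 2 = ∑ i, ∑ c, S D (c, i) p ^ 2 :=
      Fintype.sum_prod_type_right _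
    have e2 : ∑ x : Fin D.d × Fin D.d × I D, parF k S D x p ^ 2 =
        ∑ i, ∑ c, ∑ b, par k c (S D (b, i)) p ^ 2 := by
      rw [Fintype.sum_prod_type]
      refine Eq.trans ?_ Finset.sum_comm
      exact Finset.sum_congr rfl fun c _ => Fintype.sum_prod_type_right _
    rw [e1, e2, ← Finset.sum_add_distrib, Finset.mul_sum, ← Finset.sum_add_distrib]
    refine Finset.sum_le_sum fun i _ => ?_
    have e3 : ∀ c, par k c (delF k S D i) p = ∑ b, (R285.del D k b (par k c (S D (b, i))) p +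
        ((if c = b then 1 else 0) + D.h * p.1 k * p.1 k * TT D {c, b} p) * S D (b, i) p) := by
      intro c
      unfold delF
      rw [par_sum _ fun b _ => (h.1 D (b, i)).del D k b]
      refine Finset.sum_congr rfl fun b _ => ?_
      rw [par_del D (h.1 D (b, i))]
      simp only [true_and]
    have e4 : delF k S D i p ^ 2 =
        ∑ c, (R285.del D k c (fun p => S D (c, i) p * delF k S D i p) p +
          ∑ b, R285.del D k b (fun p => par k c (S D (b, i)) p * S D (c, i) p) p) +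
        (∑ c, ∑ b, par k c (S D (b, i)) p * par k b (S D (c, i)) p + ∑ c, S D (c, i) p ^ 2 +
          D.h * p.1 k * p.1 k * ∑ c, ∑ b, S D (c, i) p * TT D {c, b} p * S D (b, i) p) := by
      have a1 : delF k S D i p ^ 2 = ∑ c, R285.del D k c (S D (c, i)) p * delF k S D i p := by
        rw [← Finset.sum_mul, sq]; rfl
      rw [a1, Finset.mul_sum, ← Finset.sum_add_distrib, ← Finset.sum_add_distrib,
        ← Finset.sum_add_distrib]
      refine Finset.sum_congr rfl fun c _ => ?_
      have a2 : S D (c, i) p ^ 2 = ∑ b, S D (c, i) p * (if c = b then 1 else 0) * S D (b, i) p := by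
        simp [sq]
      rw [del_mul D (h.1 D _) (tw D i), e3, a2]
      simp only [del_mul D ((h.1 D _).par k c) (h.1 D _), Finset.mul_sum]
      rw [← Finset.sum_add_distrib, ← Finset.sum_add_distrib, sub_add, ← Finset.sum_sub_distrib,
        sub_add, ← Finset.sum_sub_distrib, Finset.sum_eq_zero, sub_zero]
      intro b _
      ring
    have b1 : ∑ c, ∑ b, par k c (S D (b, i)) p * par k b (S D (c, i)) p ≤
        ∑ c, ∑ b, par k c (S D (b, i)) p ^ 2 := by
      have a1 : ∑ c, ∑ b, par k c (S D (b, i)) p ^ 2 = ∑ c, ∑ b, par k b (S D (c, i)) p ^ 2 :=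
        Finset.sum_comm
      have a2 : ∑ c, ∑ b, 2 * (par k c (S D (b, i)) p * par k b (S D (c, i)) p) ≤
          ∑ c, ∑ b, (par k c (S D (b, i)) p ^ 2 + par k b (S D (c, i)) p ^ 2) :=
        Finset.sum_le_sum fun c _ => Finset.sum_le_sum fun b _ => by
          nlinarith [sq_nonneg (par k c (S D (b, i)) p - par k b (S D (c, i)) p)]
      simp only [← Finset.mul_sum, Finset.sum_add_distrib] at a2
      linarith
    have n1 : 0 ≤ ∑ c, S D (c, i) p ^ 2 := by positivity
    have n2 : 0 ≤ ∑ c, ∑ b, par k c (S D (b, i)) p ^ 2 := by positivity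
    have b2 : |∑ c, ∑ b, S D (c, i) p * TT D {c, b} p * S D (b, i) p| ≤
        |C| * ∑ c, S D (c, i) p ^ 2 := by
      have a1 := (hC D p).bilin (fun c => S D (c, i) p) fun c => S D (c, i) p
      refine abs_le_of_sq_le_sq' ?_ (by positivity) |> abs_le.2
      rw [mul_pow, sq_abs]
      linarith
    have b3 : |D.h * p.1 k * p.1 k| ≤ 1 := by
      rw [abs_mul, abs_mul, abs_of_pos D.hpos]
      have := abs_theta_le hp k
      exact mul_le_one₀ (mul_le_one₀ D.hle (abs_nonneg _) this) (abs_nonneg _) this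
    have b4 : D.h * p.1 k * p.1 k * ∑ c, ∑ b, S D (c, i) p * TT D {c, b} p * S D (b, i) p ≤
        |C| * ∑ c, S D (c, i) p ^ 2 := by
      refine (le_abs_self _).trans ?_
      rw [abs_mul]
      exact (mul_le_of_le_one_left (abs_nonneg _) b3).trans b2
    rw [e4]
    nlinarith [mul_nonneg (abs_nonneg C) n2]

/-- `HS (n+1) S → HS n (delF k S)`; by `par_del`,
`parF l (delF k S) = delF k (parF l S reindexed) + [l = k] S + h θ_k θ_l mul2 S`. -/
theorem G0.del {I : Dat → Type} [∀ D, Fintype (I D)] {S : Fam fun D => Fin D.d × I D}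
    (h : G0 S) (k : Fin 2) : G0 (delF k S) := by
  have key : ∀ (n : ℕ) {I : Dat → Type} [∀ D, Fintype (I D)] {S : Fam fun D => Fin D.d × I D},
      G0 S → HS n (delF k S) := by
    intro n
    induction n with
    | zero => exact fun h => h.h0.del k (h.par k).h0
    | succ n ih =>
      intro I _ S h
      refine ⟨h.h0.del k (h.par k).h0, fun l => ?_⟩
      have h1 := ih ((h.par l).reidx fun D => swap3 (Fin D.d) (Fin D.d) (I D))
      have h2 := hs_const (fun _ => if l = k then 1 else 0) (C := 1)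
        (fun _ => by split_ifs <;> simp) (h n)
      have h3 := hs_const (fun D => D.h) (C := 1)
        (fun D => by rw [abs_of_pos D.hpos]; exact D.hle) (hs_theta k (hs_theta l (h.mul2 n)))
      convert hs_add n (hs_add n h1 h2) h3 using 1
      funext D x p
      obtain ⟨b, i⟩ := x
      simp only [parF, delF, mulF, swap3, Equiv.coe_fn_mk]
      have a2 : (if l = k then 1 else 0) * S D (b, i) p =
          ∑ c, (if l = k ∧ b = c then 1 else 0) * S D (c, i) p := by
        by_cases hl : l = k <;> simp [hl]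
      change R285.par l b (fun p => ∑ c, R285.del D k c (S D (c, i)) p) p = _
      rw [par_sum _ fun c _ => (h.tg D (c, i)).del D k c, a2]
      simp only [Finset.mul_sum]
      rw [← Finset.sum_add_distrib, ← Finset.sum_add_distrib]
      refine Finset.sum_congr rfl fun c _ => ?_
      rw [par_del D (h.tg D (c, i))]
      ring
  exact fun n => key n h

end Crest.Agent.R285
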