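import Crest.Agent.R285.StepA

/-! Row 285: one noise-compensated step, from level `v (1 - t²)` at known points to level `v`. -/

set_option autoImplicit false

namespace Crest.Agent.R285

open MeasureTheory ProbabilityTheory Crest.OracleSampling Set
open scoped ENNReal NNReal InnerProductSpace

theorem step_num {Lg c C₃ C P A₁ A₂ τ s x₁ x₂ x₃ δ' e sN sd nu I : ℝ} (hLg : 1 ≤ Lg)
    (hc : 0 ≤ c ^ 2 * Lg) (hC₃ : 1 ≤ C₃) (hC : Lg + 8 * (c ^ 2 * Lg) + 83 + C₃ ≤ C)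
    (hAA : A₁ * A₂ * C ≤ P) (hA₁1 : 1 ≤ A₁) (hA₂1 : 1 ≤ A₂) (hτ : 0 < τ) (hτ1 : τ ≤ 1)
    (hs : 0 ≤ s) (hs1 : s ≤ 1 / 2) (hx1 : 0 ≤ x₁) (hx2 : 0 ≤ x₂) (hx3 : 0 ≤ x₃)
    (hδ₀ : x₁ + x₂ + x₃ ≤ 1) (hδ'0 : 0 ≤ δ') (hδ'1 : δ' ≤ 1) (hea : 0 ≤ e) (hN : 0 ≤ sN)
    (hdN : sd ≤ sN) (hnu : 0 ≤ nu) (hsd : 0 ≤ sd) (hKd : I ≤ nu + 3 * s * (sd + nu)) :
    (Lg + 8 * c ^ 2 * Lg) / τ * (A₁ * (e + (x₁ + x₂) * (sN + nu))) +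
      (δ' * sN + A₂ * (4 * e) + A₂ * (x₁ + x₃) * (13 / τ) * (2 * (sN + nu))) +
      (δ' + A₂ * (x₁ + x₃) * (13 / τ)) * (I + A₁ * (e + (x₁ + x₂) * (sN + nu))) +
      C₃ * x₂ * (sd + nu) ≤
      P / τ * (e + (x₁ + x₂ + x₃) * (sN + nu)) + δ' * (1 + 3 * s) * (sN + nu) := by
  have hτi : 1 ≤ τ⁻¹ := (one_le_inv₀ hτ).2 hτ1
  have hA12 : A₁ ≤ A₁ * A₂ := le_mul_of_one_le_right (by positivity) hA₂1
  have hA21 : A₂ ≤ A₁ * A₂ := le_mul_of_one_le_left (by positivity) hA₁1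
  obtain ⟨w, hw⟩ : ∃ w, w = sN + nu := ⟨_, rfl⟩
  obtain ⟨δ₀, hδ₀d⟩ : ∃ δ₀, δ₀ = x₁ + x₂ + x₃ := ⟨_, rfl⟩
  obtain ⟨δ₂, hδ₂⟩ : ∃ δ₂, δ₂ = x₁ + x₃ := ⟨_, rfl⟩
  obtain ⟨β₁, hβ₁⟩ : ∃ β₁, β₁ = A₂ * δ₂ * (13 / τ) := ⟨_, rfl⟩
  obtain ⟨X, hX⟩ : ∃ X, X = e + δ₀ * w := ⟨_, rfl⟩
  obtain ⟨e₁, he₁⟩ : ∃ e₁, e₁ = A₁ * (e + (x₁ + x₂) * w) := ⟨_, rfl⟩
  obtain ⟨Y, hY⟩ : ∃ Y, Y = A₁ * A₂ * τ⁻¹ * X := ⟨_, rfl⟩
  rw [← hw, ← hδ₀d, ← hδ₂, ← hβ₁, ← hX, ← he₁]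
  have hw0 : 0 ≤ w := by rw [hw]; positivity
  have hwu : nu ≤ w := by linarith
  have hwd : sd + nu ≤ w := by linarith
  have hδ₂0 : 0 ≤ δ₂ := by linarith
  have hβ₁0 : 0 ≤ β₁ := by rw [hβ₁]; positivity
  have hδ20 : δ₂ ≤ δ₀ := by linarith
  have hδw : δ₀ * w ≤ X := by linarith
  have hδw0 : 0 ≤ δ₀ * w := mul_nonneg (by linarith) hw0
  have hX0 : 0 ≤ X := by linarith
  have heX : e ≤ X := by linarith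
  have he₁0 : 0 ≤ e₁ := by rw [he₁]; positivity
  have he₁X : e₁ ≤ A₁ * X := by
    rw [he₁, hX]
    gcongr
    linarith
  have hXY : A₁ * A₂ * X ≤ Y := by
    rw [hY, mul_right_comm _ τ⁻¹]
    exact le_mul_of_one_le_right (by positivity) hτi
  have hI1 : I ≤ nu + 3 * s * w := hKd.trans (by gcongr)
  have hI2 : I ≤ 3 * w := by nlinarith
  have t1 : (Lg + 8 * c ^ 2 * Lg) / τ * e₁ ≤ (Lg + 8 * (c ^ 2 * Lg)) * Y := by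
    calc (Lg + 8 * c ^ 2 * Lg) / τ * e₁ ≤ (Lg + 8 * c ^ 2 * Lg) / τ * (A₁ * A₂ * X) := by
          gcongr
          exact he₁X.trans (by gcongr)
      _ = _ := by rw [hY]; ring
  have t2 : A₂ * (4 * e) ≤ 4 * Y := by
    calc A₂ * (4 * e) ≤ A₁ * A₂ * (4 * X) := by gcongr
      _ = 4 * (A₁ * A₂ * X) := by ring
      _ ≤ _ := by gcongr
  have t3 : β₁ * w ≤ 13 * Y := by
    calc β₁ * w = 13 * (A₂ * τ⁻¹ * (δ₂ * w)) := by rw [hβ₁]; ring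
      _ ≤ 13 * (A₁ * A₂ * τ⁻¹ * X) := by
          gcongr
          exact le_trans (by gcongr) hδw
      _ = _ := by rw [hY]
  have t4 : β₁ * e₁ ≤ 13 * Y := by
    calc β₁ * e₁ = 13 * (A₂ * τ⁻¹ * (δ₂ * e₁)) := by rw [hβ₁]; ring
      _ ≤ 13 * (A₂ * τ⁻¹ * (1 * (A₁ * X))) := by gcongr; linarith
      _ = _ := by rw [hY]; ring
  have t5 : δ' * e₁ ≤ Y := by
    calc δ' * e₁ ≤ 1 * (A₁ * A₂ * X) := by
          gcongr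
          exact he₁X.trans (by gcongr)
      _ ≤ Y := by rw [one_mul]; exact hXY
  have t6 : C₃ * x₂ * (sd + nu) ≤ C₃ * Y := by
    rw [mul_assoc]
    refine mul_le_mul_of_nonneg_left ?_ (by positivity)
    calc x₂ * (sd + nu) ≤ δ₀ * w := by
          gcongr
          · linarith
          · linarith
      _ ≤ 1 * X := by linarith
      _ ≤ A₁ * A₂ * X := by gcongr; linarith
      _ ≤ Y := hXY
  have t7 : δ' * I ≤ δ' * (nu + 3 * s * w) := by gcongr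
  have t8 : β₁ * I ≤ 3 * (β₁ * w) := by
    calc β₁ * I ≤ β₁ * (3 * w) := by gcongr
      _ = _ := by ring
  have hY0 : 0 ≤ Y := by rw [hY]; positivity
  have t9 : C * Y ≤ P / τ * X := by
    calc C * Y = A₁ * A₂ * C / τ * X := by rw [hY]; ring
      _ ≤ _ := by gcongr
  have t10 : (Lg + 8 * (c ^ 2 * Lg) + 83 + C₃) * Y ≤ C * Y := by gcongr
  have t11 : δ' * sN + δ' * (nu + 3 * s * w) = δ' * (1 + 3 * s) * w := by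
    rw [hw]; ring
  have t12 : (δ' + β₁) * (I + e₁) = δ' * I + δ' * e₁ + β₁ * I + β₁ * e₁ := by ring
  have t13 : β₁ * (2 * w) = 2 * (β₁ * w) := by ring
  have t14 : (Lg + 8 * (c ^ 2 * Lg) + 83 + C₃) * Y =
      (Lg + 8 * (c ^ 2 * Lg)) * Y + 83 * Y + C₃ * Y := by ring
  linarith

/-- Let `t = K τ`, `κ = √v / σz`, `v₁ = v (1 - t²)`, `σ₄ = √(σ² - σz²)`.  Stage 1: `b ← samp`.
Stage 2a: `z ← γ` (`acc_known 0` with noise `1`).  Stage 2b, on the input `((a, b), z)`: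
`ω₀ = ![(√v t)⁻¹ • (b - u), z]`, access `σz • z + F V v₁ b - σz • Corr K τ n v G κ κ' ω₀` with
noise `σ₄` (`Acc.add_sq`, `Acc.noise`; `tree_corr` with `facc_of_eng` twice: `c = κb`, `r = 3`,
`R = 3t`, `wt' = 0`, and `c = 1`, `r = 2`, `wt' = (√v)⁻¹ ζ₂ Wt`; base points
`(1 - λ) u + λ b + √v θ 1 • z`, `λ = θ 0 / t`, `|λ| ≤ 3`, so `ρb = 4 ρ₀`, `eb = 4 e`;
`wt = (√v)⁻¹ (eb + κb ζ₁ Wt)`, `Wt = 13 (√N + ‖u‖ + √v ‖ω₀‖)`,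
`√v ‖ω₀‖ ≤ (‖b‖ + ‖u‖)/t + √v ‖z‖`).  `App.bind` twice (`F_lip_adm`, `Sch.Corr_lip`:
`Λ = C/τ` in `b`; `Kd_norm_le`).  Identify the target with `Kd_eq_map`, `Gf_resc`
(`σz κ = √v`), `approx_corr` for the test function `y ↦ ∫ξ f (σz • y + σ₄ • ξ)`, and
`integral_gam_add`. -/
theorem step (n : ℕ) : ∃ Dn : ℕ, ∀ K : ℕ, 1 ≤ K → ∃ C : ℝ, 1 ≤ C ∧ ∀ (d : ℕ)
    (N v τ κb κ' σz σ₁ σ₂ σ₃ σ ρ ρ₀ M ζ₁ ζ₂ q₁ δ' : ℝ), (d : ℝ) ≤ N → 0 < v → v ≤ 1 / 4 →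
    v ≤ κb → C * κb ≤ 1 → 0 < τ → 8 * (K * τ) ≤ 1 → 1 ≤ M → 0 ≤ σ₁ → 0 ≤ σ₂ → 0 ≤ ζ₁ → 0 ≤ ζ₂ →
    0 ≤ ρ₀ → C * (κb * σ₁) ≤ ρ → C * ρ₀ ≤ ρ → ρ ≤ √v * τ → 0 < σz → √v ≤ κ' * σz → κ' ≤ κb →
    C * (√v / σz) * σ₂ ≤ κ' * σz → σ₃ ^ 2 + 2 * σz ^ 2 ≤ σ ^ 2 → 0 ≤ δ' → δ' ≤ 1 →
    κb * ζ₁ + √v * (κb ^ n + τ ^ K) + √v / σz / κ' * ζ₂ ≤ 1 →
    (∀ v', v / 2 ≤ v' → v' ≤ v → Eng d N v' σ₁ ρ M ζ₁) →
    (∀ v', v / 2 ≤ v' → v' ≤ v → Eng d N v' σ₂ ρ M ζ₂) →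
    Acc (A := E d) q₁ σ₃ (fun _ b => δ' * (√N + ‖b‖)) (fun V b => F V.1 (v * (1 - (K * τ) ^ 2)) b) →
    ∀ (A : Type) [MeasurableSpace A] (q : ℝ) (e : Pot d → A → ℝ) (u : Pot d → A → E d),
    Acc q ρ₀ e u →
    Acc (q₁ + (C * M) ^ Dn / τ * (q + 1)) σ
      (fun V a => (C * M) ^ Dn / τ *
        (e V a + (κb * ζ₁ + √v * (κb ^ n + τ ^ K) + √v / σz / κ' * ζ₂) * (√N + ‖u V a‖)) +
        δ' * (1 + 3 * √v) * (√N + ‖u V a‖))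
      fun V a => F V.1 v (u V a) := by
  obtain ⟨D₁, hD₁⟩ := samp n
  obtain ⟨D₂, hD₂⟩ := step_acc n
  refine ⟨D₁ + D₂ + 1, fun K hK => ?_⟩
  obtain ⟨C₁, hC₁, hS⟩ := hD₁ K hK
  obtain ⟨C₂, hC₂, hT⟩ := hD₂ K hK
  obtain ⟨C₃, hC₃, hU⟩ := step_target K n hK
  have hLg := one_le_Lg
  have hCq := one_le_Cq K
  have hq20 : 0 ≤ Cq K ^ 2 * Lg := by positivity
  refine ⟨C₁ + C₂ + C₃ + 20 * (Cq K ^ 2 * Lg) + Lg + 90, by linarith, ?_⟩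
  intro d N v τ κb κ' σz σ₁ σ₂ σ₃ σ ρ ρ₀ M ζ₁ ζ₂ q₁ δ' hd hv hv4 hvκ hCκ hτ hKτ hM hσ₁ hσ₂ hζ₁ hζ₂
    hρ₀ hρ1 hρ2 hρ3 hσz hκ' hκ'b hσ2c hσ hδ'0 hδ'1 hδ₀ hE1 hE2 hF A _ q e u hu
  set C := C₁ + C₂ + C₃ + 20 * (Cq K ^ 2 * Lg) + Lg + 90 with hC
  have hCC₁ : C₁ ≤ C := by rw [hC]; linarith
  have hCC₂ : C₂ ≤ C := by rw [hC]; linarith
  have hCC₃ : C₃ ≤ C := by rw [hC]; linarith
  have hs : 0 < √v := Real.sqrt_pos.2 hv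
  have hs1 : √v ≤ 1 / 2 := by
    rw [Real.sqrt_le_left (by norm_num)]; linarith
  have hK1 : (1 : ℝ) ≤ K := by exact_mod_cast hK
  have hτK : τ ≤ K * τ := le_mul_of_one_le_left hτ.le hK1
  have ht : 0 < (K : ℝ) * τ := by positivity
  have hτ1 : τ ≤ 1 := by linarith
  have hκb : 0 < κb := hv.trans_le hvκ
  have hκκ : √v / σz ≤ κ' := by rw [div_le_iff₀ hσz]; exact hκ'
  have hκ'0 : 0 < κ' := lt_of_lt_of_le (by positivity) hκκ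
  have hsm : 20 * Cq K ^ 2 * Lg * κb ≤ 1 := by
    refine le_trans ?_ hCκ
    gcongr
    rw [hC]; linarith
  have hdN : √(d : ℝ) ≤ √N := Real.sqrt_le_sqrt hd
  have hq : 0 ≤ q := App.q_nonneg hu
  have he : ∀ V a, 0 ≤ e V a := App.e_nonneg hu
  have hx1 : 0 ≤ κb * ζ₁ := by positivity
  have hx2 : 0 ≤ √v * (κb ^ n + τ ^ K) := by positivity
  have hx3 : 0 ≤ √v / σz / κ' * ζ₂ := by positivity
  obtain ⟨σ₄, hσ₄2⟩ : ∃ σ₄ : ℝ, σ₄ ^ 2 = σ ^ 2 - σz ^ 2 :=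
    ⟨_, Real.sq_sqrt (by nlinarith [sq_nonneg σ₃, sq_nonneg σz])⟩
  have h1 := hS d N v τ κb σ₁ ρ ρ₀ M ζ₁ hd hv hv4 hvκ (le_trans (by gcongr) hCκ) hτ hKτ hM hσ₁ hζ₁
    hρ₀ (le_trans (by gcongr) hρ1) (le_trans (by gcongr) hρ2) hρ3 (by linarith) hE1 A q e u hu
  have h2 := hT d N v τ κb κ' σz σ₁ σ₂ σ₃ σ₄ ρ ρ₀ M ζ₁ ζ₂ q₁ δ' hd hv hv4 hvκ
    (le_trans (by gcongr) hCκ) hτ hKτ hM hσ₁ hσ₂ hζ₁ hζ₂ hρ₀ (le_trans (by gcongr) hρ1)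
    (le_trans (by gcongr) hρ2) hσz hκ' hκ'b (le_trans (by gcongr) hσ2c) (by linarith) hE1 hE2 hF
    A q e u hu
  obtain ⟨A₁, hA₁⟩ : ∃ A₁, A₁ = (C₁ * M) ^ D₁ := ⟨_, rfl⟩
  obtain ⟨A₂, hA₂⟩ : ∃ A₂, A₂ = (C₂ * M) ^ D₂ := ⟨_, rfl⟩
  rw [← hA₁] at h1
  rw [← hA₂] at h2
  have hA₁1 : 1 ≤ A₁ := hA₁ ▸ one_le_pow₀ (one_le_mul_of_one_le_of_one_le hC₁ hM)
  have hA₂1 : 1 ≤ A₂ := hA₂ ▸ one_le_pow₀ (one_le_mul_of_one_le_of_one_le hC₂ hM)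
  obtain ⟨β₁, hβ₁⟩ : ∃ β₁, β₁ = A₂ * (κb * ζ₁ + √v / σz / κ' * ζ₂) * (13 / τ) := ⟨_, rfl⟩
  have hβ₁0 : 0 ≤ β₁ := by rw [hβ₁]; positivity
  have hz : App (A := A × E d) 0 (fun _ _ => 0) fun (_ : Pot d) _ f => ∫ ξ, f ξ ∂gam d := by
    have := acc_known (d := d) (A := A × E d) (x := fun _ => (0 : E d)) measurable_const 1
    simpa only [Acc, zero_add, one_smul] using this
  have lz : ∀ (V : Pot d) (u b : E d) (L : ℝ) (f : E d → ℝ), 0 ≤ L → Lip L f →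
      Lip (L * (σz + 8 * Cq K ^ 2 * Lg * √v))
        fun z => ∫ ξ, f (outp K τ n v σz κ' V.1 u b z + σ₄ • ξ) ∂gam d :=
    fun V u b L f hL hf => (lip_gam_smooth hf σ₄).comp
      (outp_lip_z V.2 u b hv hvκ hτ hK hKτ hsm hσz hκκ hκ'b n) hL
  have lb : ∀ (V : Pot d) (u : E d) (L : ℝ) (f : E d → ℝ), 0 ≤ L → Lip L f →
      Lip (L * ((Lg + 8 * Cq K ^ 2 * Lg) / τ))
        fun b => ∫ z, ∫ ξ, f (outp K τ n v σz κ' V.1 u b z + σ₄ • ξ) ∂gam d ∂gam d :=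
    fun V u L f hL hf => lip_integral (fun z => (lip_gam_smooth hf σ₄).comp
        (outp_lip_b V.2 u z hv hvκ hτ hK hKτ hsm hσz hκκ hκ'b n) hL) fun b => lz V u b L f hL hf
  have h3 := App.bind (T₂ := fun V (x : (A × E d) × E d) f =>
      ∫ ξ, f (outp K τ n v σz κ' V.1 (u V x.1.1) x.1.2 x.2 + σ₄ • ξ) ∂gam d) hz h2
    (Λ := σz + 8 * Cq K ^ 2 * Lg * √v) (β := β₁)
    (α := fun V x => δ' * (√N + ‖x.2‖) + A₂ * (4 * e V x.1) + β₁ * (√N + 2 * ‖u V x.1‖ + ‖x.2‖))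
    (by positivity) hβ₁0 (fun V x L f hL hf => lz V (u V x.1) x.2 L f hL hf)
    (fun V x r => le_of_eq (by rw [hβ₁]; ring))
  have h4 := App.bind h1 h3 (Λ := (Lg + 8 * Cq K ^ 2 * Lg) / τ) (β := δ' + β₁)
    (α := fun V a => δ' * √N + A₂ * (4 * e V a) + β₁ * (2 * (√N + ‖u V a‖)))
    (by positivity) (by positivity) (fun V a L f hL hf => lb V (u V a) L f hL hf)
    (fun V a r => by
      have h5 : β₁ * ∫ ξ, ‖ξ‖ ∂gam d ≤ β₁ * √N :=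
        mul_le_mul_of_nonneg_left (integral_norm_gam_le.trans hdN) hβ₁0
      simp only [mul_zero, add_zero, zero_add]
      linarith)
  have h5 := h4.perturb (T' := fun V a f => ∫ ξ, f (F V.1 v (u V a) + σ • ξ) ∂gam d)
    (e' := fun V a => C₃ * (√v * (κb ^ n + τ ^ K)) * (√d + ‖u V a‖)) fun V a L f hL hf =>
      hU d V.1 (u V a) v τ κb κ' σz σ₄ σ V.2 hv hv4 hvκ (le_trans (by gcongr) hCκ) hτ hKτ hσz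
        hκκ hκ'b (by linarith) L f hL hf
  subst hβ₁
  have hC1 : 1 ≤ C := hC₁.trans hCC₁
  have hAA : A₁ * A₂ * C ≤ (C * M) ^ (D₁ + D₂ + 1) := by
    rw [pow_succ, pow_add, hA₁, hA₂]
    refine mul_le_mul (mul_le_mul ?_ ?_ (by positivity) (by positivity))
      (le_mul_of_one_le_right (by positivity) hM) (by positivity) (by positivity)
    · exact pow_le_pow_left₀ (by positivity) (by gcongr) _
    · exact pow_le_pow_left₀ (by positivity) (by gcongr) _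
  have hA12 : A₁ ≤ A₁ * A₂ := le_mul_of_one_le_right (by positivity) hA₂1
  have hA21 : A₂ ≤ A₁ * A₂ := le_mul_of_one_le_left (by positivity) hA₁1
  refine App.mono h5 ?_ fun V a => ?_
  · have h6 : A₁ + A₂ ≤ (C * M) ^ (D₁ + D₂ + 1) / τ := by
      rw [le_div_iff₀ hτ]
      have h7 : (A₁ + A₂) * τ ≤ A₁ + A₂ := mul_le_of_le_one_right (by positivity) hτ1
      have h8 : A₁ * A₂ * 2 ≤ A₁ * A₂ * C := by gcongr; rw [hC]; linarith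
      linarith
    have h9 := mul_le_mul_of_nonneg_right h6 (by positivity : 0 ≤ q + 1)
    linarith
  · exact step_num hLg hq20 hC₃ (by rw [hC]; linarith) hAA hA₁1 hA₂1 hτ hτ1 hs.le hs1 hx1 hx2 hx3
      hδ₀ hδ'0 hδ'1 (he V a) (Real.sqrt_nonneg N) hdN (norm_nonneg _) (Real.sqrt_nonneg _)
      (Kd_norm_le V.2 hv hv4 ht (by linarith) (u V a))

end Crest.Agent.R285
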