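import Crest.Agent.R285.Samp

/-! Row 285: the second stage of the noise-compensated step. -/

set_option autoImplicit false

namespace Crest.Agent.R285

open MeasureTheory ProbabilityTheory Crest.OracleSampling Set
open scoped ENNReal NNReal InnerProductSpace

/-- The base point of the compensation scheme. -/
noncomputable def om0 {d : ℕ} (v t : ℝ) (u b z : E d) : Om d := ![(√v * t)⁻¹ • (b - u), z]

theorem norm_vec2_le {d : ℕ} (a z : E d) : ‖(![a, z] : Om d)‖ ≤ ‖a‖ + ‖z‖ := by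
  refine (pi_norm_le_iff_of_nonneg (by positivity)).2 fun k => ?_
  fin_cases k <;> simp

theorem om0_sub {d : ℕ} (v t : ℝ) (u b z b' z' : E d) :
    om0 v t u b z - om0 v t u b' z' = ![(√v * t)⁻¹ • (b - b'), z - z'] := by
  funext k
  fin_cases k
  · simp [om0, smul_sub]
  · simp [om0]

theorem norm_om0_le {d : ℕ} {v t : ℝ} (hv : 0 < v) (ht : 0 < t) (u b z : E d) :
    √v * ‖om0 v t u b z‖ ≤ (‖b‖ + ‖u‖) / t + √v * ‖z‖ := by
  have hs : 0 < √v := Real.sqrt_pos.2 hv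
  have h1 := norm_vec2_le ((√v * t)⁻¹ • (b - u)) z
  rw [norm_smul, Real.norm_eq_abs, abs_of_pos (by positivity)] at h1
  have h2 := norm_sub_le b u
  calc √v * ‖om0 v t u b z‖ ≤ √v * ((√v * t)⁻¹ * (‖b‖ + ‖u‖) + ‖z‖) := by
        refine mul_le_mul_of_nonneg_left (h1.trans ?_) hs.le
        gcongr
    _ = _ := by field_simp

theorem pos_om0 {d : ℕ} {v t : ℝ} (hv : 0 < v) (ht : 0 < t) (θ : Th) (u b z : E d) :
    u + √v • pos θ (om0 v t u b z) =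
      (1 - θ 0 / t) • u + ((θ 0 / t) • b + (√v * θ 1) • z) := by
  have hs : 0 < √v := Real.sqrt_pos.2 hv
  have h : √v * (θ 0 * (√v * t)⁻¹) = θ 0 / t := by field_simp
  simp only [pos, Fin.sum_univ_two, om0, Matrix.cons_val_zero, Matrix.cons_val_one,
    Matrix.cons_val_fin_one, smul_add, smul_smul, h]
  module

theorem base_acc {d : ℕ} {A : Type} [MeasurableSpace A] {q ρ₀ v t : ℝ} {e : Pot d → A → ℝ}
    {u : Pot d → A → E d} (h : Acc q ρ₀ e u) (hv : 0 < v) (ht : 0 < t) (hρ : 0 ≤ ρ₀) (θ : Th)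
    (hθ : ‖θ‖ ≤ 3 * t) :
    Acc (A := (A × E d) × E d) q (4 * ρ₀) (fun V x => 4 * e V x.1.1)
      fun V x => u V x.1.1 + √v • pos θ (om0 v t (u V x.1.1) x.1.2 x.2) := by
  have h0 : |θ 0| ≤ 3 * t := (norm_le_pi_norm θ 0).trans hθ
  have h1 : |1 - θ 0 / t| ≤ 4 := by
    have : |θ 0 / t| ≤ 3 := by rw [abs_div, abs_of_pos ht, div_le_iff₀ ht]; exact h0
    have h2 := abs_sub (1 : ℝ) (θ 0 / t)
    rw [abs_one] at h2
    linarith
  have h2 := ((h.pre (A' := (A × E d) × E d) (g := fun x => x.1.1) (by fun_prop)).smul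
    (1 - θ 0 / t)).add_known (x := fun x => (θ 0 / t) • x.1.2 + (√v * θ 1) • x.2) (by fun_prop)
  refine ((h2.noise' ?_).mono le_rfl fun V x => ?_).congr fun V x => pos_om0 hv ht θ _ _ _
  · rw [abs_mul, abs_of_nonneg hρ]; gcongr
  · have := App.e_nonneg h V x.1.1
    gcongr

/-- The output of the second stage. -/
noncomputable def outp {d : ℕ} (K : ℕ) (τ : ℝ) (n : ℕ) (v σz κ' : ℝ) (V : E d → ℝ)
    (u b z : E d) : E d :=
  σz • z + F V (v * (1 - (K * τ) ^ 2)) b -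
    σz • Corr K τ n v (Gf (resc V u v) v) (√v / σz) κ' (om0 v (K * τ) u b z)

/-- Access to the output of the second stage. -/
theorem step_acc (n : ℕ) : ∃ Dn : ℕ, ∀ K : ℕ, 1 ≤ K → ∃ C : ℝ, 1 ≤ C ∧ ∀ (d : ℕ)
    (N v τ κb κ' σz σ₁ σ₂ σ₃ σ₄ ρ ρ₀ M ζ₁ ζ₂ q₁ δ' : ℝ), (d : ℝ) ≤ N → 0 < v → v ≤ 1 / 4 →
    v ≤ κb → C * κb ≤ 1 → 0 < τ → 8 * (K * τ) ≤ 1 → 1 ≤ M → 0 ≤ σ₁ → 0 ≤ σ₂ → 0 ≤ ζ₁ → 0 ≤ ζ₂ →
    0 ≤ ρ₀ → C * (κb * σ₁) ≤ ρ → C * ρ₀ ≤ ρ → 0 < σz → √v ≤ κ' * σz → κ' ≤ κb →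
    C * (√v / σz) * σ₂ ≤ κ' * σz → σ₃ ^ 2 + σz ^ 2 ≤ σ₄ ^ 2 →
    (∀ v', v / 2 ≤ v' → v' ≤ v → Eng d N v' σ₁ ρ M ζ₁) →
    (∀ v', v / 2 ≤ v' → v' ≤ v → Eng d N v' σ₂ ρ M ζ₂) →
    Acc (A := E d) q₁ σ₃ (fun _ b => δ' * (√N + ‖b‖)) (fun V b => F V.1 (v * (1 - (K * τ) ^ 2)) b) →
    ∀ (A : Type) [MeasurableSpace A] (q : ℝ) (e : Pot d → A → ℝ) (u : Pot d → A → E d),
    Acc q ρ₀ e u →
    Acc (A := (A × E d) × E d) (q₁ + (C * M) ^ Dn * (q + 1)) σ₄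
      (fun V x => δ' * (√N + ‖x.1.2‖) + (C * M) ^ Dn * (4 * e V x.1.1 +
        (κb * ζ₁ + √v / σz / κ' * ζ₂) * (13 / τ * (√N + 2 * ‖u V x.1.1‖ + ‖x.1.2‖ + ‖x.2‖))))
      fun V x => outp K τ n v σz κ' V.1 (u V x.1.1) x.1.2 x.2 := by
  obtain ⟨Dn, hD⟩ := tree_corr n
  refine ⟨Dn, fun K hK => ?_⟩
  obtain ⟨Ct, hCt, hT⟩ := hD K
  have hLg := one_le_Lg
  have hCq := one_le_Cq K
  refine ⟨8 + 6 * Ct + 20 * Cq K ^ 2 * Lg, by nlinarith [sq_nonneg (Cq K)], ?_⟩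
  intro d N v τ κb κ' σz σ₁ σ₂ σ₃ σ₄ ρ ρ₀ M ζ₁ ζ₂ q₁ δ' hd hv hv4 hvκ hCκ hτ hKτ hM hσ₁ hσ₂ hζ₁ hζ₂
    hρ₀ hρ1 hρ2 hσz hκ' hκ'b hσ2c hσ₄ hE1 hE2 hF A _ q e u hu
  set C := 8 + 6 * Ct + 20 * Cq K ^ 2 * Lg with hC
  have hq20 : 0 ≤ 20 * Cq K ^ 2 * Lg := by positivity
  have hs : 0 < √v := Real.sqrt_pos.2 hv
  have hs1 : √v ≤ 1 := Real.sqrt_le_one.2 (by linarith)
  have hK1 : (1 : ℝ) ≤ K := by exact_mod_cast hK
  have hτK : τ ≤ K * τ := le_mul_of_one_le_left hτ.le hK1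
  have ht : 0 < (K : ℝ) * τ := by positivity
  have hτ1 : τ ≤ 1 := by linarith
  have hκb : 0 < κb := hv.trans_le hvκ
  have hκb1 : κb ≤ 1 := by nlinarith
  have hκ'0 : 0 < κ' := by
    by_contra hh
    have : κ' * σz ≤ 0 := mul_nonpos_of_nonpos_of_nonneg (not_lt.1 hh) hσz.le
    linarith
  set κ := √v / σz with hκ
  have hκ0 : 0 < κ := by positivity
  have hκκ : κ ≤ κ' := by rw [hκ, div_le_iff₀ hσz]; exact hκ'
  have hσκ : σz * κ = √v := by rw [hκ]; field_simp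
  have hsm : 20 * Cq K ^ 2 * Lg * κb ≤ 1 := by
    refine le_trans ?_ hCκ
    gcongr
    rw [hC]; linarith
  have hdN : √(d : ℝ) ≤ √N := Real.sqrt_le_sqrt hd
  have hq : 0 ≤ q := App.q_nonneg hu
  have he : ∀ V a, 0 ≤ e V a := App.e_nonneg hu
  set ω₀ : Pot d → (A × E d) × E d → Om d :=
    fun V x => om0 v (K * τ) (u V x.1.1) x.1.2 x.2 with hω₀
  set Gb : Pot d → (A × E d) × E d → ℝ :=
    fun V x => 4 * (√v)⁻¹ * (√d + ‖u V x.1.1‖ + √v * ‖ω₀ V x‖) with hGb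
  set Wt : Pot d → (A × E d) × E d → ℝ :=
    fun V x => 13 / τ * (√N + 2 * ‖u V x.1.1‖ + ‖x.1.2‖ + ‖x.2‖) with hWt
  have hWt0 : ∀ V x, 0 ≤ Wt V x := fun V x => by simp only [hWt]; positivity
  have hGb0 : ∀ V x, 0 ≤ Gb V x := fun V x => by simp only [hGb]; positivity
  have hW3 : ∀ V x, √N + ‖u V x.1.1‖ + √v * (‖ω₀ V x‖ + 3 * Gb V x) ≤ Wt V x := by
    intro V x
    have h1 : √v * ‖ω₀ V x‖ ≤ (‖x.1.2‖ + ‖u V x.1.1‖) / (K * τ) + √v * ‖x.2‖ :=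
      norm_om0_le hv ht _ _ _
    have h2 : (‖x.1.2‖ + ‖u V x.1.1‖) / (K * τ) ≤ (‖x.1.2‖ + ‖u V x.1.1‖) / τ := by gcongr
    have h3 : √v * ‖x.2‖ ≤ ‖x.2‖ / τ := by
      rw [le_div_iff₀ hτ]
      have : √v * τ ≤ 1 := mul_le_one₀ hs1 hτ.le hτ1
      nlinarith [norm_nonneg x.2]
    have h4 : √N + ‖u V x.1.1‖ ≤ (√N + ‖u V x.1.1‖) / τ := by
      rw [le_div_iff₀ hτ]
      exact mul_le_of_le_one_right (by positivity) hτ1
    have h5 : √v * (‖ω₀ V x‖ + 3 * Gb V x) =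
        13 * (√v * ‖ω₀ V x‖) + 12 * (√d + ‖u V x.1.1‖) := by
      simp only [hGb]; field_simp; ring
    have h6 : Wt V x = 13 * ((√N + ‖u V x.1.1‖) / τ + (‖x.1.2‖ + ‖u V x.1.1‖) / τ +
        ‖x.2‖ / τ) := by
      simp only [hWt]; field_simp; ring
    rw [h5, h6]
    linarith
  set wt : Pot d → (A × E d) × E d → ℝ :=
    fun V x => (√v)⁻¹ * (4 * e V x.1.1 + κb * ζ₁ * Wt V x) with hwt
  set wt' : Pot d → (A × E d) × E d → ℝ := fun V x => (√v)⁻¹ * (ζ₂ * Wt V x) with hwt'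
  have hwt0 : ∀ V x, 0 ≤ wt V x := fun V x => by
    have := he V x.1.1; have := hWt0 V x; simp only [hwt]; positivity
  have hwt'0 : ∀ V x, 0 ≤ wt' V x := fun V x => by
    have := hWt0 V x; simp only [hwt']; positivity
  set s₁ := Ct * (κb * (√v)⁻¹ * σ₁) with hs₁
  have hs₁0 : 0 ≤ s₁ := by positivity
  have hvs : √v * s₁ = Ct * (κb * σ₁) := by rw [hs₁]; field_simp
  have hρa : 8 * ρ₀ ≤ ρ := le_trans (by gcongr; rw [hC]; linarith) hρ2
  have hρb : 6 * Ct * (κb * σ₁) ≤ ρ := le_trans (by gcongr; rw [hC]; linarith) hρ1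
  have hx0 : 0 ≤ Ct * (κb * σ₁) := by positivity
  have hb : ∀ θ : Th, ‖θ‖ ≤ 3 * (K * τ) → Acc (A := (A × E d) × E d) q (4 * ρ₀)
      (fun V x => 4 * e V x.1.1) fun V x => u V x.1.1 + √v • pos θ (ω₀ V x) :=
    fun θ hθ => base_acc hu hv ht hρ₀ θ hθ
  have hF1 := facc_of_eng (u := fun V (x : (A × E d) × E d) => u V x.1.1) (ω₀ := ω₀) (Gb := Gb)
    (wt := wt) (wt' := fun _ _ => 0) (Wt := Wt) (R := 3 * (K * τ)) (r := 3) (s₁ := s₁) (c := κb)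
    hv (by linarith) hM hζ₁ hκb.le hκb1 (by norm_num) hs₁0 (by positivity)
    (by rw [mul_left_comm, hvs]; linarith) hE1 hb hwt0 hW3 (fun V x => by
      have h1 := he V x.1.1
      have h2 := hWt0 V x
      simp only [hwt, add_zero]
      rw [mul_assoc, mul_left_comm]
      refine mul_le_mul_of_nonneg_left ?_ (by positivity)
      nlinarith)
  have hF2 := facc_of_eng (u := fun V (x : (A × E d) × E d) => u V x.1.1) (ω₀ := ω₀) (Gb := Gb)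
    (wt := wt) (wt' := wt') (Wt := Wt) (R := 2 * (K * τ)) (r := 2) (s₁ := s₁) (c := 1)
    hv (by linarith) hM hζ₂ zero_le_one le_rfl (by norm_num) hs₁0 (by positivity)
    (by rw [mul_left_comm, hvs]; linarith) hE2 (fun θ hθ => hb θ (by linarith)) hwt0
    (fun V x => by
      refine le_trans ?_ (hW3 V x)
      have := hGb0 V x
      gcongr
      norm_num) (fun V x => by
      have h1 := he V x.1.1
      have h2 := hWt0 V x
      simp only [hwt, hwt', one_mul]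
      rw [← mul_add]
      refine mul_le_mul_of_nonneg_left ?_ (by positivity)
      have : 0 ≤ κb * ζ₁ * Wt V x := by positivity
      linarith)
  simp only [one_smul, one_mul] at hF2
  have hTr := hT d _ ω₀ Gb wt wt' s₁ (q + 1) (2 * M) (κb * (√v)⁻¹ * σ₁) ((√v)⁻¹ * σ₂) τ v κb Lg κ κ'
    (fun V x => Gf (resc V.1 (u V x.1.1) v) v) hκb (by linarith) (by linarith) (by positivity)
    (by positivity) le_rfl hwt0 hwt'0
    (fun V x => sch_resc V.2 _ hv hvκ hτ hτ1 hsm (by linarith))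
    (fun V x θ hθ => Gf_resc_norm_le V.2 _ hv hv4 (by linarith) _) hGb0 hτ hτ1 hv.le hvκ
    (by rw [abs_of_pos hκ0]; linarith) hκ'0 hκ'b hF1 hF2
  have hTr2 := (hTr.smul (-σz)).noise' (σ' := σz) (by
    rw [abs_mul, abs_neg, abs_of_pos hσz, abs_of_nonneg (by positivity)]
    have h1 : σz * (Ct * (κ ^ 2 / κ') * ((√v)⁻¹ * σ₂)) = Ct * κ * σ₂ / κ' := by
      rw [← hσκ]; field_simp
    rw [h1, div_le_iff₀ hκ'0, mul_comm σz]
    refine le_trans ?_ hσ2c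
    gcongr
    rw [hC]; linarith)
  have hF' := hF.pre (A' := (A × E d) × E d) (g := fun x => x.1.2) (by fun_prop)
  have hsum := ((hF'.add_sq hTr2 (σ := √(σ₃ ^ 2 + σz ^ 2))
    (Real.sq_sqrt (by positivity))).noise (σ' := σ₄)
    (by rw [Real.sq_sqrt (by positivity)]; exact hσ₄)).add_known
    (x := fun x : (A × E d) × E d => σz • x.2) (by fun_prop)
  have hA : (Ct * (2 * M)) ^ Dn ≤ (C * M) ^ Dn := by
    refine pow_le_pow_left₀ (by positivity) ?_ _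
    rw [← mul_assoc]
    gcongr
    rw [hC]; linarith
  refine (hsum.mono (by gcongr) fun V x => ?_).congr fun V x => ?_
  · have h1 := he V x.1.1
    have h2 := hWt0 V x
    rw [abs_neg, abs_of_pos hσz]
    have h3 : σz * ((Ct * (2 * M)) ^ Dn * (κ ^ 2 / κ') * (wt V x + wt' V x)) =
        (Ct * (2 * M)) ^ Dn * (κ / κ' * (4 * e V x.1.1 + κb * ζ₁ * Wt V x) +
          κ / κ' * ζ₂ * Wt V x) := by
      simp only [hwt, hwt']
      rw [← hσκ]; field_simp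
    have h4 : κ / κ' ≤ 1 := (div_le_one hκ'0).2 hκκ
    have h5 : κ / κ' * (4 * e V x.1.1 + κb * ζ₁ * Wt V x) ≤ 4 * e V x.1.1 + κb * ζ₁ * Wt V x :=
      mul_le_of_le_one_left (by positivity) h4
    rw [h3]
    refine add_le_add le_rfl (mul_le_mul hA ?_ (by positivity) (by positivity))
    change _ ≤ 4 * e V x.1.1 + (κb * ζ₁ + κ / κ' * ζ₂) * Wt V x
    linarith
  · simp only [outp, hω₀, neg_smul]
    abel

section
variable {d K n : ℕ} {V : E d → ℝ} {v τ κb κ' σz : ℝ}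

theorem corr_lip (hV : Admissible d V) (u : E d) (hv : 0 < v) (hvκ : v ≤ κb) (hτ : 0 < τ)
    (hτ1 : τ ≤ 1) (hKτ : 8 * (K * τ) ≤ 1) (hsm : 20 * Cq K ^ 2 * Lg * κb ≤ 1) (hσz : 0 < σz)
    (hκ : √v / σz ≤ κ') (hκ' : κ' ≤ κb) (n : ℕ) :
    Lip (8 * Cq K ^ 2 * Lg * (√v / σz)) (Corr K τ n v (Gf (resc V u v) v) (√v / σz) κ') := by
  have hs : 0 < √v := Real.sqrt_pos.2 hv
  have hκ0 : 0 < √v / σz := by positivity
  have hκ'0 : 0 < κ' := hκ0.trans_le hκ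
  have hLg := one_le_Lg
  refine ((sch_resc hV u hv hvκ hτ hτ1 hsm (R := 3 * (K * τ)) (by linarith)).Corr_lip le_rfl n
    (by rw [abs_of_pos hκ0]; linarith) hκ'0 hκ').mono ?_
  refine mul_le_mul_of_nonneg_left ?_ (by positivity)
  rw [div_le_iff₀ hκ'0, sq]
  exact mul_le_mul_of_nonneg_left hκ hκ0.le

theorem outp_lip_b (hV : Admissible d V) (u z : E d) (hv : 0 < v) (hvκ : v ≤ κb) (hτ : 0 < τ)
    (hK : 1 ≤ K) (hKτ : 8 * (K * τ) ≤ 1) (hsm : 20 * Cq K ^ 2 * Lg * κb ≤ 1) (hσz : 0 < σz)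
    (hκ : √v / σz ≤ κ') (hκ' : κ' ≤ κb) (n : ℕ) :
    Lip ((Lg + 8 * Cq K ^ 2 * Lg) / τ) fun b => outp K τ n v σz κ' V u b z := by
  have hs : 0 < √v := Real.sqrt_pos.2 hv
  have hK1 : (1 : ℝ) ≤ K := by exact_mod_cast hK
  have hτK : τ ≤ K * τ := le_mul_of_one_le_left hτ.le hK1
  have ht : 0 < (K : ℝ) * τ := by positivity
  have hτ1 : τ ≤ 1 := by linarith
  have hLg := one_le_Lg
  have hv₁ : 0 < v * (1 - (K * τ) ^ 2) := mul_pos hv (by nlinarith)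
  have h1 := F_lip_adm hV hv₁
  have h2 := corr_lip hV u hv hvκ hτ hτ1 hKτ hsm hσz hκ hκ' n
  have h3 : Lip ((√v * (K * τ))⁻¹) fun b => om0 v (K * τ) u b z := fun b b' => by
    rw [om0_sub]
    refine (norm_vec2_le _ _).trans ?_
    rw [sub_self, norm_zero, add_zero, norm_smul, Real.norm_eq_abs, abs_of_pos (by positivity)]
  refine (((lip_const (σz • z)).add h1).sub ((h2.comp h3 (by positivity)).smul σz)).mono ?_
  rw [abs_of_pos hσz, zero_add, add_div]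
  have h4 : σz * (8 * Cq K ^ 2 * Lg * (√v / σz) * (√v * (K * τ))⁻¹) =
      8 * Cq K ^ 2 * Lg / (K * τ) := by field_simp
  rw [h4]
  refine add_le_add ?_ (by gcongr)
  rw [le_div_iff₀ hτ]
  exact mul_le_of_le_one_right (by linarith) hτ1

theorem outp_lip_z (hV : Admissible d V) (u b : E d) (hv : 0 < v) (hvκ : v ≤ κb) (hτ : 0 < τ)
    (hK : 1 ≤ K) (hKτ : 8 * (K * τ) ≤ 1) (hsm : 20 * Cq K ^ 2 * Lg * κb ≤ 1) (hσz : 0 < σz)
    (hκ : √v / σz ≤ κ') (hκ' : κ' ≤ κb) (n : ℕ) :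
    Lip (σz + 8 * Cq K ^ 2 * Lg * √v) fun z => outp K τ n v σz κ' V u b z := by
  have hs : 0 < √v := Real.sqrt_pos.2 hv
  have hK1 : (1 : ℝ) ≤ K := by exact_mod_cast hK
  have hτK : τ ≤ K * τ := le_mul_of_one_le_left hτ.le hK1
  have hτ1 : τ ≤ 1 := by linarith
  have hLg := one_le_Lg
  have h2 := corr_lip hV u hv hvκ hτ hτ1 hKτ hsm hσz hκ hκ' n
  have h3 : Lip 1 fun z => om0 v (K * τ) u b z := fun z z' => by
    rw [om0_sub]
    refine (norm_vec2_le _ _).trans ?_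
    simp
  refine (((lip_id.smul σz).add (lip_const (F V (v * (1 - (K * τ) ^ 2)) b))).sub
    ((h2.comp h3 (by positivity)).smul σz)).mono (le_of_eq ?_)
  rw [abs_of_pos hσz]
  field_simp
  ring

theorem lip_integral {X : Type*} [NormedAddCommGroup X] {g : X → E d → ℝ} {L L' : ℝ}
    (h : ∀ z, Lip L fun x => g x z) (h' : ∀ x, Lip L' (g x)) :
    Lip L fun x => ∫ z, g x z ∂gam d := by
  intro x y
  have hi : ∀ x, Integrable (g x) (gam d) := fun x => by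
    simpa using (h' x).integrable_gam 0 1
  rw [← integral_sub (hi x) (hi y)]
  refine (norm_integral_le_of_norm_le_const (C := L * ‖x - y‖)
    (Filter.Eventually.of_forall fun z => h z x y)).trans ?_
  simp

end

/-- Identification of the target. -/
theorem step_target (K n : ℕ) (hK : 1 ≤ K) : ∃ C : ℝ, 1 ≤ C ∧ ∀ (d : ℕ) (V : E d → ℝ)
    (u : E d) (v τ κb κ' σz σ₄ σ : ℝ), Admissible d V → 0 < v → v ≤ 1 / 4 → v ≤ κb → C * κb ≤ 1 →
    0 < τ → 8 * (K * τ) ≤ 1 → 0 < σz → √v / σz ≤ κ' → κ' ≤ κb → σ ^ 2 = σz ^ 2 + σ₄ ^ 2 →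
    ∀ (L : ℝ) (f : E d → ℝ), 0 ≤ L → Lip L f →
    |∫ b, ∫ z, ∫ ξ, f (outp K τ n v σz κ' V u b z + σ₄ • ξ) ∂gam d ∂gam d ∂Kd V v (K * τ) u -
      ∫ ξ, f (F V v u + σ • ξ) ∂gam d| ≤ L * (C * (√v * (κb ^ n + τ ^ K)) * (√d + ‖u‖)) := by
  obtain ⟨Ca, hCa, hA⟩ := approx_corr K n hK
  have hLg := one_le_Lg
  have hCq := one_le_Cq K
  refine ⟨3 * Ca + 20 * Cq K ^ 2 * Lg, by nlinarith [sq_nonneg (Cq K)], ?_⟩
  intro d V u v τ κb κ' σz σ₄ σ hV hv hv4 hvκ hCκ hτ hKτ hσz hκ hκ' hσ L f hL hf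
  have hq20 : 0 ≤ 20 * Cq K ^ 2 * Lg := by positivity
  have hs : 0 < √v := Real.sqrt_pos.2 hv
  have hK1 : (1 : ℝ) ≤ K := by exact_mod_cast hK
  have ht : 0 < (K : ℝ) * τ := by positivity
  have hκb : 0 < κb := hv.trans_le hvκ
  have hsm : 20 * Cq K ^ 2 * Lg * κb ≤ 1 := le_trans (by gcongr; linarith) hCκ
  have hκ0 : 0 < √v / σz := by positivity
  have hκ'0 : 0 < κ' := hκ0.trans_le hκ
  set g : E d → ℝ := fun y => ∫ ξ, f (σz • y + σ₄ • ξ) ∂gam d with hg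
  have hgl : Lip (L * σz) g := by
    have := (lip_gam_smooth hf σ₄).comp (lip_id.smul σz) hL
    simpa [abs_of_pos hσz] using this
  have key := hA d (resc V u v) v τ κb (√v / σz) κ' (nice_resc (adm_nice hV) u hv.le) hv hvκ
    (le_trans (by gcongr; linarith) hCκ) hκ0 hκ hκ' hτ (by linarith) g (L * σz) (by positivity) hgl
  have hθ : ‖((K : ℝ) * τ) • eu 0‖ ≤ 1 / 2 := by
    rw [norm_smul, norm_eu, Real.norm_eq_abs, abs_of_pos ht]; linarith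
  have e1 : ∫ b, ∫ z, ∫ ξ, f (outp K τ n v σz κ' V u b z + σ₄ • ξ) ∂gam d ∂gam d ∂Kd V v (K * τ) u =
      ∫ η, ∫ z, g ((√v / σz) • Gf (resc V u v) v (((K : ℝ) * τ) • eu 0) ![η, z] + z -
        Corr K τ n v (Gf (resc V u v) v) (√v / σz) κ' ![η, z]) ∂gam d ∂kd (resc V u v) (K * τ) := by
    have hl : Lip (L * ((Lg + 8 * Cq K ^ 2 * Lg) / τ)) fun b =>
        ∫ z, ∫ ξ, f (outp K τ n v σz κ' V u b z + σ₄ • ξ) ∂gam d ∂gam d :=
      lip_integral (fun z => (lip_gam_smooth hf σ₄).comp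
        (outp_lip_b hV u z hv hvκ hτ hK hKτ hsm hσz hκ hκ' n) hL) fun b =>
        (lip_gam_smooth hf σ₄).comp (outp_lip_z hV u b hv hvκ hτ hK hKτ hsm hσz hκ hκ' n) hL
    rw [Kd_eq_map (adm_cvx hV) hv ht, integral_map (by fun_prop)
      hl.continuous.aestronglyMeasurable]
    refine integral_congr_ae (Filter.Eventually.of_forall fun η => ?_)
    refine integral_congr_ae (Filter.Eventually.of_forall fun z => ?_)
    simp only [hg]
    have h1 : om0 v (K * τ) u (u + (√v * (K * τ)) • η) z = ![η, z] := by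
      simp only [om0, add_sub_cancel_left, smul_smul]
      rw [inv_mul_cancel₀ (by positivity), one_smul]
    have h2 : lev (((K : ℝ) * τ) • eu 0) = 1 - (K * τ) ^ 2 := by simp [lev, eu]
    have h3 : pos (((K : ℝ) * τ) • eu 0) ![η, z] = ((K : ℝ) * τ) • η := by simp [pos, eu]
    have h4 : σz * (√v / σz) * (√v)⁻¹ = 1 := by field_simp
    rw [outp, h1, Gf_resc hV u hv hθ, h2, h3, smul_sub, smul_add, smul_smul, smul_smul, smul_smul,
      h4, one_smul, add_comm (σz • z)]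
  have e2 : ∫ ξ, f (F V v u + σ • ξ) ∂gam d =
      ∫ z, g ((√v / σz) • Gf (resc V u v) v 0 0 + z) ∂gam d := by
    rw [← integral_gam_add hσ hf.continuous.measurable _ (hf.integrable_gam _ _)]
    refine integral_congr_ae (Filter.Eventually.of_forall fun z => ?_)
    simp only [hg]
    have h4 : σz * (√v / σz) * (√v)⁻¹ = 1 := by field_simp
    have h2 : lev 0 = 1 := by simp [lev]
    have h3 : pos (0 : Th) (0 : Om d) = 0 := by simp [pos]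
    rw [Gf_resc hV u hv (by simp), h2, h3, smul_add, smul_smul, smul_smul, h4, one_smul, mul_one,
      smul_zero, add_zero]
  rw [e1, e2]
  refine key.trans ?_
  have h5 := F_resc_norm_le hV u hv hv4
  have h6 : σz * ((√v / σz) ^ 2 / κ') ≤ √v := by
    have : σz * ((√v / σz) ^ 2 / κ') = √v * (√v / σz / κ') := by field_simp
    rw [this]
    exact mul_le_of_le_one_right hs.le ((div_le_one hκ'0).2 hκ)
  have hχ : 0 ≤ κb ^ n + τ ^ K := by positivity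
  calc L * σz * Ca * ((√v / σz) ^ 2 / κ') * (κb ^ n + τ ^ K) * (√d + ‖F (resc V u v) 1 0‖)
      = L * (Ca * (σz * ((√v / σz) ^ 2 / κ') * (κb ^ n + τ ^ K)) *
          (√d + ‖F (resc V u v) 1 0‖)) := by ring
    _ ≤ L * (Ca * (√v * (κb ^ n + τ ^ K)) * (3 * (√d + ‖u‖))) := by gcongr
    _ = L * (3 * Ca * (√v * (κb ^ n + τ ^ K)) * (√d + ‖u‖)) := by ring
    _ ≤ _ := by gcongr; linarith

end Crest.Agent.R285
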