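import Crest.Agent.R285.Heat2
import Crest.Agent.R285.Cum

/-! Row 285: the derivative tensors `Tn` of the smoothed potential. -/

set_option autoImplicit false

namespace Crest.Agent.R285

open MeasureTheory ProbabilityTheory Crest.OracleSampling Set
open scoped ENNReal NNReal InnerProductSpace

variable {d : ℕ} {U : E d → ℝ} {h : ℝ}

theorem sm_Tn (hU : ConvexOn ℝ univ U) (h : ℝ) (m : Multiset (Fin d)) : Sm (Tn U h m) :=
  contDiff_const.mul ((sm_PhT hU).DM _)

theorem DM_Tn (hU : ConvexOn ℝ univ U) (h : ℝ) (m' m : Multiset (Fin d)) :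
    DM (m'.map fun c => ((0 : ℝ), ex c)) (Tn U h m) = Tn U h (m' + m) := by
  unfold Tn
  rw [DM_const_mul ((sm_PhT hU).DM _), Multiset.map_add, DM_add_ms (sm_PhT hU)]

theorem D1_Tn (hU : ConvexOn ℝ univ U) (h : ℝ) (c : Fin d) (m : Multiset (Fin d)) :
    D1 ((0 : ℝ), ex c) (Tn U h m) = Tn U h (c ::ₘ m) := by
  rw [← Multiset.singleton_add, ← DM_Tn hU, Multiset.map_singleton, DM_singleton]

theorem Tn_single (hU : ConvexOn ℝ univ U) (h : ℝ) (c : Fin d) (p : ℝ × E d) :
    Tn U h {c} p = h⁻¹ * F U (psi p.1) p.2 c := by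
  rw [Tn, Multiset.map_singleton, DM_singleton, D1_PhT hU]

namespace Tens

theorem DM_smul {P : Type*} [NormedAddCommGroup P] [NormedSpace ℝ P] {f : P → ℝ} (hf : Sm f)
    (c : ℝ) (m : Multiset P) :
    DM (m.map fun v => c • v) f = fun p => c ^ m.card * DM m f p := by
  induction m using Multiset.induction_on with
  | empty => simp [DM]
  | cons v m ih =>
    rw [Multiset.map_cons, DM_cons hf, DM_cons hf, ih, ← DM_singleton, DM_const_mul (hf.DM m),
      DM_singleton]
    funext p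
    simp only [D1, map_smul, smul_eq_mul, Multiset.card_cons]
    ring

theorem grad_coord (U : E d → ℝ) (y : E d) (k : Fin d) : gradient U y k = D1 (ex k) U y := by
  rw [D1, ← inner_gradient_left, ex, EuclideanSpace.inner_single_right]
  simp

theorem contDiff_grad (hU : Nice h U) : ContDiff ℝ 1 fun y => h⁻¹ • gradient U y := by
  refine ContDiff.const_smul _ (contDiff_euclidean.2 fun k => ?_)
  simp only [grad_coord]
  exact (hU.smooth.fderiv_right (m := 1) (by norm_num)).clm_apply contDiff_const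

theorem pg1_grad (hU : Nice h U) (k : Fin d) : PG1 fun y => (h⁻¹ • gradient U y) k := by
  refine pg1_of_fderiv_le (contDiff_euclidean.1 (contDiff_grad hU) k)
    (L := |(|h⁻¹| * (2 * h))|) fun p => norm_fderiv_le_of_lip' ℝ (abs_nonneg _)
      (Filter.Eventually.of_forall fun x => ?_)
  refine le_trans ?_ ((hU.lip.smul h⁻¹ x p).trans
    (mul_le_mul_of_nonneg_right (le_abs_self _) (norm_nonneg _)))
  exact PiLp.norm_apply_le (h⁻¹ • gradient U x - h⁻¹ • gradient U p) k

end Tens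

open Tens Heat2

/-- With `s = psi p.1`, `μ = nu U s x`, `φ = h⁻¹ ∇U`: `Tn {k} (p.1, x + z) = tm μ φ_k (s⁻¹ z)`
(`F_eq_grad`, `nu_tilt`, `tm_eq_tilted`); differentiate with `DM_comp_affine`. -/
theorem Tn_eq_cum (hU : Nice h U) (k : Fin d) (m : Multiset (Fin d)) (p : ℝ × E d) :
    Tn U h (k ::ₘ m) p = (psi p.1)⁻¹ ^ m.card *
      cumK (nu U (psi p.1) p.2) (fun y => (h⁻¹ • gradient U y) k) m := by
  have hs := psi_pos p.1
  have hμ : PM (psi p.1) (nu U (psi p.1) p.2) := pm_gib hs (sc_nu hU.cvx hs p.2)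
  have h1 := DM_comp_affine (sm_Tn hU.cvx h {k}) p (ContinuousLinearMap.inr ℝ ℝ (E d))
    (m.map ex) 0
  have h2 := DM_comp_affine (sm_tm hμ (pg1_grad hU k)) 0
    ((psi p.1)⁻¹ • ContinuousLinearMap.id ℝ (E d)) (m.map ex) 0
  have h3 : (fun z => Tn U h {k} (p + ContinuousLinearMap.inr ℝ ℝ (E d) z)) = fun z =>
      tm (nu U (psi p.1) p.2) (fun y => (h⁻¹ • gradient U y) k)
        (0 + ((psi p.1)⁻¹ • ContinuousLinearMap.id ℝ (E d)) z) := by
    funext z
    rw [Tn_single hU.cvx, tm_eq_tilted hμ]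
    simp only [ContinuousLinearMap.inr_apply, Prod.fst_add, add_zero, Prod.snd_add, zero_add,
      smul_apply, ContinuousLinearMap.id_apply]
    rw [← nu_tilt hU.cvx hs, F_eq_grad hU hs]
    have h4 := (EuclideanSpace.proj (𝕜 := ℝ) k).integral_comp_comm
      (integrable_nu hU.cvx hs (p.2 + z) hU.lip)
    simp only [EuclideanSpace.coe_proj] at h4
    simp only [PiLp.smul_apply, smul_eq_mul]
    rw [integral_const_mul, h4]
  rw [h3, h2, map_zero, map_zero, add_zero, add_zero, Multiset.map_map,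
    Multiset.map_map] at h1
  have h5 : (m.map ((ContinuousLinearMap.inr ℝ ℝ (E d)) ∘ ex)) =
      m.map fun c => ((0 : ℝ), ex c) := rfl
  have h6 : m.map (((psi p.1)⁻¹ • ContinuousLinearMap.id ℝ (E d)) ∘ ex) =
      (m.map ex).map fun v => (psi p.1)⁻¹ • v := by
    rw [Multiset.map_map]; rfl
  rw [h5, h6, DM_Tn hU.cvx, DM_smul (sm_tm hμ (pg1_grad hU k)), add_comm,
    Multiset.singleton_add] at h1
  rw [← h1, Multiset.card_map, cumK]

/-- Pick `i₀ : ιO` (`ms_erase`, `Equiv.funSplitAt`), then `cum_opB` with `c = 2`, `L = 2`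
(`pm_gib`, `sc_nu`, `SC.mono`, `psi_mem`). -/
theorem Tn_opB (ιO ιJ : Type) [Fintype ιO] [DecidableEq ιO] [Nonempty ιO] [Fintype ιJ]
    [DecidableEq ιJ] [Nonempty ιJ] : ∃ C : ℝ, ∀ (d : ℕ) (U : E d → ℝ) (h : ℝ), Nice h U → 0 < h →
    ∀ p : ℝ × E d, OpB C fun (x : ιO → Fin d) (y : ιJ → Fin d) => Tn U h (ms x + ms y) p := by
  obtain ⟨i₀⟩ : Nonempty ιO := inferInstance
  obtain ⟨C, hC⟩ := cum_opB (Fintype.card {j // j ≠ i₀} + Fintype.card ιJ) 2 2
  refine ⟨8 ^ (Fintype.card {j // j ≠ i₀} + Fintype.card ιJ) * |C|, fun d U h hU hh p => ?_⟩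
  have hs := psi_pos p.1
  have hμ : PM 2 (nu U (psi p.1) p.2) :=
    pm_gib two_pos ((sc_nu hU.cvx hs p.2).mono hs (psi_mem p.1).2)
  have hl : Lip 2 fun y => h⁻¹ • gradient U y := by
    refine (hU.lip.smul h⁻¹).mono (le_of_eq ?_)
    rw [abs_of_pos (inv_pos.2 hh)]
    field_simp
  have h1 := (((hC {j // j ≠ i₀} ιJ le_rfl d _ hμ _ (contDiff_grad hU) hl).const_mul
    ((psi p.1)⁻¹ ^ (Fintype.card {j // j ≠ i₀} + Fintype.card ιJ))).reindex
    (Equiv.funSplitAt i₀ (Fin d)) (Equiv.refl _)).mono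
    (C' := 8 ^ (Fintype.card {j // j ≠ i₀} + Fintype.card ιJ) * |C|) (by
      rw [abs_mul, abs_of_nonneg (by positivity)]
      refine mul_le_mul_of_nonneg_right (pow_le_pow_left₀ (by positivity) ?_ _) (abs_nonneg _)
      rw [inv_le_comm₀ hs (by norm_num)]
      linarith [(psi_mem p.1).1])
  convert h1 using 3 with x y
  rw [ms_erase x i₀, Multiset.cons_add, Tn_eq_cum hU]
  simp [ms, Equiv.funSplitAt, Equiv.piSplitAt]

theorem Tens.sum_ex (v : E d) : ∑ b, v b • ((0 : ℝ), ex b) = ((0 : ℝ), v) := by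
  refine Prod.ext (by simp [Prod.fst_sum]) ?_
  ext c
  simp [Prod.snd_sum, ex, Pi.single_apply]

theorem Tens.F_lip' : ∃ C : ℝ, 1 ≤ C ∧ ∀ (d : ℕ) (U : E d → ℝ) (h : ℝ), Nice h U → 0 < h →
    ∀ t, Lip (C * h) (F U (psi t)) := by
  obtain ⟨C, hC⟩ := Tn_opB Unit Unit
  refine ⟨1 + |C|, by linarith [abs_nonneg C], fun d U h hU hh t => ?_⟩
  have e1 : ∀ c x, F U (psi t) x c = h * Tn U h {c} (t, x) := fun c x => by
    rw [Tn_single hU.cvx, ← mul_assoc, mul_inv_cancel₀ hh.ne', one_mul]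
  have d1 : ∀ c x, HasFDerivAt (fun x => F U (psi t) x c)
      (h • (fderiv ℝ (Tn U h {c}) (t, x)).comp (ContinuousLinearMap.inr ℝ ℝ (E d))) x := by
    intro c x
    simp only [e1]
    exact (((sm_Tn hU.cvx h {c}).differentiable (by simp) (t, x)).hasFDerivAt.comp x
      (hasFDerivAt_prodMk_right t x)).const_mul h
  have d2 : Differentiable ℝ (F U (psi t)) :=
    differentiable_euclidean.2 fun c x => (d1 c x).differentiableAt
  have d3 : ∀ x, ‖fderiv ℝ (F U (psi t)) x‖ ≤ (1 + |C|) * h := fun x => by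
    refine ContinuousLinearMap.opNorm_le_bound _ (by positivity) fun v => ?_
    have e2 : ∀ c, fderiv ℝ (F U (psi t)) x v c = h * ∑ b, Tn U h ({c} + {b}) (t, x) * v b := by
      intro c
      have := ((EuclideanSpace.proj (𝕜 := ℝ) c).hasFDerivAt.comp x (d2 x).hasFDerivAt).unique
        (d1 c x)
      have h2 := congrArg (fun L : E d →L[ℝ] ℝ => L v) this
      simp only [ContinuousLinearMap.comp_apply, EuclideanSpace.coe_proj,
        smul_apply, ContinuousLinearMap.inr_apply, smul_eq_mul] at h2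
      rw [h2, ← Tens.sum_ex v, map_sum]
      congr 1
      refine Finset.sum_congr rfl fun b _ => ?_
      rw [map_smul, smul_eq_mul, mul_comm, add_comm, Multiset.singleton_add, ← D1_Tn hU.cvx]
      rfl
    have h3 := (hC d U h hU hh (t, x)).reindex (Equiv.funUnique Unit (Fin d)).symm
      (Equiv.funUnique Unit (Fin d)).symm fun b => v b
    simp only [ms_unique, Equiv.funUnique_symm_apply, uniqueElim_const] at h3
    refine (pow_le_pow_iff_left₀ (norm_nonneg _) (by positivity) two_ne_zero).1 ?_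
    rw [EuclideanSpace.real_norm_sq_eq, mul_pow, EuclideanSpace.real_norm_sq_eq]
    simp only [e2, mul_pow]
    rw [← Finset.mul_sum, mul_comm _ (h ^ 2), mul_assoc]
    refine mul_le_mul_of_nonneg_left (h3.trans ?_) (by positivity)
    refine mul_le_mul_of_nonneg_right ?_ (by positivity)
    rw [← sq_abs C]
    exact pow_le_pow_left₀ (abs_nonneg _) (by linarith) 2
  exact fun x y => convex_univ.norm_image_sub_le_of_norm_fderiv_le (𝕜 := ℝ)
    (fun z _ => d2 z) (fun z _ => d3 z) (mem_univ y) (mem_univ x)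

/-- The score is Lipschitz: for `s ∈ [1/4, 7/4]` its derivative is `h` times the matrix
`Tn {b, c}`. -/
theorem F_lip : ∃ C : ℝ, 1 ≤ C ∧ ∀ (d : ℕ) (U : E d → ℝ) (h : ℝ), Nice h U → 0 < h →
    ∀ s, 1 / 4 ≤ s → s ≤ 7 / 4 → Lip (C * h) (F U s) := by
  obtain ⟨C, h1, hC⟩ := Tens.F_lip'
  refine ⟨C, h1, fun d U h hU hh s h2 h3 => ?_⟩
  have := hC d U h hU hh s
  rwa [psi_eq h2 h3] at this

/-- Space derivatives of the heat equation (`PhT_heat`, `DM_D1`, `DM_mul_of_ker`, `DM_mul`). -/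
theorem Tn_time (hU : ConvexOn ℝ univ U) (hh : h ≠ 0) {ι : Type*} [Fintype ι] [DecidableEq ι]
    (x : ι → Fin d) (p : ℝ × E d) :
    D1 ((1 : ℝ), (0 : E d)) (Tn U h (ms x)) p = deriv psi p.1 *
      (1 / 2 * ∑ c, Tn U h (c ::ₘ c ::ₘ ms x) p - h / 2 * ∑ c, ∑ t : Finset ι,
        Tn U h (c ::ₘ t.val.map x) p * Tn U h (c ::ₘ tᶜ.val.map x) p) := by
  have hP := sm_PhT hU
  have e1 : ∀ c, D1 ((0 : ℝ), ex c) (PhT U) = fun p => h * Tn U h {c} p := fun c => by
    funext p
    rw [Tn, Multiset.map_singleton, DM_singleton, ← mul_assoc, mul_inv_cancel₀ hh, one_mul]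
  have e2 : ∀ c, D1 ((0 : ℝ), ex c) (D1 ((0 : ℝ), ex c) (PhT U)) =
      fun p => h * Tn U h {c, c} p := fun c => by
    rw [e1, ← DM_singleton, DM_const_mul (sm_Tn hU h _), DM_singleton, D1_Tn hU]
    rfl
  have e3 : D1 ((1 : ℝ), (0 : E d)) (PhT U) = fun p =>
      deriv psi (ContinuousLinearMap.fst ℝ ℝ (E d) p) * (h / 2 * ∑ c, Tn U h {c, c} p -
        h ^ 2 / 2 * ∑ c, Tn U h {c} p * Tn U h {c} p) := by
    funext p
    rw [PhT_heat hU]
    simp only [e2]
    simp only [e1, ContinuousLinearMap.coe_fst', Finset.mul_sum]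
    congr 2
    · exact Finset.sum_congr rfl fun c _ => by ring
    · exact Finset.sum_congr rfl fun c _ => by ring
  have s1 : Sm fun p => ∑ c, Tn U h {c, c} p := ContDiff.sum fun c _ => sm_Tn hU h _
  have s2 : Sm fun p => ∑ c, Tn U h {c} p * Tn U h {c} p :=
    ContDiff.sum fun c _ => (sm_Tn hU h _).mul (sm_Tn hU h _)
  have s3 : Sm fun p => h / 2 * ∑ c, Tn U h {c, c} p := contDiff_const.mul s1
  have s4 : Sm fun p => h ^ 2 / 2 * ∑ c, Tn U h {c} p * Tn U h {c} p := contDiff_const.mul s2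
  have e4 : D1 ((1 : ℝ), (0 : E d)) (Tn U h (ms x)) = fun p =>
      h⁻¹ * DM ((ms x).map fun c => ((0 : ℝ), ex c)) (D1 ((1 : ℝ), (0 : E d)) (PhT U)) p := by
    rw [DM_D1 hP, ← DM_singleton, ← DM_singleton]
    exact DM_const_mul (hP.DM _) _ _
  rw [e4, e3, DM_mul_of_ker (s3.sub s4) tg_deriv_psi.sm _ _ (by
    intro v hv
    obtain ⟨c, -, rfl⟩ := Multiset.mem_map.1 hv
    rfl), DM_sub s3 s4, DM_const_mul s1, DM_const_mul s2,
    DM_sum _ fun c _ => sm_Tn hU h _, DM_sum _ fun c _ => (sm_Tn hU h _).mul (sm_Tn hU h _)]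
  have e5 : ∀ c, DM ((ms x).map fun c => ((0 : ℝ), ex c)) (fun p => Tn U h {c} p * Tn U h {c} p) p =
      ∑ t : Finset ι, Tn U h (c ::ₘ t.val.map x) p * Tn U h (c ::ₘ tᶜ.val.map x) p := fun c => by
    rw [ms, Multiset.map_map, DM_mul (sm_Tn hU h _) (sm_Tn hU h _), Finset.powerset_univ]
    refine Finset.sum_congr rfl fun t _ => ?_
    rw [← Multiset.map_map, ← Multiset.map_map, DM_Tn hU, DM_Tn hU, add_comm,
      add_comm (Multiset.map x (Finset.univ \ t).val),
      Multiset.singleton_add, Multiset.singleton_add, Finset.compl_eq_univ_sdiff]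
  have e6 : ∀ c, DM ((ms x).map fun c => ((0 : ℝ), ex c)) (Tn U h {c, c}) =
      Tn U h (c ::ₘ c ::ₘ ms x) := fun c => by
    rw [DM_Tn hU, add_comm, Multiset.insert_eq_cons, Multiset.cons_add, Multiset.singleton_add]
  simp only [e5, e6, ContinuousLinearMap.coe_fst']
  field_simp

namespace Tens

/-- The algebra generated by the tensors and the functions of time. -/
inductive AA (U : E d → ℝ) (h : ℝ) : (ℝ × E d → ℝ) → Prop
  | tn (m : Multiset (Fin d)) (hm : m ≠ 0) : AA U h (Tn U h m)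
  | fst (g : ℝ → ℝ) (hg : TG g) : AA U h fun p => g p.1
  | add (f g : ℝ × E d → ℝ) : AA U h f → AA U h g → AA U h fun p => f p + g p
  | mul (f g : ℝ × E d → ℝ) : AA U h f → AA U h g → AA U h fun p => f p * g p

theorem AA.const (c : ℝ) : AA U h fun _ => c := AA.fst (fun _ => c) (.const c)

theorem AA.sum {ι : Type*} (s : Finset ι) {f : ι → ℝ × E d → ℝ} (hf : ∀ i, AA U h (f i)) :
    AA U h fun p => ∑ i ∈ s, f i p := by
  classical
  induction s using Finset.induction_on with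
  | empty => simpa using AA.const 0
  | insert i s hi ih =>
    simp only [Finset.sum_insert hi]
    exact AA.add _ _ (hf i) ih

theorem AA.sm (hU : ConvexOn ℝ univ U) {f : ℝ × E d → ℝ} (hf : AA U h f) : Sm f := by
  induction hf with
  | tn m _ => exact sm_Tn hU h m
  | fst g hg => exact hg.sm.comp contDiff_fst
  | add f g _ _ h1 h2 => exact h1.add h2
  | mul f g _ _ h1 h2 => exact h1.mul h2

theorem AA.D1 (hU : ConvexOn ℝ univ U) (v : ℝ × E d)
    (hv : ∀ m, m ≠ 0 → AA U h (D1 v (Tn U h m))) {f : ℝ × E d → ℝ} (hf : AA U h f) :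
    AA U h (D1 v f) := by
  induction hf with
  | tn m hm => exact hv m hm
  | fst g hg =>
    have : R285.D1 v (fun p : ℝ × E d => g p.1) = fun p => R285.D1 v.1 g p.1 := by
      funext p
      have := ((hg.sm.differentiable (by simp) p.1).hasFDerivAt.comp p
        (hasFDerivAt_fst (𝕜 := ℝ) (p := p))).fderiv
      exact congrArg (fun L : ℝ × E d →L[ℝ] ℝ => L v) this
    rw [this]
    exact AA.fst _ (hg.D1 v.1)
  | add f g h1 h2 h3 h4 =>
    rw [← DM_singleton, DM_add (h1.sm hU) (h2.sm hU), DM_singleton, DM_singleton]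
    exact AA.add _ _ h3 h4
  | mul f g h1 h2 h3 h4 =>
    have : R285.D1 v (fun p => f p * g p) = fun p => f p * R285.D1 v g p + g p * R285.D1 v f p := by
      funext p
      simp only [R285.D1]
      rw [fderiv_fun_mul ((h1.sm hU).differentiable (by simp) p)
        ((h2.sm hU).differentiable (by simp) p)]
      simp
    rw [this]
    exact AA.add _ _ (AA.mul _ _ h1 h4) (AA.mul _ _ h2 h3)

theorem gr_single (hU : Nice h U) (hh : 0 < h) (c : Fin d) : Gr fun p => |Tn U h {c} p| := by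
  obtain ⟨C, h1, hC⟩ := Tens.F_lip'
  obtain ⟨M, hM⟩ := (isCompact_Icc (a := (0 : ℝ)) (b := 2)).exists_bound_of_continuousOn
    (f := fun t => Tn U h {c} (t, 0))
    ((sm_Tn hU.cvx h {c}).continuous.comp (by fun_prop)).continuousOn
  have hM' : ∀ t, |Tn U h {c} (t, 0)| ≤ M := fun t => by
    by_cases ht : t ∈ Icc (0 : ℝ) 2
    · exact hM t ht
    · have h2 : psi t = psi 1 := by
        have h3 : bump t = 0 := bump.zero_of_le_dist (by
          show (7 / 8 : ℝ) ≤ dist t 1
          rw [Real.dist_eq, le_abs]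
          rw [mem_Icc, not_and_or, not_le, not_le] at ht
          rcases ht with ht | ht
          · right; linarith
          · left; linarith)
        simp [psi, h3]
      have := hM 1 ⟨zero_le_one, one_le_two⟩
      rw [Tn_single hU.cvx] at this ⊢
      simp only at this ⊢
      rwa [h2]
  refine ((Gr.const M).add ((Gr.const C).mul Gr.norm fun _ => norm_nonneg _)).mono fun p => ?_
  have h2 := hC d U h hU hh p.1 p.2 0
  have h3 := PiLp.norm_apply_le (F U (psi p.1) p.2 - F U (psi p.1) 0) c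
  have h4 : Tn U h {c} p = Tn U h {c} (p.1, 0) + h⁻¹ * (F U (psi p.1) p.2 - F U (psi p.1) 0) c := by
    rw [Tn_single hU.cvx, Tn_single hU.cvx, PiLp.sub_apply]; ring
  rw [h4]
  refine (abs_add_le _ _).trans (add_le_add (hM' _) ?_)
  rw [abs_mul, abs_of_pos (inv_pos.2 hh), inv_mul_le_iff₀ hh]
  refine (h3.trans h2).trans ?_
  rw [sub_zero, mul_comm C, mul_assoc]
  gcongr
  exact norm_snd_le p

theorem gr_Tn (hU : Nice h U) (hh : 0 < h) {m : Multiset (Fin d)} (hm : m ≠ 0) :
    Gr fun p => |Tn U h m p| := by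
  obtain ⟨c, hc⟩ := Multiset.exists_mem_of_ne_zero hm
  obtain ⟨m', rfl⟩ := Multiset.exists_cons_of_mem hc
  obtain ⟨n, x, rfl⟩ := exists_ms m'
  cases n with
  | zero =>
    have : ms x = 0 := by simp [ms]
    rw [this]
    exact gr_single hU hh c
  | succ n =>
    obtain ⟨C, hC⟩ := Tn_opB Unit (Fin (n + 1))
    refine (Gr.const |C|).mono fun p => ?_
    have := (hC d U h hU hh p).entry_le (fun _ => c) x
    rwa [ms_unique, Multiset.singleton_add] at this

theorem AA.gr (hU : Nice h U) (hh : 0 < h) {f : ℝ × E d → ℝ} (hf : AA U h f) :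
    Gr fun p => |f p| := by
  induction hf with
  | tn m hm => exact gr_Tn hU hh hm
  | fst g hg =>
    exact Gr.comp (u := fun t => |g t|) (g := fun p : ℝ × E d => p.1) (Gr.of hg.growth)
      (Gr.norm.mono fun p => norm_fst_le p)
  | add f g _ _ h1 h2 => exact (h1.add h2).mono fun p => abs_add_le _ _
  | mul f g _ _ h1 h2 => exact (h1.mul h2 fun _ => abs_nonneg _).mono fun p => (abs_mul _ _).le

end Tens

/-- Temperate growth.  `Tn m` is bounded for `card m ≥ 2` (`Tn_opB`, `OpB.entry_le`) and of linear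
growth for `card m = 1` (bounded `x`-derivative, and continuity on the compact set
`[1/8, 2] × {0}`).  Apply `tg_of_closed` to the `ℝ`-subalgebra (`Algebra.adjoin`, or an inductive
predicate) generated by the `Tn m`, `m ≠ 0`, and the functions `g ∘ fst` with `g` of temperate
growth; it is closed under `D1 (0, ex c)` and `D1 (1, 0)` by `D1_Tn`, `Tn_time`. -/
theorem tg_Tn (hU : Nice h U) (hh : 0 < h) {m : Multiset (Fin d)} (hm : m ≠ 0) :
    TG (Tn U h m) := by
  refine tg_of_closed ((Module.Basis.singleton Unit ℝ).prod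
    (EuclideanSpace.basisFun (Fin d) ℝ).toBasis) {f | AA U h f} (fun f hf => AA.sm hU.cvx hf)
    (fun f hf => ?_) (fun f hf i => AA.D1 hU.cvx _ (fun m hm => ?_) hf) _ (AA.tn m hm)
  · obtain ⟨C, N, -, h1⟩ := AA.gr hU hh hf
    exact ⟨C, N, h1⟩
  · rcases i with i | c
    · have e : ((Module.Basis.singleton Unit ℝ).prod (EuclideanSpace.basisFun (Fin d) ℝ).toBasis)
          (Sum.inl i) = ((1 : ℝ), (0 : E d)) := by
        simp [Module.Basis.prod_apply]
      obtain ⟨n, x, rfl⟩ := exists_ms m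
      rw [e, funext (Tn_time hU.cvx hh.ne' x)]
      simp only [sub_eq_add_neg, ← neg_mul]
      exact AA.mul _ _ (AA.fst _ tg_deriv_psi) (AA.add _ _
        (AA.mul _ _ (AA.const _) (AA.sum _ fun c => AA.tn _ Multiset.cons_ne_zero))
        (AA.mul _ _ (AA.const _) (AA.sum _ fun c => AA.sum _ fun t =>
          AA.mul _ _ (AA.tn _ Multiset.cons_ne_zero) (AA.tn _ Multiset.cons_ne_zero))))
    · have e : ((Module.Basis.singleton Unit ℝ).prod (EuclideanSpace.basisFun (Fin d) ℝ).toBasis)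
          (Sum.inr c) = ((0 : ℝ), ex c) := by
        simp [Module.Basis.prod_apply, ex]
      rw [e, D1_Tn hU.cvx]
      exact AA.tn _ Multiset.cons_ne_zero

end Crest.Agent.R285
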