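import Crest.Agent.R285.Acc
import Crest.Agent.R285.SchLip

/-! Row 285: the collocation schemes are accessible from noisy access to the field `G`. -/

set_option autoImplicit false

namespace Crest.Agent.R285

open MeasureTheory ProbabilityTheory Crest.OracleSampling Set
open scoped ENNReal NNReal InnerProductSpace

variable {d : ℕ} {A : Type} [MeasurableSpace A] {ω₀ : Pot d → A → Om d}
  {Gb wt wt' : Pot d → A → ℝ} {s₁ q₀ R ρ M σ : ℝ}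

theorem Disp.mono {ρ' q q' e e' : ℝ} {Δ : Pot d → A → Om d} (h : Disp Gb wt s₁ ρ q e Δ)
    (hG : ∀ V a, 0 ≤ Gb V a) (hw : ∀ V a, 0 ≤ wt V a) (hs : 0 ≤ s₁) (hρ0 : 0 ≤ ρ) (hρ : ρ ≤ ρ')
    (hq : q ≤ q') (he : e ≤ e') : Disp Gb wt s₁ ρ' q' e' Δ := by
  refine ⟨fun V a => (h.1 V a).trans (mul_le_mul_of_nonneg_right hρ (hG V a)), fun k => ?_⟩
  refine ((h.2 k).mono hq fun V a => mul_le_mul_of_nonneg_right he (hw V a)).noise' ?_
  rw [abs_of_nonneg (mul_nonneg hρ0 hs)]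
  exact mul_le_mul_of_nonneg_right hρ hs

theorem disp_zero : Disp Gb wt s₁ 0 0 0 fun _ _ => 0 := by
  refine ⟨fun V a => by simp, fun k => ?_⟩
  exact (acc_known (d := d) (x := fun _ : A => (0 : E d)) measurable_const _).mono le_rfl
    fun V a => by simp

theorem FAcc.mono {R' ρ' M' σ' : ℝ} {W : Pot d → A → Th → Om d → E d}
    (h : FAcc ω₀ Gb wt wt' s₁ q₀ R ρ M σ W) (hG : ∀ V a, 0 ≤ Gb V a) (hw : ∀ V a, 0 ≤ wt V a)
    (hw' : ∀ V a, 0 ≤ wt' V a) (hs : 0 ≤ s₁) (hq : 0 ≤ q₀) (hR : R' ≤ R) (hρ0 : 0 ≤ ρ')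
    (hρ : ρ' ≤ ρ) (hM : M ≤ M') (hσ : |σ| ≤ σ') : FAcc ω₀ Gb wt wt' s₁ q₀ R' ρ' M' σ' W := by
  intro θ hθ q e Δ hq' he hΔ
  refine ((h θ (hθ.trans hR) q e Δ hq' he
    (hΔ.mono hG hw hs hρ0 hρ le_rfl le_rfl)).mono ?_ fun V a => ?_).noise' hσ
  · exact mul_le_mul_of_nonneg_right hM (by positivity)
  · have := hw V a
    have := hw' V a
    exact mul_le_mul_of_nonneg_right hM (by positivity)

/-- Picard iterates are displacements of size `ρ + 1`.  Induction on `n` (all `j ≤ K`): the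
displacement is `Δ + ∑ i, w j i • (τ • W θ_i (ω₀ + Δ_{n,i}))`; `Acc.sum`, `Acc.add`; with
`a n = (3 (K+1) Cq M)^n`: cost `q + (K+1) M (a n (q+q₀) + q₀)`, error `e + Cq M (a n (e+1) + 1)`. -/
theorem disp_pic {K : ℕ} {τ : ℝ} {W : Pot d → A → Th → Om d → Om d} {e₀ θ : Th}
    (hG : ∀ V a, 0 ≤ Gb V a) (hw : ∀ V a, 0 ≤ wt V a) (hτ : 0 ≤ τ) (he₀ : ‖e₀‖ ≤ 1)
    (hR : ‖θ‖ + K * τ ≤ R) (hρ : 0 ≤ ρ) (hq₀ : 1 ≤ q₀) (hM : 1 ≤ M) (hσ : 0 ≤ σ)
    (hs : Cq K * σ ≤ s₁)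
    (hW : ∀ k, FAcc ω₀ Gb wt (fun _ _ => 0) s₁ q₀ R (ρ + 1) M σ fun V a θ ω => τ • W V a θ ω k)
    {q e : ℝ} {Δ : Pot d → A → Om d} (hq : 0 ≤ q) (he : 0 ≤ e) (hΔ : Disp Gb wt s₁ ρ q e Δ)
    (hb : ∀ V a n, ∀ j ≤ K,
      ‖Pic K τ (W V a) e₀ n j θ (ω₀ V a + Δ V a) - (ω₀ V a + Δ V a)‖ ≤ Gb V a)
    (n : ℕ) {j : ℕ} (hj : j ≤ K) :
    Disp Gb wt s₁ (ρ + 1) ((3 * (K + 1) * Cq K * M) ^ n * (q + q₀))
      ((3 * (K + 1) * Cq K * M) ^ n * (e + 1))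
      fun V a => Pic K τ (W V a) e₀ n j θ (ω₀ V a + Δ V a) - ω₀ V a := by
  have hC := one_le_Cq K
  have hs0 : 0 ≤ s₁ := le_trans (by positivity) hs
  have hK : (1 : ℝ) ≤ K + 1 := by simp
  have hKM : (1 : ℝ) ≤ (K + 1) * M := one_le_mul_of_one_le_of_one_le hK hM
  have hCM : (1 : ℝ) ≤ Cq K * M := one_le_mul_of_one_le_of_one_le hC hM
  have ha : (1 : ℝ) ≤ 3 * (K + 1) * Cq K * M := by nlinarith
  induction n generalizing j with
  | zero =>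
    have : (fun V a => Pic K τ (W V a) e₀ 0 j θ (ω₀ V a + Δ V a) - ω₀ V a) = Δ := by
      funext V a
      simp [Pic]
    rw [this]
    exact hΔ.mono hG hw hs0 hρ (by linarith) (by simp; linarith) (by simp)
  | succ n ih =>
    have hp : (1 : ℝ) ≤ (3 * (K + 1) * Cq K * M) ^ n := one_le_pow₀ ha
    set X := (3 * (K + 1) * Cq K * M) ^ n * (q + q₀) with hX
    set Y := (3 * (K + 1) * Cq K * M) ^ n * (e + 1) with hY
    have hX1 : q + q₀ ≤ X := le_mul_of_one_le_left (by linarith) hp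
    have hY1 : e + 1 ≤ Y := le_mul_of_one_le_left (by linarith) hp
    refine ⟨fun V a => ?_, fun k => ?_⟩
    · have h1 := hb V a (n + 1) j hj
      have h2 := hΔ.1 V a
      calc _ = ‖(Pic K τ (W V a) e₀ (n + 1) j θ (ω₀ V a + Δ V a) - (ω₀ V a + Δ V a)) + Δ V a‖ := by
            rw [sub_add_eq_sub_sub, sub_add_cancel]
        _ ≤ _ := norm_add_le _ _
        _ ≤ _ := by linarith
    · have h1 := Acc.sum (Finset.range (K + 1)) (qw K j) (fun i hi =>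
        hW k _ ((norm_node_le he₀ hτ (Nat.lt_succ_iff.1 (Finset.mem_range.1 hi))).trans hR) X Y _
          (by linarith) (by linarith) (ih (Nat.lt_succ_iff.1 (Finset.mem_range.1 hi)))) hσ
      have hS := sum_qw_le K hj
      have hS0 : 0 ≤ ∑ i ∈ Finset.range (K + 1), |qw K j i| := by positivity
      have h2 := (hΔ.2 k).add h1 (σ := (ρ + 1) * s₁) (by
        rw [abs_of_nonneg (mul_nonneg hρ hs0), abs_of_nonneg (mul_nonneg hS0 hσ)]
        have := mul_le_mul_of_nonneg_right hS hσ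
        linarith)
      refine (h2.mono ?_ fun V a => ?_).congr fun V a => ?_
      · rw [pow_succ', mul_assoc _ _ (q + q₀), ← hX, Finset.card_range]
        push_cast
        have hX0 : 0 ≤ X := by linarith
        have h3 : q ≤ (K + 1) * M * X := by nlinarith
        have h4 : (K + 1) * M * q₀ ≤ (K + 1) * M * X :=
          mul_le_mul_of_nonneg_left (by linarith) (by linarith)
        have h5 : (K + 1) * M * X ≤ (K + 1) * M * X * Cq K :=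
          le_mul_of_one_le_right (by positivity) hC
        nlinarith
      · rw [pow_succ', mul_assoc _ _ (e + 1), ← hY]
        have hY0 : 0 ≤ Y := by linarith
        have hw0 := hw V a
        have h3 : e ≤ Cq K * M * Y := by nlinarith
        have h4 : Cq K * M * 1 ≤ Cq K * M * Y :=
          mul_le_mul_of_nonneg_left (by linarith) (by linarith)
        have h5 : Cq K * M * Y ≤ Cq K * M * Y * (K + 1) :=
          le_mul_of_one_le_right (by positivity) hK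
        have h6 : (∑ i ∈ Finset.range (K + 1), |qw K j i|) * (M * ((Y + 1) * wt V a + 0)) ≤
            Cq K * (M * ((Y + 1) * wt V a + 0)) :=
          mul_le_mul_of_nonneg_right hS (by positivity)
        have h7 : e + Cq K * M * (Y + 1) ≤ 3 * (K + 1) * Cq K * M * Y := by nlinarith
        have h8 := mul_le_mul_of_nonneg_right h7 hw0
        nlinarith
      · simp only [Pic, add_sub_cancel, Pi.sub_apply, Pi.add_apply, Pi.smul_apply,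
          Finset.sum_apply, Finset.smul_sum, smul_comm τ]
        rw [add_assoc, add_sub_cancel_left]

theorem FAcc.congr {W W' : Pot d → A → Th → Om d → E d}
    (h : FAcc ω₀ Gb wt wt' s₁ q₀ R ρ M σ W) (hW : ∀ V a θ ω, W' V a θ ω = W V a θ ω) :
    FAcc ω₀ Gb wt wt' s₁ q₀ R ρ M σ W' := by
  have : W' = W := by funext V a θ ω; exact hW V a θ ω
  rwa [this]

theorem FAcc.smul {W : Pot d → A → Th → Om d → E d} (h : FAcc ω₀ Gb wt wt' s₁ q₀ R ρ M σ W)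
    (hw : ∀ V a, 0 ≤ wt V a) (hw' : ∀ V a, 0 ≤ wt' V a) (hM : 0 ≤ M) (hσ : 0 ≤ σ) {c : ℝ}
    (hc : |c| ≤ 1) : FAcc ω₀ Gb wt wt' s₁ q₀ R ρ M σ fun V a θ ω => c • W V a θ ω := by
  intro θ hθ q e Δ hq he hΔ
  refine (((h θ hθ q e Δ hq he hΔ).smul c).mono le_rfl fun V a => ?_).noise' ?_
  · have := hw V a
    have := hw' V a
    exact mul_le_of_le_one_left (by positivity) hc
  · rw [abs_mul, abs_of_nonneg hσ]
    exact mul_le_of_le_one_left hσ hc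

theorem FAcc.add {M₁ M₂ σ₁ σ₂ : ℝ} {W₁ W₂ : Pot d → A → Th → Om d → E d}
    (h₁ : FAcc ω₀ Gb wt wt' s₁ q₀ R ρ M₁ σ₁ W₁) (h₂ : FAcc ω₀ Gb wt wt' s₁ q₀ R ρ M₂ σ₂ W₂)
    (hw : ∀ V a, 0 ≤ wt V a) (hw' : ∀ V a, 0 ≤ wt' V a) (hq₀ : 0 ≤ q₀)
    (hM : M₁ + M₂ ≤ M) (hσ : |σ₁| + |σ₂| ≤ σ) :
    FAcc ω₀ Gb wt wt' s₁ q₀ R ρ M σ fun V a θ ω => W₁ V a θ ω + W₂ V a θ ω := by
  intro θ hθ q e Δ hq he hΔ
  refine ((h₁ θ hθ q e Δ hq he hΔ).add (h₂ θ hθ q e Δ hq he hΔ) hσ).mono ?_ fun V a => ?_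
  · rw [← add_mul]
    exact mul_le_mul_of_nonneg_right hM (by positivity)
  · have := hw V a
    have := hw' V a
    rw [← add_mul]
    exact mul_le_mul_of_nonneg_right hM (by positivity)

/-- A weighted sum of values of a field at the collocation nodes. -/
theorem acc_nodes {K : ℕ} {τ R' σ' M' : ℝ} {W : Pot d → A → Th → Om d → Om d}
    {G : Pot d → A → Th → Om d → E d} {e₀ θ : Th} {c : ℕ → ℝ}
    (hG : ∀ V a, 0 ≤ Gb V a) (hw : ∀ V a, 0 ≤ wt V a) (hw' : ∀ V a, 0 ≤ wt' V a) (hτ : 0 ≤ τ)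
    (he₀ : ‖e₀‖ ≤ 1) (hR : ‖θ‖ + K * τ ≤ R) (hρ : 0 ≤ ρ) (hq₀ : 1 ≤ q₀) (hM : 1 ≤ M)
    (hσ : 0 ≤ σ) (hσ' : 0 ≤ σ') (hs : Cq K * σ ≤ s₁)
    (hW : ∀ k, FAcc ω₀ Gb wt (fun _ _ => 0) s₁ q₀ R (ρ + 1) M σ fun V a θ ω => τ • W V a θ ω k)
    (hF : FAcc ω₀ Gb wt wt' s₁ q₀ R' (ρ + 1) M σ' G)
    (hR' : ∀ l ≤ K, ‖θ + ((l : ℝ) * τ) • e₀‖ ≤ R')
    (hc : ∑ l ∈ Finset.range (K + 1), |c l| ≤ Cq K)
    {q e : ℝ} {Δ : Pot d → A → Om d} (hq : 0 ≤ q) (he : 0 ≤ e) (hΔ : Disp Gb wt s₁ ρ q e Δ)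
    (hb : ∀ V a n, ∀ j ≤ K,
      ‖Pic K τ (W V a) e₀ n j θ (ω₀ V a + Δ V a) - (ω₀ V a + Δ V a)‖ ≤ Gb V a)
    (n : ℕ) (hM' : (3 * (K + 1) * Cq K * M) ^ (n + 1) ≤ M') :
    Acc (M' * (q + q₀)) (Cq K * σ') (fun V a => M' * ((e + 1) * wt V a + wt' V a))
      fun V a => ∑ l ∈ Finset.range (K + 1), c l • G V a (θ + ((l : ℝ) * τ) • e₀)
        (Pic K τ (W V a) e₀ n l θ (ω₀ V a + Δ V a)) := by
  have hC := one_le_Cq K
  have hK : (1 : ℝ) ≤ K + 1 := by simp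
  have hKM : (1 : ℝ) ≤ (K + 1) * M := one_le_mul_of_one_le_of_one_le hK hM
  have hCM : (1 : ℝ) ≤ Cq K * M := one_le_mul_of_one_le_of_one_le hC hM
  have ha : (1 : ℝ) ≤ 3 * (K + 1) * Cq K * M := by nlinarith
  have hp : (1 : ℝ) ≤ (3 * (K + 1) * Cq K * M) ^ n := one_le_pow₀ ha
  have hD := fun l (hl : l ≤ K) => disp_pic hG hw hτ he₀ hR hρ hq₀ hM hσ hs hW hq he hΔ hb n hl
  rw [pow_succ'] at hM'
  generalize (3 * (K + 1) * Cq K * M) ^ n = P at hp hD hM'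
  have h1 := Acc.sum (Finset.range (K + 1)) c (fun l hl =>
    hF _ (hR' l (Nat.lt_succ_iff.1 (Finset.mem_range.1 hl))) _ _ _
      (by positivity) (by positivity) (hD l (Nat.lt_succ_iff.1 (Finset.mem_range.1 hl)))) hσ'
  have hS0 : 0 ≤ ∑ l ∈ Finset.range (K + 1), |c l| := by positivity
  refine ((h1.mono ?_ fun V a => ?_).noise' ?_).congr fun V a => ?_
  · rw [Finset.card_range]
    push_cast
    have h2 : q₀ ≤ P * (q + q₀) := by nlinarith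
    have h3 : (K + 1) * (M * (P * (q + q₀) + q₀)) ≤ (K + 1) * (M * (3 * (P * (q + q₀)))) := by
      gcongr
      linarith
    have h4 : (K + 1) * (M * (3 * (P * (q + q₀)))) ≤
        (K + 1) * (M * (3 * (P * (q + q₀)))) * Cq K := le_mul_of_one_le_right (by positivity) hC
    have h5 := mul_le_mul_of_nonneg_right hM' (by positivity : 0 ≤ q + q₀)
    nlinarith
  · have hw0 := hw V a
    have hw1 := hw' V a
    have h2 : 1 ≤ P * (e + 1) := by nlinarith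
    have h3 : (P * (e + 1) + 1) * wt V a + wt' V a ≤ 3 * P * ((e + 1) * wt V a + wt' V a) := by
      have h31 : (P * (e + 1) + 1) * wt V a ≤ 3 * (P * (e + 1)) * wt V a :=
        mul_le_mul_of_nonneg_right (by linarith) hw0
      have h32 : wt' V a ≤ 3 * P * wt' V a := le_mul_of_one_le_left hw1 (by linarith)
      nlinarith
    have h4 : (∑ l ∈ Finset.range (K + 1), |c l|) * (M * ((P * (e + 1) + 1) * wt V a + wt' V a)) ≤
        Cq K * (M * (3 * P * ((e + 1) * wt V a + wt' V a))) := by gcongr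
    have h5 : Cq K * (M * (3 * P * ((e + 1) * wt V a + wt' V a))) ≤
        Cq K * (M * (3 * P * ((e + 1) * wt V a + wt' V a))) * (K + 1) :=
      le_mul_of_one_le_right (by positivity) hK
    have h6 := mul_le_mul_of_nonneg_right hM'
      (by positivity : 0 ≤ (e + 1) * wt V a + wt' V a)
    nlinarith
  · rw [abs_of_nonneg (mul_nonneg hS0 hσ')]
    exact mul_le_mul_of_nonneg_right hc hσ'
  · simp only [add_sub_cancel]

/-- The same as a field at a lower level. -/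
theorem facc_nodes {K : ℕ} {τ R' σ' M' : ℝ} {W : Pot d → A → Th → Om d → Om d}
    {G : Pot d → A → Th → Om d → E d} {e₀ : Th} {c : ℕ → ℝ}
    (hG : ∀ V a, 0 ≤ Gb V a) (hw : ∀ V a, 0 ≤ wt V a) (hw' : ∀ V a, 0 ≤ wt' V a) (hτ : 0 ≤ τ)
    (he₀ : ‖e₀‖ ≤ 1) (hR : R' + K * τ ≤ R) (hρ : 0 ≤ ρ) (hq₀ : 1 ≤ q₀) (hM : 1 ≤ M)
    (hσ : 0 ≤ σ) (hσ' : 0 ≤ σ') (hs : Cq K * σ ≤ s₁)
    (hW : ∀ k, FAcc ω₀ Gb wt (fun _ _ => 0) s₁ q₀ R (ρ + 1) M σ fun V a θ ω => τ • W V a θ ω k)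
    (hF : FAcc ω₀ Gb wt wt' s₁ q₀ R (ρ + 1) M σ' G)
    (hc : ∑ l ∈ Finset.range (K + 1), |c l| ≤ Cq K)
    (hb : ∀ V a θ ω, ‖θ‖ ≤ R' → ‖ω - ω₀ V a‖ ≤ ρ * Gb V a → ∀ n, ∀ j ≤ K,
      ‖Pic K τ (W V a) e₀ n j θ ω - ω‖ ≤ Gb V a)
    (n : ℕ) (hM' : (3 * (K + 1) * Cq K * M) ^ (n + 1) ≤ M') :
    FAcc ω₀ Gb wt wt' s₁ q₀ R' ρ M' (Cq K * σ')
      fun V a θ ω => ∑ l ∈ Finset.range (K + 1), c l • G V a (θ + ((l : ℝ) * τ) • e₀)
        (Pic K τ (W V a) e₀ n l θ ω) := by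
  intro θ hθ q e Δ hq he hΔ
  exact acc_nodes hG hw hw' hτ he₀ (by linarith) hρ hq₀ hM hσ hσ' hs hW hF
    (fun l hl => (norm_node_le he₀ hτ hl).trans (by linarith)) hc hq he hΔ
    (fun V a => hb V a θ _ hθ (by simpa using hΔ.1 V a)) n hM'

theorem facc_W0 {τ h κb : ℝ} {G : Pot d → A → Th → Om d → E d} {e₀ : Th}
    (hw : ∀ V a, 0 ≤ wt V a) (hM : 0 ≤ M) (hσ : 0 ≤ σ) (hκ : 0 < κb) (hτ : 0 ≤ τ) (hτ1 : τ ≤ 1)
    (hh : 0 ≤ h) (hh' : h ≤ κb) (he₀ : ‖e₀‖ ≤ 1)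
    (hF : FAcc ω₀ Gb wt (fun _ _ => 0) s₁ q₀ R ρ M σ fun V a θ ω => κb • G V a θ ω) (k : Fin 2) :
    FAcc ω₀ Gb wt (fun _ _ => 0) s₁ q₀ R ρ M σ fun V a θ ω => τ • W0 h (G V a) e₀ θ ω k := by
  have hk : |e₀ k| ≤ 1 := (norm_le_pi_norm e₀ k).trans he₀
  refine (hF.smul hw (fun _ _ => le_rfl) hM hσ (c := -(τ * (h / κb) * e₀ k)) ?_).congr
    fun V a θ ω => ?_
  · have h1 : h / κb ≤ 1 := (div_le_one hκ).2 hh'
    rw [abs_neg, abs_mul, abs_of_nonneg (by positivity)]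
    exact mul_le_one₀ (mul_le_one₀ hτ1 (by positivity) h1) (abs_nonneg _) hk
  · simp only [W0, smul_smul]
    congr 1
    field_simp

theorem norm_eu_le (k : Fin 2) : ‖eu k‖ ≤ 1 := by
  simp [eu, Pi.norm_single]

/-- `τ • W0 k = -(τ h e k / κb) • (κb • G)` has coefficient at most one; `disp_pic` with `ρ = 0`,
`disp_zero`, `Sch.disp0`. -/
theorem tree_smp (n : ℕ) : ∃ Dn : ℕ, ∀ K : ℕ, ∃ C : ℝ, 1 ≤ C ∧ ∀ (d : ℕ) (A : Type)
    [MeasurableSpace A] (ω₀ : Pot d → A → Om d) (Gb wt : Pot d → A → ℝ)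
    (s₁ q₀ M σ τ h κb Lg : ℝ) (G : Pot d → A → Th → Om d → E d), 0 < κb → 1 ≤ q₀ → 1 ≤ M →
    0 ≤ σ → C * σ ≤ s₁ → (∀ V a, 0 ≤ wt V a) → (∀ V a, Sch K τ h κb Lg (K * τ) (G V a)) →
    (∀ V a θ, ‖θ‖ ≤ K * τ → ‖G V a θ (ω₀ V a)‖ ≤ Gb V a) → (∀ V a, 0 ≤ Gb V a) → 0 < τ → τ ≤ 1 →
    0 ≤ h → h ≤ κb →
    FAcc ω₀ Gb wt (fun _ _ => 0) s₁ q₀ (K * τ) 1 M σ (fun V a θ ω => κb • G V a θ ω) →
    Acc ((C * M) ^ Dn * q₀) s₁ (fun V a => (C * M) ^ Dn * wt V a)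
      fun V a => Smp K τ n h (G V a) (ω₀ V a) - ω₀ V a 0 := by
  refine ⟨n, fun K => ⟨3 * (K + 1) * Cq K, ?_, ?_⟩⟩
  · have hC := one_le_Cq K
    have hK : (1 : ℝ) ≤ K + 1 := by simp
    nlinarith
  intro d A _ ω₀ Gb wt s₁ q₀ M σ τ h κb Lg G hκ hq₀ hM hσ hs hw hS hb hG hτ hτ1 hh hh' hF
  have hC := one_le_Cq K
  have hK : (1 : ℝ) ≤ K + 1 := by simp
  have hs' : Cq K * σ ≤ s₁ := le_trans (mul_le_mul_of_nonneg_right (by nlinarith) hσ) hs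
  have h1 := disp_pic (ω₀ := ω₀) (W := fun V a => W0 h (G V a) (eu 0)) (θ := 0) (R := K * τ)
    (ρ := 0) hG hw hτ.le (norm_eu_le 0) (by simp) le_rfl hq₀ hM hσ hs'
    (fun k => by
      rw [zero_add]
      exact facc_W0 hw (by linarith) hσ hκ hτ.le hτ1 hh hh' (norm_eu_le 0) hF k)
    le_rfl le_rfl disp_zero
    (fun V a n j hj => (hS V a).disp0 (by simp) (hb V a) (by simpa using hG V a)
      (norm_eu_le 0) n hj) n le_rfl
  simpa [Smp] using h1.2 0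

theorem tree_pow_le {b X Y : ℝ} {p : ℕ} (m : ℕ) (hb0 : 0 ≤ b) (hb : b ≤ X) (hY0 : 0 ≤ Y)
    (hY : Y ≤ X ^ p) : (b * Y) ^ m ≤ X ^ ((p + 1) * m) := by
  rw [pow_mul, pow_succ']
  have hX : 0 ≤ X := hb0.trans hb
  gcongr

/-- Levels `(R, ρ)`: `κb • G` at `(3Kτ, 3)` gives `τ • W0` at `(3Kτ, 3)`, hence (`disp_pic`,
`Sch.disp0`) `(κb τ) • ah k = ∑ c l • (κb • G) ..` and `τ • W1 e κ` (`|κ| ≤ κb`) at `(2Kτ, 2)`
with noise `2 Cq σ₁`; hence, using the second hypothesis for the outermost evaluations of `G`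
(in both terms of `Ch`) and `Sch.disp1`, `Sch.disp0`, `(κ' τ) • Ch` at `(Kτ, 1)` with noise
`2 Cq σ₂`; finally `disp_pic` at `ρ = 0` for `W1 (-eu 0) (-κ)` and `Acc.sum`. -/
theorem tree_corr (n : ℕ) : ∃ Dn : ℕ, ∀ K : ℕ, ∃ C : ℝ, 1 ≤ C ∧ ∀ (d : ℕ) (A : Type)
    [MeasurableSpace A] (ω₀ : Pot d → A → Om d) (Gb wt wt' : Pot d → A → ℝ)
    (s₁ q₀ M σ₁ σ₂ τ h κb Lg κ κ' : ℝ) (G : Pot d → A → Th → Om d → E d), 0 < κb → 1 ≤ q₀ →
    1 ≤ M → 0 ≤ σ₁ → 0 ≤ σ₂ → C * σ₁ ≤ s₁ → (∀ V a, 0 ≤ wt V a) → (∀ V a, 0 ≤ wt' V a) →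
    (∀ V a, Sch K τ h κb Lg (3 * (K * τ)) (G V a)) →
    (∀ V a θ, ‖θ‖ ≤ 3 * (K * τ) → ‖G V a θ (ω₀ V a)‖ ≤ Gb V a) → (∀ V a, 0 ≤ Gb V a) → 0 < τ →
    τ ≤ 1 → 0 ≤ h → h ≤ κb → |κ| ≤ κb → 0 < κ' → κ' ≤ κb →
    FAcc ω₀ Gb wt (fun _ _ => 0) s₁ q₀ (3 * (K * τ)) 3 M σ₁ (fun V a θ ω => κb • G V a θ ω) →
    FAcc ω₀ Gb wt wt' s₁ q₀ (2 * (K * τ)) 2 M σ₂ G →
    Acc ((C * M) ^ Dn * q₀) (C * (κ ^ 2 / κ') * σ₂)
      (fun V a => (C * M) ^ Dn * (κ ^ 2 / κ') * (wt V a + wt' V a))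
      fun V a => Corr K τ n h (G V a) κ κ' (ω₀ V a) := by
  refine ⟨((n + 1 + n + 1 + 1 + 1) * (n + 1) + 1 + 1) * (n + 1),
    fun K => ⟨3 * (K + 1) * Cq K * Cq K, ?_, ?_⟩⟩
  · have hC := one_le_Cq K
    have hK : (1 : ℝ) ≤ K + 1 := by simp
    have : 1 ≤ Cq K * Cq K := by nlinarith
    nlinarith
  intro d A _ ω₀ Gb wt wt' s₁ q₀ M σ₁ σ₂ τ h κb Lg κ κ' G hκb hq₀ hM hσ₁ hσ₂ hs hw hw' hS hb hG hτ
    hτ1 hh hh' hκ hκ'0 hκ' hF₁ hF₂
  have hC := one_le_Cq K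
  have hK : (1 : ℝ) ≤ K + 1 := by simp
  have hCC : 1 ≤ Cq K * Cq K := by nlinarith
  have hKτ : 0 ≤ K * τ := by positivity
  have hb1 : (3 : ℝ) ≤ 3 * (K + 1) * Cq K := by nlinarith
  have hbC : 3 * (K + 1) * Cq K ≤ 3 * (K + 1) * Cq K * Cq K :=
    le_mul_of_one_le_right (by linarith) hC
  have h2C : 2 * (Cq K * Cq K) ≤ 3 * (K + 1) * Cq K * Cq K := by nlinarith
  generalize 3 * (K + 1) * Cq K * Cq K = C at hs hbC h2C ⊢
  have hCX : C ≤ C * M := le_mul_of_one_le_right (by linarith) hM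
  have hMX : M ≤ C * M := le_mul_of_one_le_left (by linarith) (by linarith)
  generalize C * M = X at hCX hMX ⊢
  have hX : 3 ≤ X := by linarith
  have hX1 : 1 ≤ X := by linarith
  have hbX : 3 * (K + 1) * Cq K ≤ X := by linarith
  have hs0 : 0 ≤ s₁ := le_trans (mul_nonneg (by linarith) hσ₁) hs
  have hs1 : Cq K * σ₁ ≤ s₁ := le_trans (mul_le_mul_of_nonneg_right (by nlinarith) hσ₁) hs
  have hs2 : Cq K * (2 * Cq K * σ₁) ≤ s₁ :=
    le_trans (by nlinarith [mul_le_mul_of_nonneg_right h2C hσ₁]) hs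
  have hdbl : ∀ p : ℕ, X ^ p + X ^ p ≤ X ^ (p + 1) := fun p => by
    have : 0 ≤ X ^ p := by positivity
    rw [pow_succ]
    nlinarith
  have hMp : ∀ p : ℕ, M ≤ X ^ (p + 1) := fun p =>
    hMX.trans (le_self_pow₀ hX1 (Nat.succ_ne_zero p))
  have hz : ∀ (V : Pot d) (a : A), (0 : ℝ) ≤ (fun _ _ => 0 : Pot d → A → ℝ) V a :=
    fun _ _ => le_rfl
  -- level 3
  have A0 : ∀ e : Th, ‖e‖ ≤ 1 → ∀ k, FAcc ω₀ Gb wt (fun _ _ => 0) s₁ q₀ (3 * (K * τ)) 3 M σ₁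
      fun V a θ ω => τ • W0 h (G V a) e θ ω k := fun e he k =>
    facc_W0 hw (by linarith) hσ₁ hκb hτ.le hτ1 hh hh' he hF₁ k
  -- level 2
  have A1 : ∀ k, FAcc ω₀ Gb wt (fun _ _ => 0) s₁ q₀ (2 * (K * τ)) 2 (X ^ (n + 1 + n + 1))
      (Cq K * σ₁) fun V a θ ω => (κb * τ) • ah K τ n h (G V a) k θ ω := fun k => by
    have h3 : (3 : ℝ) = 2 + 1 := by norm_num
    refine (facc_nodes (W := fun V a => W0 h (G V a) (eu k)) (c := qc K) (R := 3 * (K * τ))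
      (G := fun V a θ ω => κb • G V a θ ω) (ρ := 2)
      hG hw hz hτ.le (norm_eu_le k) (by linarith) zero_le_two hq₀ hM hσ₁ hσ₁ hs1
      (fun l => by rw [← h3]; exact A0 _ (norm_eu_le k) l) (by rw [← h3]; exact hF₁)
      (sum_qc_le K) (fun V a θ ω hθ hω m j hj => (hS V a).disp0 (by linarith) (hb V a) hω
        (norm_eu_le k) m hj) n ?_).congr fun V a θ ω => ?_
    · refine (tree_pow_le (p := 1) (n + 1) (by linarith) hbX (by linarith)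
        (by rwa [pow_one])).trans_eq ?_
      congr 1
      ring
    · simp only [ah, Dif, smul_smul, Finset.smul_sum]
      refine Finset.sum_congr rfl fun l _ => ?_
      congr 1
      field_simp
  have A2 : ∀ e : Th, ‖e‖ ≤ 1 → ∀ κ₁ : ℝ, |κ₁| ≤ κb → ∀ k,
      FAcc ω₀ Gb wt (fun _ _ => 0) s₁ q₀ (2 * (K * τ)) 2 (X ^ (n + 1 + n + 1 + 1))
        (2 * Cq K * σ₁) fun V a θ ω => τ • W1 K τ n h (G V a) e κ₁ θ ω k := by
    intro e he κ₁ hκ₁ k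
    have h0 := (A0 e he k).mono hG hw hz hs0 (by linarith) (R' := 2 * (K * τ)) (ρ' := 2)
      (by linarith) zero_le_two (by norm_num) (hMp (n + 1 + n)) (abs_of_nonneg hσ₁).le
    have hc : |κ₁ / κb| ≤ 1 := by
      rw [abs_div, abs_of_pos hκb]
      exact (div_le_one hκb).2 hκ₁
    have hσ : |σ₁| + |Cq K * σ₁| ≤ 2 * Cq K * σ₁ := by
      rw [abs_of_nonneg hσ₁, abs_of_nonneg (by positivity)]
      nlinarith
    fin_cases k
    · refine (h0.add ((A1 1).smul hw hz (by positivity) (by positivity) hc) hw hz (by linarith)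
        (hdbl _) hσ).congr fun V a θ ω => ?_
      simp only [W1, Fin.zero_eta, Pi.add_apply, Pi.smul_apply, Matrix.cons_val_zero, smul_add,
        smul_smul]
      congr 2
      field_simp
    · refine (h0.add ((A1 0).smul hw hz (by positivity) (by positivity) (c := -(κ₁ / κb))
        (by rwa [abs_neg])) hw hz (by linarith) (hdbl _) hσ).congr fun V a θ ω => ?_
      simp only [W1, Fin.mk_one, Pi.add_apply, Pi.smul_apply, Matrix.cons_val_one,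
        Matrix.cons_val_zero, smul_add, smul_neg, smul_smul, ← neg_smul]
      congr 2
      field_simp
  -- level 1
  have h2 : (2 : ℝ) = 1 + 1 := by norm_num
  have hF₂' := hF₂.mono hG hw hw' hs0 (by linarith) le_rfl zero_le_two le_rfl
    (hMp (n + 1 + n + 1)) (abs_of_nonneg hσ₂).le
  have hP : (1 : ℝ) ≤ X ^ (n + 1 + n + 1 + 1) := one_le_pow₀ hX1
  have hκ'' : |κ'| ≤ κb := by rwa [abs_of_pos hκ'0]
  have A3 := facc_nodes (W := fun V a => W1 K τ n h (G V a) (eu 0) κ') (c := qc K)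
    (R := 2 * (K * τ)) (R' := K * τ) (G := G) (ρ := 1)
    hG hw hw' hτ.le (norm_eu_le 0) (by linarith) zero_le_one hq₀ hP (by positivity) hσ₂ hs2
    (fun l => by rw [← h2]; exact A2 _ (norm_eu_le 0) κ' hκ'' l) (by rw [← h2]; exact hF₂')
    (sum_qc_le K) (fun V a θ ω hθ hω m j hj => (hS V a).disp1 (by linarith) (hb V a)
      (hω.trans (by linarith [hG V a])) (norm_eu_le 0) hκ'' n m hj) n
    (tree_pow_le (n + 1) (by linarith) hbX (by linarith) le_rfl)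
  have A4 := facc_nodes (W := fun V a => W0 h (G V a) (eu 0)) (c := qc K)
    (R := 2 * (K * τ)) (R' := K * τ) (G := G) (ρ := 1)
    hG hw hw' hτ.le (norm_eu_le 0) (by linarith) zero_le_one hq₀ hP hσ₁ hσ₂ hs1
    (fun l => (A0 _ (norm_eu_le 0) l).mono hG hw hz hs0 (by linarith) (by linarith) (by norm_num)
      (by norm_num) (hMp _) (abs_of_nonneg hσ₁).le) (by rw [← h2]; exact hF₂')
    (sum_qc_le K) (fun V a θ ω hθ hω m j hj => (hS V a).disp0 (by linarith) (hb V a)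
      (hω.trans (by linarith [hG V a])) (norm_eu_le 0) m hj) n
    (tree_pow_le (n + 1) (by linarith) hbX (by linarith) le_rfl)
  have A5 : FAcc ω₀ Gb wt wt' s₁ q₀ (K * τ) (0 + 1) (X ^ ((n + 1 + n + 1 + 1 + 1) * (n + 1) + 1))
      (2 * Cq K * σ₂) fun V a θ ω => (κ' * τ) • Ch K τ n h (G V a) κ' θ ω := by
    rw [zero_add]
    refine (A3.add (A4.smul hw hw' (by positivity) (by positivity) (c := -1) (by simp)) hw hw'
      (by linarith) (hdbl _) ?_).congr fun V a θ ω => ?_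
    · rw [abs_of_nonneg (by positivity)]
      linarith
    · simp only [Ch, ah, Dif, ← smul_sub, smul_smul, neg_one_smul, ← sub_eq_add_neg]
      rw [show κ' * τ * (κ'⁻¹ * τ⁻¹) = 1 by field_simp, one_smul]
  -- level 0
  have he : ‖-eu 0‖ ≤ 1 := by simpa using norm_eu_le 0
  have hθ : ‖((K : ℝ) * τ) • eu 0‖ ≤ K * τ := by
    rw [norm_smul, Real.norm_of_nonneg hKτ]
    exact mul_le_of_le_one_right hKτ (norm_eu_le 0)
  have hκn : |-κ| ≤ κb := by rwa [abs_neg]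
  have A6 := acc_nodes (W := fun V a => W1 K τ n h (G V a) (-eu 0) (-κ)) (c := qw K K)
    (R := 2 * (K * τ)) (θ := ((K : ℝ) * τ) • eu 0) (e₀ := -eu 0) (ρ := 0)
    hG hw hw' hτ.le he (by linarith) le_rfl hq₀ (one_le_pow₀ hX1) (σ := 2 * Cq K * σ₁)
    (by positivity) (by positivity) hs2
    (fun l => (A2 _ he _ hκn l).mono hG hw hz hs0 (by linarith) le_rfl (by norm_num)
      (by norm_num) (pow_le_pow_right₀ hX1 (by nlinarith)) (abs_of_nonneg (by positivity)).le) A5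
    (fun l hl => by
      have hl' : (l : ℝ) ≤ K := by exact_mod_cast hl
      have h0 : 0 ≤ (K : ℝ) * τ - l * τ := by nlinarith
      rw [smul_neg, ← sub_eq_add_neg, ← sub_smul, norm_smul, Real.norm_of_nonneg h0]
      have : 0 ≤ (l : ℝ) * τ := by positivity
      exact (mul_le_of_le_one_right h0 (norm_eu_le 0)).trans (by linarith))
    (sum_qw_le K le_rfl) le_rfl le_rfl disp_zero
    (fun V a m j hj => (hS V a).disp1 (by linarith) (hb V a) (by simpa using hG V a) he hκn n m hj)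
    n (tree_pow_le (n + 1) (by linarith) hbX (by positivity) le_rfl)
  have hκκ : 0 ≤ κ ^ 2 / κ' := by positivity
  refine (((A6.smul (κ ^ 2 / κ')).mono (by rw [zero_add]) fun V a => ?_).noise' ?_).congr
    fun V a => ?_
  · rw [abs_of_nonneg hκκ]
    exact le_of_eq (by ring)
  · rw [abs_of_nonneg (by positivity)]
    have := mul_le_mul_of_nonneg_right h2C (mul_nonneg hκκ hσ₂)
    nlinarith
  · simp only [Corr, add_zero, Finset.smul_sum, smul_smul]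
    refine Finset.sum_congr rfl fun l _ => ?_
    congr 1
    field_simp

end Crest.Agent.R285
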